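import Vale.Agent.P317.H964.SampMain

/-!
# P317 (helper964): from the first form of the language to the one of the statement
-/

namespace Vale.Agent.P317.H964

open Vale.Agent.P317 Vale.Agent.P317.Small

theorem prob_cv_eq {α β : Type} {f : α → β} {p : α → Prop} {q : β → Prop}
    (h : ∀ a, p a ↔ q (f a)) (t : P317.Rnd α) : t.prob p = (cvR f t).prob q := by
  induction t with
  | leaf a =>
    unfold P317.Rnd.prob cvR Small.Rnd.prob
    by_cases hp : p a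
    · rw [if_pos hp, if_pos ((h a).1 hp)]
    · rw [if_neg hp, if_neg (fun hq => hp ((h a).2 hq))]
  | flip t u iht ihu =>
    unfold P317.Rnd.prob cvR Small.Rnd.prob
    rw [iht, ihu]

variable {n : ℕ} {M₁ M₂ : Matroid (Fin n)} {c : Cmd} {s₀ : P317.State} {F : Set (Set (Fin n))}
  {e l T T' : ℕ} {ε δ : ℝ}

theorem counts_of
    (h2 : 1 - (1 / 2) ^ l ≤ (P317.run (P317.oracles M₁ M₂) c s₀).prob (fun s => 0 < s.num 4 ∧
      |(s.num 3 : ℝ) / s.num 4 - (Nat.card F : ℕ)| ≤ (Nat.card F : ℕ) / e))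
    (h1 : (P317.run (P317.oracles M₁ M₂) c s₀).All (fun s => s.time ≤ T'))
    (hT : T = T')
    (he : (1 : ℝ) / e ≤ ε) (hδ : ((1 : ℝ) / 2) ^ l ≤ δ) :
    Fam.Counts (Small.oracles M₁ M₂) (cvC c) (cvS s₀) F ε δ T := by
  subst hT
  have h0 : Small.run (Small.oracles M₁ M₂) (cvC c) (cvS s₀) =
      cvR cvS (P317.run (P317.oracles M₁ M₂) c s₀) := by
    have e1 : Small.oracles M₁ M₂ = P317.oracles M₁ M₂ := rfl
    rw [e1, cv_run]
  refine ⟨?_, ?_⟩
  · rw [h0]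
    exact prob_cv_one (f := cvS) (fun s hs => hs) h1
  · rw [h0]
    have h3 : 1 - δ ≤ 1 - (1 / 2) ^ l := by linarith
    refine h3.trans (h2.trans ?_)
    exact prob_cv (f := cvS) (fun s h4 => ⟨h4.1, Alg.good_interval he h4.2⟩) _

theorem samples_of
    (h1 : (P317.run (P317.oracles M₁ M₂) c s₀).All (fun s => s.time ≤ T'))
    (hT : T = T')
    (h2 : F.Nonempty → ∀ 𝓖 : Set (Set (Fin n)),
      |(P317.run (P317.oracles M₁ M₂) c s₀).prob
          (fun s => {x : Fin n | (x : ℕ) ∈ s.set 0} ∈ 𝓖) -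
        (Nat.card ↥(F ∩ 𝓖) : ℝ) / Nat.card F| ≤ (1 / 2) ^ l + 1 / e)
    (he : (1 : ℝ) / e ≤ ε) (hδ : ((1 : ℝ) / 2) ^ l ≤ δ) :
    Fam.Samples (Small.oracles M₁ M₂) (cvC c) (cvS s₀) F (ε + δ) T := by
  subst hT
  have h0 : Small.run (Small.oracles M₁ M₂) (cvC c) (cvS s₀) =
      cvR cvS (P317.run (P317.oracles M₁ M₂) c s₀) := by
    have e1 : Small.oracles M₁ M₂ = P317.oracles M₁ M₂ := rfl
    rw [e1, cv_run]
  refine ⟨?_, ?_⟩
  · rw [h0]
    exact prob_cv_one (f := cvS) (fun s hs => hs) h1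
  · intro hne G
    rw [h0, ← prob_cv_eq (f := cvS) (p := fun s => {x : Fin n | (x : ℕ) ∈ s.set 0} ∈ G)
      (fun s => Iff.rfl)]
    exact (h2 hne G).trans (by linarith)

end Vale.Agent.P317.H964
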