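import Vale.Agent.P317.MathlibUsed
import Vale.Agent.P317.Prog

/-!
# P317 (helper964): definitions for the hand-in `RankCountAndSample`
-/

namespace Vale.Agent.P317.Fam

open Vale.Agent.P317.Small

/-- The sets which are independent in `M₁`, have at most `a` elements, and have rank at least `b`
in `M₂`. For `a = b = k` these are the common independent sets with `k` elements. -/
def family {n : ℕ} (M₁ M₂ : Matroid (Fin n)) (a b : ℕ) : Set (Set (Fin n)) :=
  {A | M₁.Indep A ∧ A.encard ≤ a ∧ b ≤ M₂.eRk A}

/-- The input: `n`, `e`, `l`, `a`, `b` in the number registers `0, 1, 2, 3, 4`; all else is empty. -/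
def input5 (n e l a b : ℕ) : State :=
  ⟨fun x => if x = 0 then n else if x = 1 then e else if x = 2 then l else if x = 3 then a
    else if x = 4 then b else 0, fun _ => ∅, 0⟩

/-- Program `c`, started in `s₀` with oracles `o`, makes at most `T` steps for all outcomes of its
coins, and with probability at least `1 - δ` the quotient of its final number registers `3` and `4`
is the number of members of `F` up to a factor between `1 - ε` and `1 + ε`. -/
structure Counts {n : ℕ} (o : Bool → Finset ℕ → Bool) (c : Prog) (s₀ : State)
    (F : Set (Set (Fin n))) (ε δ : ℝ) (T : ℕ) : Prop where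
  time : (run o c s₀).prob (fun s => s.time ≤ T) = 1
  accurate : 1 - δ ≤ (run o c s₀).prob (fun s => 0 < s.num 4 ∧
    (1 - ε) * Nat.card F ≤ (s.num 3 : ℝ) / s.num 4 ∧
    (s.num 3 : ℝ) / s.num 4 ≤ (1 + ε) * Nat.card F)

/-- Program `c`, started in `s₀` with oracles `o`, makes at most `T` steps for all outcomes of its
coins, and if `F` is not empty, then the law of its final set register `0` is within `η` of the
uniform distribution on `F` in total variation distance. -/
structure Samples {n : ℕ} (o : Bool → Finset ℕ → Bool) (c : Prog) (s₀ : State)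
    (F : Set (Set (Fin n))) (η : ℝ) (T : ℕ) : Prop where
  time : (run o c s₀).prob (fun s => s.time ≤ T) = 1
  uniform : F.Nonempty → ∀ G : Set (Set (Fin n)),
    |(run o c s₀).prob (fun s => {x : Fin n | (x : ℕ) ∈ s.set 0} ∈ G) -
      (Nat.card ↥(F ∩ G) : ℝ) / Nat.card F| ≤ η

end Vale.Agent.P317.Fam
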