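import Vale.Agent.P317.H964.Tr
import Vale.Agent.P317.H964.Defs

/-!
# P317 (helper964): the counting program with size and rank bounds
-/

set_option linter.unusedSimpArgs false
set_option linter.unusedVariables false

namespace Vale.Agent.P317.H964

open Rnd Alg

/-- the input with the two bounds -/
def input5 (n e l a b : ℕ) : State where
  num := fun x => if x = 0 then n else if x = 1 then e else if x = 2 then l else if x = 3 then a
    else if x = 4 then b else 0
  set := fun _ => ∅
  time := 0

/-- preparation -/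
def initC : Cmd :=
  .seq (.add 60 0 69) (.seq (.const 61 1) (.seq (.add 62 3 69) (.seq (.add 63 4 69)
    (.seq (.const 3 0) (.const 4 0)))))

theorem run_init (o : Bool → Finset ℕ → Bool) (n e l a b : ℕ) :
    Ex (run o initC (input5 n e l a b)) (fun s' => Tq n a b 6 s' (input n e l)) := by
  refine ⟨_, rfl, ?_, ?_, ?_, ?_, ?_, ?_, ?_⟩
  · intro r hr
    simp only [State.putNum, input5, input]
    simp only [Function.update_apply]
    have h60 : r ≠ 60 := by omega
    have h61 : r ≠ 61 := by omega
    have h62 : r ≠ 62 := by omega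
    have h63 : r ≠ 63 := by omega
    simp only [if_neg h60, if_neg h61, if_neg h62, if_neg h63]
    split_ifs <;> simp_all
  · rfl
  · simp [State.putNum, input5]
  · simp [State.putNum, input5]
  · simp [State.putNum, input5]
  · simp [State.putNum, input5]
  · simp [State.putNum, input5, input]

theorem sim_wrap (o : Bool → Finset ℕ → Bool) (c : Cmd) (hc : lowN 60 c = true)
    (n e l a b : ℕ) :
    Sim (Tq n a b 6) (run o (.seq initC (tr c)) (input5 n e l a b))
      (run (oT n a b o) c (input n e l)) := by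
  obtain ⟨s', h1, h2⟩ := run_init o n e l a b
  have e1 : run o (.seq initC (tr c)) (input5 n e l a b) = run o (tr c) s' := by
    have : run o (.seq initC (tr c)) (input5 n e l a b) =
      (run o initC (input5 n e l a b)).bind (run o (tr c)) := rfl
    rw [this, h1]
    rfl
  rw [e1]
  exact sim_tr c hc s' _ h2

/-- the output is `0 / 1` if the rank of the second matroid is smaller than the bound `b` -/
def finC : Cmd :=
  .seq (.const 18 0) (.seq (.const 5 1) (.seq (.add 0 60 18) (.seq rankCodeT
    (.cond 9 63 (.seq (.const 3 0) (.const 4 1)) skp))))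

theorem run_fin {o : Bool → Finset ℕ → Bool} {n a b C : ℕ} {s' s : State}
    (h : Tq n a b C s' s) :
    Ex (run o finC s') (fun t =>
      ((greedy (o true) (fun _ => true) n).2 < b → t.num 3 = 0 ∧ t.num 4 = 1) ∧
      (¬ (greedy (o true) (fun _ => true) n).2 < b → t.num 3 = s.num 3 ∧ t.num 4 = s.num 4) ∧
      t.time ≤ C + (4 * n + 6) * s.time + (9 * n + 11)) := by
  set s₁ := ((s'.putNum 18 0).putNum 5 1).putNum 0 n with hs1
  have e0 : run o (.seq (.const 18 0) (.seq (.const 5 1) (.seq (.add 0 60 18) (.seq rankCodeT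
    (.cond 9 63 (.seq (.const 3 0) (.const 4 1)) skp))))) s' =
      run o (.seq rankCodeT (.cond 9 63 (.seq (.const 3 0) (.const 4 1)) skp)) s₁ := by
    have k : ((s'.putNum 18 0).putNum 5 1).num 60 + ((s'.putNum 18 0).putNum 5 1).num 18 = n := by
      simp [State.putNum, h.n60]
    rw [hs1]
    simp only [run, bind_leaf, k]
  unfold finC
  rw [e0]
  refine (run_rankT (o := o) (n := n) (s := s₁) (by simp [hs1, State.putNum])
    (by simp [hs1, State.putNum]) (by simp [hs1, State.putNum])).seq ?_
  rintro s₂ ⟨g1, g2, g3, g4⟩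
  have e3 : s₂.num 3 = s.num 3 := by
    rw [g1 3 (by norm_num) (by norm_num)]
    simp [hs1, State.putNum, h.num 3 (by norm_num)]
  have e4 : s₂.num 4 = s.num 4 := by
    rw [g1 4 (by norm_num) (by norm_num)]
    simp [hs1, State.putNum, h.num 4 (by norm_num)]
  have e63 : s₂.num 63 = b := by
    rw [g1 63 (by norm_num) (by norm_num)]
    simp [hs1, State.putNum, h.b63]
  have et : s₁.time = s'.time + 3 := by simp only [hs1, State.putNum]
  have ht := h.time
  by_cases hc : (greedy (o true) (fun _ => true) n).2 < b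
  · have hc' : s₂.num 9 < s₂.num 63 := by rw [g4, e63]; exact hc
    unfold Ex
    simp only [run, if_pos hc', bind_leaf]
    refine ⟨_, rfl, fun _ => ⟨?_, ?_⟩, fun hn => absurd hc hn, ?_⟩
    · simp [State.putNum]
    · simp [State.putNum]
    · simp only [State.putNum, State.tick]
      omega
  · have hc' : ¬ s₂.num 9 < s₂.num 63 := by rw [g4, e63]; exact hc
    unfold Ex
    simp only [run, if_neg hc', skp]
    refine ⟨_, rfl, fun hn => absurd hn hc, fun _ => ⟨?_, ?_⟩, ?_⟩
    · simp [State.putNum, State.tick, e3]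
    · simp [State.putNum, State.tick, e4]
    · simp only [State.putNum, State.tick]
      omega

/-- the counting program with bounds -/
def cntProg : Cmd := .seq (.seq initC (tr progT)) finC

theorem low_progT : lowN 60 progT = true := by decide +kernel

theorem sim_cnt (o : Bool → Finset ℕ → Bool) (n e l a b : ℕ) :
    Sim (fun t s =>
      ((greedy (o true) (fun _ => true) n).2 < b → t.num 3 = 0 ∧ t.num 4 = 1) ∧
      (¬ (greedy (o true) (fun _ => true) n).2 < b → t.num 3 = s.num 3 ∧ t.num 4 = s.num 4) ∧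
      t.time ≤ 6 + (4 * n + 6) * s.time + (9 * n + 11))
      (run o cntProg (input5 n e l a b)) (run (oT n a b o) progT (input n e l)) := by
  have h := sim_wrap o progT low_progT n e l a b
  have e1 : run o cntProg (input5 n e l a b) =
    (run o (.seq initC (tr progT)) (input5 n e l a b)).bind (run o finC) := rfl
  have e2 : run (oT n a b o) progT (input n e l) =
    (run (oT n a b o) progT (input n e l)).bind .leaf := by
    generalize run (oT n a b o) progT (input n e l) = t
    induction t with
    | leaf a => rfl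
    | flip t u iht ihu => rw [bind_flip, ← iht, ← ihu]
  rw [e1, e2]
  refine h.bind ?_
  intro s' s hs
  exact (run_fin hs).leaf fun t ht => ht

/-- members of the family, as finite sets -/
theorem card_family {n : ℕ} (M₁ M₂ : Matroid (Fin n)) (a b : ℕ) (hb : b ≤ rkM M₂ Finset.univ) :
    Nat.card (Fam.family M₁ M₂ a b) = (indSpan (trunc M₁ a) (trunc M₂ b)).card := by
  classical
  have e : Nat.card {B : Finset (Fin n) // M₁.Indep (B : Set (Fin n)) ∧
      (B : Set (Fin n)).encard ≤ a ∧ b ≤ M₂.eRk (B : Set (Fin n))} =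
      (indSpan (trunc M₁ a) (trunc M₂ b)).card := by
    refine Nat.subtype_card _ fun B => ?_
    unfold indSpan
    rw [Finset.mem_filter, trunc_iff, trunc_span_iff M₂ hb, ← coe_rkM,
      Set.encard_coe_eq_coe_finsetCard]
    simp only [Finset.mem_univ, true_and, Nat.cast_le, and_assoc]
  rw [← e]
  refine Nat.card_congr ⟨fun B => ⟨B.1.toFinset, by simpa [Fam.family] using B.2⟩,
    fun B => ⟨(B.1 : Set (Fin n)), B.2⟩, fun B => ?_, fun B => ?_⟩
  · exact Subtype.ext (by simp)
  · exact Subtype.ext (by simp)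

theorem card_family_zero {n : ℕ} (M₁ M₂ : Matroid (Fin n)) (a b : ℕ)
    (hb : rkM M₂ Finset.univ < b) : Fam.family M₁ M₂ a b = ∅ := by
  ext A
  simp only [Fam.family, Set.mem_ofPred_eq, Set.mem_empty_iff_false, iff_false, not_and]
  intro _ _ h
  have h1 : M₂.eRk A ≤ M₂.eRk ((Finset.univ : Finset (Fin n)) : Set (Fin n)) := by
    apply M₂.eRk_mono
    simp
  rw [← coe_rkM] at h1
  have h2 := h.trans h1
  have h3 : b ≤ rkM M₂ Finset.univ := by exact_mod_cast h2
  omega

theorem time_aux {x n t : ℕ} (hx3 : 3 ≤ x) (hn : n + 2 ≤ x) (ht : t ≤ x ^ 241) :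
    6 + (4 * n + 6) * t + (9 * n + 11) ≤ x ^ 245 := by
  have h1 : 4 * n + 6 ≤ 4 * x := by omega
  have h2 : (4 * n + 6) * t ≤ 4 * x * x ^ 241 := Nat.mul_le_mul h1 ht
  have h3 : 4 * x * x ^ 241 = 4 * x ^ 242 := by
    rw [mul_assoc, ← pow_succ']
  have h4 : x ≤ x ^ 242 := by
    calc x = x ^ 1 := (pow_one x).symm
      _ ≤ x ^ 242 := Nat.pow_le_pow_right (by omega) (by norm_num)
  have h5 : 6 + (4 * n + 6) * t + (9 * n + 11) ≤ 27 * x ^ 242 := by
    rw [h3] at h2
    generalize (4 * n + 6) * t = w at *
    generalize x ^ 242 = v at *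
    omega
  have h6 : 27 ≤ x ^ 3 :=
    calc 27 = 3 ^ 3 := by norm_num
      _ ≤ x ^ 3 := Nat.pow_le_pow_left hx3 3
  calc _ ≤ 27 * x ^ 242 := h5
    _ ≤ x ^ 3 * x ^ 242 := Nat.mul_le_mul_right _ h6
    _ = x ^ 245 := by rw [← pow_add]

theorem time_arith2 {n e l t : ℕ} (he : 0 < e) (ht : t ≤ (n + e + l + 2) ^ 241) :
    6 + (4 * n + 6) * t + (9 * n + 11) ≤ (n + e + l + 2) ^ 245 :=
  time_aux (by omega) (by omega) ht

/-- the specification of the counting program with bounds -/
theorem cnt_spec (n : ℕ) (M₁ M₂ : Matroid (Fin n)) (a b e l : ℕ) (he : 0 < e) :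
    (run (oracles M₁ M₂) cntProg (input5 n e l a b)).All
      (fun s => s.time ≤ (n + e + l + 2) ^ 245) ∧
    1 - (1 / 2) ^ l ≤ (run (oracles M₁ M₂) cntProg (input5 n e l a b)).prob (fun s =>
      0 < s.num 4 ∧ |(s.num 3 : ℝ) / s.num 4 - (Nat.card (Fam.family M₁ M₂ a b) : ℕ)| ≤
        (Nat.card (Fam.family M₁ M₂ a b) : ℕ) / e) := by
  have hsim := sim_cnt (oracles M₁ M₂) n e l a b
  rw [greedy_rank_univT] at hsim
  obtain ⟨h1, h2⟩ := progT_spec n (trunc M₁ a) (trunc M₂ b) e l he
  rw [← oT_oracles] at h1 h2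
  constructor
  · refine hsim.all h1 ?_
    rintro t s ⟨-, -, ht⟩ hs
    exact ht.trans (time_arith2 he hs)
  · by_cases hb : rkM M₂ Finset.univ < b
    · rw [card_family_zero M₁ M₂ a b hb]
      have hp : (run (oracles M₁ M₂) cntProg (input5 n e l a b)).prob (fun s =>
          0 < s.num 4 ∧ |(s.num 3 : ℝ) / s.num 4 -
            (Nat.card (∅ : Set (Set (Fin n))) : ℕ)| ≤ (Nat.card (∅ : Set (Set (Fin n))) : ℕ) / e) =
          (run (oT n a b (oracles M₁ M₂)) progT (input n e l)).prob (fun _ => True) := by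
        refine prob_eq_of_sim hsim ?_
        rintro t s ⟨k1, -, -⟩
        obtain ⟨k3, k4⟩ := k1 hb
        rw [k3, k4]
        simp
      rw [hp]
      have : (run (oT n a b (oracles M₁ M₂)) progT (input n e l)).prob (fun _ => True) = 1 := by
        rw [prob_eq_ex]
        simp only [if_true]
        exact ex_const _ _
      rw [this]
      have : (0 : ℝ) ≤ (1 / 2) ^ l := by positivity
      linarith
    · rw [card_family M₁ M₂ a b (not_lt.1 hb)]
      refine h2.trans (le_of_eq ?_)
      refine (prob_eq_of_sim hsim ?_).symm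
      rintro t s ⟨-, k2, -⟩
      obtain ⟨k3, k4⟩ := k2 hb
      rw [k3, k4]

end Vale.Agent.P317.H964
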