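import Vale.Agent.P317.MathlibUsed
import Vale.Agent.P317.Bdl.B6
import Vale.Agent.P317.Bdl.B8

/-!
# P317 (helper964): the counting program for matroids of arbitrary ranks

The rank of the second matroid is computed by its own oracle; nothing else changes. The program
counts the sets which are independent in the first and spanning in the second matroid.
-/

set_option linter.unusedSimpArgs false
set_option linter.unusedVariables false
set_option linter.unnecessarySeqFocus false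
set_option linter.unreachableTactic false
set_option linter.unusedTactic false

namespace Vale.Agent.P317.Alg

open Rnd

/-- body of the greedy algorithm for the second oracle, all elements -/
def greedyBodyT : Cmd :=
  .seq (.copy 5 4) (.seq (.insert 5 20) (.seq (.ask true 22 5)
    (.seq (.cond 18 22 (.seq (.copy 4 5) (.add 23 23 5)) skp) (.add 20 20 5))))

/-- register 9 := rank of the second matroid -/
def rankCodeT : Cmd := .seq (greedyCode greedyBodyT) (.add 9 23 18)

theorem run_greedyT {o : Bool → Finset ℕ → Bool} {n : ℕ} {s : State} (hn : s.num 0 = n)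
    (h1 : s.num 5 = 1) (h18 : s.num 18 = 0) :
    Ex (run o (greedyCode greedyBodyT) s) (fun s' => Fr 26 s s' (9 * n + 4) ∧
      s'.num 23 = (greedy (o true) (fun _ => true) n).2) := by
  set G := greedy (o true) (fun _ => true) with hG
  set Inv : ℕ → State → Prop := fun m s' => Fr 26 s s' (9 * m + 4) ∧ s'.num 20 = m ∧
    s'.set 4 = (G m).1 ∧ s'.num 23 = (G m).2 with hInv
  have hstep : ∀ i s', Inv i s' → Ex (run o greedyBodyT s'.tick) (Inv (i + 1)) := by
    rintro m s' ⟨hF, h20, h4, h23⟩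
    have hone : s'.num 5 = 1 := by rw [hF.num 5 (by norm_num)]; exact h1
    have hzero : s'.num 18 = 0 := by rw [hF.num 18 (by norm_num)]; exact h18
    have hGs : G (m + 1) = if True ∧ o true (insert m (G m).1) = true
      then (insert m (G m).1, (G m).2 + 1) else G m := by
      rw [hG, greedy]
      simp
    by_cases c2 : o true (insert m (G m).1) = true
    all_goals
      unfold Ex
      simp [greedyBodyT, skp, run, State.putNum, State.putSet, State.tick, hone, hzero, h20, h4,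
        h23, c2]
      refine ⟨⟨?_, ?_, ?_⟩, ?_, ?_, ?_⟩
      · intro r hr
        have := hF.num r hr
        simp (disch := omega) [Function.update_of_ne, this]
      · intro X hX4 hX5
        have := hF.set X hX4 hX5
        simp (disch := omega) [Function.update_of_ne, this]
      · have := hF.time
        simp only
        omega
      all_goals simp [hGs, c2, h4, h23]
  have h0 : Inv 0 (((s.putNum 20 0).putNum 23 0).putSet 4 ∅).tick := by
    refine ⟨?_, ?_, ?_, ?_⟩
    · exact ((((Fr.refl 26 s 0).put (by norm_num) (by norm_num)).put (by norm_num)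
        (by norm_num)).putS (Or.inl rfl)).tick
    all_goals simp [State.putNum, State.putSet, State.tick, hG, greedy]
  have hloop := ex_loop hstep n 0 _ h0
  rw [Nat.zero_add] at hloop
  have e : run o (greedyCode greedyBodyT) s = iter (run o greedyBodyT) n
      (((s.putNum 20 0).putNum 23 0).putSet 4 ∅).tick := by
    have : (((s.putNum 20 0).putNum 23 0).putSet 4 ∅).num 0 = n := by
      simp only [State.putSet, State.putNum, ne_eq, OfNat.zero_ne_ofNat, not_false_eq_true, Function.update_of_ne, hn]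
    rw [← this]
    rfl
  rw [e]
  refine hloop.mono ?_
  rintro s' ⟨h1, h2, h3, h4⟩
  exact ⟨h1, h4⟩

/-- exactly the number register `9`, the number registers `20, …, 25` and the set registers `4, 5`
are changed -/
theorem run_rankT {o : Bool → Finset ℕ → Bool} {n : ℕ} {s : State} (hn : s.num 0 = n)
    (h1 : s.num 5 = 1) (h18 : s.num 18 = 0) :
    Ex (run o rankCodeT s) (fun s' =>
      (∀ r, r < 20 ∨ 26 ≤ r → r ≠ 9 → s'.num r = s.num r) ∧
      (∀ X, X ≠ 4 → X ≠ 5 → s'.set X = s.set X) ∧ s'.time ≤ s.time + (9 * n + 5) ∧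
      s'.num 9 = (greedy (o true) (fun _ => true) n).2) := by
  unfold rankCodeT
  refine (run_greedyT hn h1 h18).seq ?_
  rintro s' ⟨hF, h23⟩
  refine ⟨_, rfl, ?_, ?_, ?_, ?_⟩
  · intro r hr h9
    simp [State.putNum, h9, hF.num r hr]
  · intro X h4 h5
    simp [State.putNum, hF.set X h4 h5]
  · have := hF.time
    simp only [State.putNum]
    (clear * - this; omega)
  · have h18' : s'.num 18 = 0 := by rw [hF.num 18 (by norm_num)]; exact h18
    simp [State.putNum, h23, h18']


section pre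

variable {o : Bool → Finset ℕ → Bool}

/-- preparation, with the rank of the second matroid -/
def preCodeT : Cmd := .seq pre1 (.seq pre2 (.seq pre3 (.seq pre4 rankCodeT)))

theorem ex_preT (n e l : ℕ) :
    Ex (run o preCodeT (input n e l)) (fun s' => ∃ a, a ≤ 2 * n ∧ 2 * n ≤ 2 ^ a ∧
      (1 ≤ n → 2 ^ a ≤ 4 * n) ∧
      Rl ⟨o, n, (greedy (o true) (fun _ => true) n).2, a, (n + e + l + 16) ^ 34⟩
        (n * (n + e + l + 16)) s' (q0 n) ∧
      s'.time ≤ 68 * (n + e + l + 16) + 23 * n + 169) := by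
  set u := n + e + l + 16 with hu
  refine Ex.seq (ex_pre1 n e l) fun s h => ?_
  refine Ex.seq (ex_pre2 h) fun s h => ?_
  refine Ex.seq (ex_pre3 h) fun s h => ?_
  refine Ex.seq (ex_pre4 h) ?_
  rintro s ⟨a, h, k1, k2, k3⟩
  refine (run_rankT (o := o) (n := n) (s := s)
    (by rw [h.num _ (by norm_num) (by norm_num)]; simp [f3, Function.update_apply])
    (by rw [h.num _ (by norm_num) (by norm_num)]; simp [f3, Function.update_apply])
    (by rw [h.num _ (by norm_num) (by norm_num)]; simp [f3, Function.update_apply])).mono ?_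
  rintro s' ⟨g1, g2, g3, g4⟩
  have key : ∀ r, r < 20 → r ≠ 1 → r ≠ 9 → s'.num r = Function.update (f3 n u) 6 a r := by
    intro r hr hr1 hr9
    rw [g1 r (Or.inl hr) hr9, h.num r hr hr1]
  refine ⟨a, k1, k2, k3, ⟨⟨?_, ?_, g4, ?_, ?_⟩, ?_, ?_, ?_, ?_, ?_, ?_, ?_, ?_, ?_, ?_, ?_, ?_, ?_,
    ?_, ?_⟩, ?_⟩
  all_goals first
    | (rw [key _ (by norm_num) (by norm_num) (by norm_num)]
       simp [f3, Function.update_apply, q0])
    | (rw [g2 _ (by norm_num) (by norm_num), h.set _ (by norm_num)]; rfl)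
    | skip
  have := h.time
  omega


end pre

end Vale.Agent.P317.Alg

namespace Vale.Agent.P317.Alg

open Finset Window Anneal Rnd

variable {n : ℕ} {M₁ M₂ : Matroid (Fin n)} {r a : ℕ}

/-- arithmetic for the thread law, including the last stage -/
lemma arith_thread' {n u e k : ℕ} (hn : 1 ≤ n) (he : 1 ≤ e) (hu17 : 17 ≤ u) (hnu : n ≤ u)
    (heu : e ≤ u) (hk : k ≤ n * u) :
    ((n : ℝ) ^ 2 + 8 * k) * Real.sqrt (CT n / (((u ^ 34 : ℕ) : ℝ) + 1)) ≤ th n u e / 2 := by
  have hn' : (1 : ℝ) ≤ n := by exact_mod_cast hn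
  have he' : (1 : ℝ) ≤ e := by exact_mod_cast he
  have hu' : (17 : ℝ) ≤ u := by exact_mod_cast hu17
  have hnu' : (n : ℝ) ≤ u := by exact_mod_cast hnu
  have heu' : (e : ℝ) ≤ u := by exact_mod_cast heu
  have hup : (0 : ℝ) < u := by linarith only [hu']
  have hk' : (k : ℝ) ≤ n * u := by exact_mod_cast hk
  have h1 : Real.sqrt (CT n / (((u ^ 34 : ℕ) : ℝ) + 1)) ≤ 1536 * (u : ℝ) ^ 4 / (u : ℝ) ^ 17 := by
    rw [Real.sqrt_le_left (by positivity)]
    unfold CT
    push_cast
    have e1 : (1536 * (u : ℝ) ^ 4 / (u : ℝ) ^ 17) ^ 2 = 2359296 * (u : ℝ) ^ 8 / (u : ℝ) ^ 34 := by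
      rw [div_pow]
      congr 1 <;> ring
    rw [e1]
    have e2 : 2359296 * (n : ℝ) ^ 8 ≤ 2359296 * (u : ℝ) ^ 8 := by gcongr
    exact div_le_div₀ (by positivity) e2 (by positivity) (by linarith only [])
  have h2 : (n : ℝ) ^ 2 + 8 * k ≤ 9 * (u : ℝ) ^ 2 := by
    have a1 : (n : ℝ) ^ 2 ≤ (u : ℝ) ^ 2 := by (clear * - hn hnu'; gcongr)
    have a2 : (n : ℝ) * u ≤ u * u := by gcongr
    linarith
  have h3 : ((n : ℝ) ^ 2 + 8 * k) * Real.sqrt (CT n / (((u ^ 34 : ℕ) : ℝ) + 1)) ≤
      (9 * (u : ℝ) ^ 2) * (1536 * (u : ℝ) ^ 4 / (u : ℝ) ^ 17) :=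
    mul_le_mul h2 h1 (Real.sqrt_nonneg _) (by positivity)
  refine h3.trans ?_
  have h4 : (9 * (u : ℝ) ^ 2) * (1536 * (u : ℝ) ^ 4 / (u : ℝ) ^ 17) = 13824 / (u : ℝ) ^ 11 := by
    field_simp
    ring
  rw [h4]
  have h5 : (1 : ℝ) / (576 * (u : ℝ) ^ 5) ≤ th n u e / 2 := by
    unfold th
    rw [div_div]
    apply one_div_le_one_div_of_le (by positivity)
    calc 288 * (n : ℝ) ^ 3 * u * e * 2 ≤ 288 * (u : ℝ) ^ 3 * u * u * 2 := by gcongr
      _ = 576 * (u : ℝ) ^ 5 := by ring
  refine le_trans ?_ h5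
  rw [div_le_div_iff₀ (by positivity) (by positivity)]
  have h6 : (24137569 : ℝ) ≤ (u : ℝ) ^ 6 := by
    calc (24137569 : ℝ) = 17 ^ 6 := by norm_num
      _ ≤ _ := by (clear * - hu'; gcongr)
  have h7 : (0 : ℝ) < (u : ℝ) ^ 5 := by positivity
  have h8 : (u : ℝ) ^ 11 = (u : ℝ) ^ 6 * (u : ℝ) ^ 5 := by ring
  rw [h8]
  nlinarith only [h6, hu']

/-- the numerical facts behind the accuracy of the algorithm, for matroids of arbitrary ranks -/
structure Facts (P : Par) (e l u : ℕ) (θ : ℝ) : Prop where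
  L : 0 < P.L
  θ0 : 0 ≤ θ
  θ1 : 900 * (P.n : ℝ) ^ 2 * θ ≤ 1
  δe : 8 * ((P.n * u : ℕ) : ℝ) * (36 * (P.n : ℝ) ^ 2 * θ) * e ≤ 1
  d : ∀ Z ∈ win P.n, P.dfc (enc Z) ≤ P.n
  z : P.n = 0 → P.dfc ∅ = 0
  T : 0 < P.n → P.TL θ (P.n * u + 1)
  b : ((P.n * u : ℕ) : ℝ) * (((P.n : ℝ) ^ 2 + 1) * P.φ θ) ≤ (1 / 2) ^ l

theorem Facts.TL {P : Par} {e l u : ℕ} {θ : ℝ} (h : Facts P e l u θ) : P.TL θ (P.n * u) := by
  rcases Nat.eq_zero_or_pos P.n with hn | hn
  · intro k hk
    rw [hn, zero_mul] at hk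
    omega
  · intro k hk
    exact h.T hn k (by omega)

theorem facts (hr : rkM M₂ univ = r) {e l u : ℕ} (he : 1 ≤ e)
    (hu : u = n + e + l + 16) (h2n : 2 * n ≤ 2 ^ a) (h4n : 1 ≤ n → 2 ^ a ≤ 4 * n) :
    Facts (PP M₁ M₂ r a (u ^ 34)) e l u (th n u e) := by
  have hu17 : 17 ≤ u := by omega
  have hnu : n ≤ u := by omega
  have heu : e ≤ u := by omega
  have hlu : l ≤ u := by omega
  have he' : (1 : ℝ) ≤ e := by exact_mod_cast he
  have hu' : (17 : ℝ) ≤ u := by exact_mod_cast hu17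
  have hL : 0 < u ^ 34 := by positivity
  have hθ0 := th_nonneg n u e
  have hθ1 : 900 * (n : ℝ) ^ 2 * th n u e ≤ 1 := by
    rcases Nat.eq_zero_or_pos n with hn | hn
    · subst hn
      simp only [CharP.cast_eq_zero, ne_eq, OfNat.ofNat_ne_zero, not_false_eq_true, zero_pow, mul_zero, zero_mul, zero_le_one]
    · have hn' : (1 : ℝ) ≤ n := by exact_mod_cast hn
      unfold th
      rw [mul_one_div, div_le_one (by (clear * - hn hu17 he; positivity))]
      have h1 : (17 : ℝ) ≤ u * e := by nlinarith only [he', hu']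
      have h2 : (n : ℝ) ^ 2 * 1 ≤ (n : ℝ) ^ 2 * n := by (clear * - hn' hn; gcongr)
      have h3 : (0:ℝ) ≤ (n : ℝ) ^ 3 := by positivity
      calc 900 * (n : ℝ) ^ 2 ≤ 900 * (n : ℝ) ^ 3 := by nlinarith only [h2]
        _ ≤ 288 * (n : ℝ) ^ 3 * 17 := by nlinarith only [h2]
        _ ≤ 288 * (n : ℝ) ^ 3 * (u * e) := by (clear * - h1 hn; gcongr)
        _ = _ := by ring
  have hδe : 8 * ((n * u : ℕ) : ℝ) * (36 * (n : ℝ) ^ 2 * th n u e) * e ≤ 1 := by
    rcases Nat.eq_zero_or_pos n with hn | hn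
    · subst hn
      simp only [zero_mul, CharP.cast_eq_zero, mul_zero, ne_eq, OfNat.ofNat_ne_zero, not_false_eq_true, zero_pow, zero_le_one]
    · have hn' : (1 : ℝ) ≤ n := by exact_mod_cast hn
      unfold th
      push_cast
      have : 8 * ((n : ℝ) * u) * (36 * (n : ℝ) ^ 2 * (1 / (288 * (n : ℝ) ^ 3 * u * e))) * e = 1 := by
        field_simp
        ring
      exact this.le
  have hd : ∀ Z ∈ win n, (PP M₁ M₂ r a (u ^ 34)).dfc (enc Z) ≤ n := by
    intro Z hZ
    rw [win_eq_Win] at hZ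
    exact dfc_le hr (card_win hZ)
  have h0 : n = 0 → (PP M₁ M₂ r a (u ^ 34)).dfc ∅ = 0 := by
    intro hn
    have h1 := dfc_le (M₁ := M₁) (a := a) (L := u ^ 34) hr
      (Z := (∅ : Finset (Fin n × Bool))) (by simp [hn])
    have h2 : enc (∅ : Finset (Fin n × Bool)) = ∅ := by simp [enc]
    rw [h2] at h1
    omega
  have hT : 0 < n → (PP M₁ M₂ r a (u ^ 34)).TL (th n u e) (n * u + 1) := by
    intro hn k hk I D hB p
    have h1 := thread_law hr hn h2n (h4n hn) (L := u ^ 34) hL hB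
      (g := fun S => if p S then 1 else 0)
      (fun S => by split_ifs <;> norm_num) (fun S => by split_ifs <;> norm_num)
    exact h1.trans (arith_thread' hn he hu17 hnu heu (by omega))
  have hb : ((n * u : ℕ) : ℝ) * (((n : ℝ) ^ 2 + 1) *
      (PP M₁ M₂ r a (u ^ 34)).φ (th n u e)) ≤ (1 / 2) ^ l := by
    rcases Nat.eq_zero_or_pos n with hn | hn
    · have : ((n * u : ℕ) : ℝ) = 0 := by rw [hn]; simp
      rw [this, zero_mul]
      positivity
    · exact arith_fail hn he hu17 hnu heu hlu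
  exact ⟨hL, hθ0, hθ1, hδe, hd, h0, hT, hb⟩

/-- **Accuracy of the algorithm**, for matroids of arbitrary ranks. -/
theorem accuracyG (hr : rkM M₂ univ = r) {e l u : ℕ} (he : 1 ≤ e)
    (hu : u = n + e + l + 16) (h2n : 2 * n ≤ 2 ^ a) (h4n : 1 ≤ n → 2 ^ a ≤ 4 * n) :
    1 - (1 / 2 : ℝ) ^ l ≤ Rnd.prob (Par.Good (PP M₁ M₂ r a (u ^ 34)).nb e)
      ((PP M₁ M₂ r a (u ^ 34)).output (n * u)) := by
  have F := facts (M₁ := M₁) (l := l) hr he hu h2n h4n
  have key := Par.output_fail (P := PP M₁ M₂ r a (u ^ 34)) (θ := th n u e)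
    (δ := 36 * (n : ℝ) ^ 2 * th n u e) (e := e) (u := u) he F.L F.θ0 F.θ1 le_rfl
    (mul_nonneg (by positivity) F.θ0) F.δe
    (by show n + e + 16 ≤ u; omega) F.z F.d F.TL
  have h3 := prob_add_fail (Par.Good (PP M₁ M₂ r a (u ^ 34)).nb e)
    ((PP M₁ M₂ r a (u ^ 34)).output (n * u))
  have hb := F.b
  have key' : fail (Par.Good (PP M₁ M₂ r a (u ^ 34)).nb e)
      ((PP M₁ M₂ r a (u ^ 34)).output (n * u)) ≤ (1 / 2) ^ l := key.trans hb
  linarith only [h3, key']

/-- the sets which are independent in the first matroid and span the second one -/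
noncomputable def indSpan {n : ℕ} (M₁ M₂ : Matroid (Fin n)) : Finset (Finset (Fin n)) := by
  classical
  exact univ.filter fun A => rkM M₁ A = A.card ∧ rkM M₂ A = rkM M₂ univ

theorem dfct_colOf_iff (M₁ M₂ : Matroid (Fin n)) (B : Finset (Fin n)) :
    dfct (rkM M₁) (rkM M₂) (colOf B) = 0 ↔ rkM M₁ B = B.card ∧ rkM M₂ B = rkM M₂ univ := by
  unfold dfct
  rw [part_colOf_false, part_colOf_true, compl_compl]
  have h1 := (isRk_rkM M₁).le_card (rkM_empty M₁) B
  have h4 := rkM_le_univ M₂ B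
  omega

theorem card_indSpan (M₁ M₂ : Matroid (Fin n)) :
    (indSpan M₁ M₂).card =
      ((Window.Om0 (Fin n)).filter fun S => dfct (rkM M₁) (rkM M₂) S = 0).card := by
  classical
  refine Finset.card_bij (fun B _ => colOf B) ?_ ?_ ?_
  · intro B hB
    unfold indSpan at hB
    rw [Finset.mem_filter] at hB ⊢
    exact ⟨Window.mem_Om0.2 (isCol_colOf B), (dfct_colOf_iff M₁ M₂ B).2 hB.2⟩
  · intro B _ B' _ h
    have := congrArg (part false) h
    rwa [part_colOf_false, part_colOf_false] at this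
  · intro S hS
    rw [Finset.mem_filter, Window.mem_Om0] at hS
    refine ⟨part false S, ?_, colOf_part hS.1⟩
    unfold indSpan
    rw [Finset.mem_filter]
    refine ⟨Finset.mem_univ _, (dfct_colOf_iff M₁ M₂ _).1 ?_⟩
    rw [colOf_part hS.1]; exact hS.2

theorem nb_eqG (hr : rkM M₂ univ = r) (L : ℕ) :
    (PP M₁ M₂ r a L).nb = (indSpan M₁ M₂).card := by
  rw [card_indSpan M₁ M₂]
  unfold Par.nb
  congr 1
  refine filter_congr fun Z _ => ?_
  have := dfc_enc M₁ M₂ r a L hr Z
  change (PP M₁ M₂ r a L).dfc (enc Z) = 0 ↔ _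
  rw [this]

theorem greedy_rank_univT {n : ℕ} (M₁ M₂ : Matroid (Fin n)) :
    (Alg.greedy (oracles M₁ M₂ true) (fun _ => true) n).2 = rkM M₂ univ := by
  rw [greedy_rank_true]
  congr 1
  simp only [filter_true]

/-- the counting program -/
def progT : Cmd := .seq preCodeT (.seq mainCode outCode)

theorem hypG (M₁ M₂ : Matroid (Fin n)) (a u : ℕ) :
    Hyp (PP M₁ M₂ (rkM M₂ univ) a (u ^ 34)) (n * u) := by
  refine Hyp.of ?_ (rkM_univ_le M₂) ?_ ?_
  · rcases Nat.eq_zero_or_pos n with hn | hn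
    · right; rw [hn, zero_mul]
    · left; exact hn
  · intro s q h1 h2 h3 h4
    exact sim_exptPair h1 h2 h3 h4
  · intro s q h1 h2 h3 h4
    exact sim_exptDrop h1 h2 h3 h4

/-- The program counts the sets which are independent in the first and spanning in the second
matroid, for matroids of arbitrary ranks. -/
theorem progT_spec (n : ℕ) (M₁ M₂ : Matroid (Fin n)) (e l : ℕ) (he : 0 < e) :
    (run (oracles M₁ M₂) progT (input n e l)).All (fun s => s.time ≤ (n + e + l + 2) ^ 241) ∧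
    1 - (1 / 2) ^ l ≤ (run (oracles M₁ M₂) progT (input n e l)).prob (fun s => 0 < s.num 4 ∧
      |(s.num 3 : ℝ) / s.num 4 - (indSpan M₁ M₂).card| ≤ (indSpan M₁ M₂).card / e) := by
  obtain ⟨s', hs', a, ha, h2n, h4n, hRl, htime⟩ := ex_preT (o := oracles M₁ M₂) n e l
  rw [greedy_rank_univT] at hRl
  set u := n + e + l + 16 with hu
  have hrun : run (oracles M₁ M₂) progT (input n e l) =
      run (oracles M₁ M₂) (.seq mainCode outCode) s' := by
    have : run (oracles M₁ M₂) progT (input n e l) =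
      (run (oracles M₁ M₂) preCodeT (input n e l)).bind
        (run (oracles M₁ M₂) (.seq mainCode outCode)) := rfl
    rw [this, hs']
    rfl
  have hsim := sim_output' (hypG M₁ M₂ a u) (s := s') (q := q0 n) ⟨_, _, hRl⟩ rfl rfl rfl rfl
  rw [hrun]
  constructor
  · refine all_of_sim hsim ?_
    rintro s f ⟨-, -, ht⟩
    have h1 := tM_le (P := PP M₁ M₂ (rkM M₂ univ) a (u ^ 34)) (u := u) (by omega)
      (by show n ≤ u; omega) rfl (by show a ≤ 4 * u; omega)
    exact time_arith he (by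
      have h2 : s.time ≤ s'.time + τM (PP M₁ M₂ (rkM M₂ univ) a (u ^ 34)) (n * u) := ht
      have h3 : τM (PP M₁ M₂ (rkM M₂ univ) a (u ^ 34)) (n * u) ≤
        20000 * (n + e + l + 16) ^ 77 := h1
      omega)
  · have hacc := accuracyG (M₁ := M₁) (M₂ := M₂) (r := rkM M₂ univ) (a := a) rfl (e := e)
      (l := l) (u := u) he rfl h2n h4n
    rw [nb_eqG rfl] at hacc
    refine hacc.trans (le_of_eq ?_)
    refine (prob_eq_of_sim hsim ?_).symm
    rintro s f ⟨h3, h4, -⟩
    rw [h3, h4]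
    rfl

end Vale.Agent.P317.Alg
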