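import Vale.Agent.P317.H964.Tr

/-!
# P317 (helper964): the sampling program and its simulation
-/

set_option linter.unusedSimpArgs false
set_option linter.unusedVariables false

namespace Vale.Agent.P317.H964

open Rnd Alg

/-! ### a set register which is never written -/

/-- the program does not write set register `X` -/
def keepS (X : ℕ) : Cmd → Bool
  | .clear S => decide (S ≠ X)
  | .copy S _ => decide (S ≠ X)
  | .insert S _ => decide (S ≠ X)
  | .erase S _ => decide (S ≠ X)
  | .seq c d => keepS X c && keepS X d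
  | .cond _ _ c d => keepS X c && keepS X d
  | .loop _ c => keepS X c
  | .const _ _ => true
  | .add _ _ _ => true
  | .sub _ _ _ => true
  | .coin _ => true
  | .mem _ _ _ => true
  | .ask _ _ _ => true

theorem keepS_iter {X : ℕ} {g : State → Rnd State}
    (h : ∀ s, (g s).All (fun s' => s'.set X = s.set X)) (m : ℕ) :
    ∀ s, (iter g m s).All (fun s' => s'.set X = s.set X) := by
  induction m with
  | zero => intro s; exact rfl
  | succ m ih =>
    intro s
    rw [iter_succ]
    exact (h s.tick).bind fun s' hs' => (ih s').mono fun s'' hs'' => hs''.trans hs'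

theorem keepS_run {X : ℕ} {o : Bool → Finset ℕ → Bool} (c : Cmd) (hc : keepS X c = true) :
    ∀ s, (run o c s).All (fun s' => s'.set X = s.set X) := by
  induction c with
  | const x c => intro s; exact rfl
  | add x y z => intro s; exact rfl
  | sub x y z => intro s; exact rfl
  | coin x => intro s; exact ⟨rfl, rfl⟩
  | clear S =>
    intro s
    simp only [keepS, decide_eq_true_eq] at hc
    simp only [run, All, State.putSet]
    exact Function.update_of_ne (Ne.symm hc) _ _
  | copy S T =>
    intro s
    simp only [keepS, decide_eq_true_eq] at hc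
    simp only [run, All, State.putSet]
    exact Function.update_of_ne (Ne.symm hc) _ _
  | insert S x =>
    intro s
    simp only [keepS, decide_eq_true_eq] at hc
    simp only [run, All, State.putSet]
    exact Function.update_of_ne (Ne.symm hc) _ _
  | erase S x =>
    intro s
    simp only [keepS, decide_eq_true_eq] at hc
    simp only [run, All, State.putSet]
    exact Function.update_of_ne (Ne.symm hc) _ _
  | mem x y S => intro s; exact rfl
  | ask i x S => intro s; exact rfl
  | seq c d ihc ihd =>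
    intro s
    simp only [keepS, Bool.and_eq_true] at hc
    simp only [run]
    exact (ihc hc.1 s).bind fun s' hs' => (ihd hc.2 s').mono fun s'' hs'' => hs''.trans hs'
  | cond x y c d ihc ihd =>
    intro s
    simp only [keepS, Bool.and_eq_true] at hc
    simp only [run]
    split_ifs
    · exact ihc hc.1 s.tick
    · exact ihd hc.2 s.tick
  | loop x c ih =>
    intro s
    simp only [keepS] at hc
    simp only [run]
    exact keepS_iter (ih hc) _ s.tick

theorem sim_and_all {α β : Type} {R : α → β → Prop} {p : α → Prop} {t : Rnd α} {u : Rnd β}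
    (h : Sim R t u) (hp : t.All p) : Sim (fun a b => R a b ∧ p a) t u := by
  induction t generalizing u with
  | leaf a => cases u with
    | leaf b => exact ⟨h, hp⟩
    | flip _ _ => exact h.elim
  | flip t u iht ihu => cases u with
    | leaf b => exact h.elim
    | flip t' u' => exact ⟨iht h.1 hp.1, ihu h.2 hp.2⟩

/-! ### the program -/

/-- keep the state of the thread if it is a solution; register 10 must be large -/
def evSamp : Cmd :=
  .seq (.copy 3 0) (.seq evalCode (.cond 18 30 skp (.cond 18 32 skp (.copy 6 0))))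

/-- `n * L` threads; set register 6 holds the last solution -/
def sampLoop : Cmd :=
  .seq (.clear 6) (.loop 0 (.loop 8 (.seq threadCode evSamp)))

/-- decode set register 6 into set register 0 -/
def decBody : Cmd :=
  .seq (.add 21 20 20) (.seq (.mem 22 21 6) (.seq (.cond 18 22 (.insert 0 20) skp)
    (.add 20 20 5)))

def decCode : Cmd := .seq (.clear 0) (.seq (.const 20 0) (.loop 0 decBody))

def sampProg : Cmd :=
  .seq preCodeT (.seq mainCode (.seq (.add 16 16 5) (.seq sampLoop decCode)))

theorem low_sampProg : lowN 60 sampProg = true := by decide +kernel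

theorem keep_thread : keepS 6 threadCode = true := by decide +kernel

variable {P : Par} {K : ℕ}

/-- the state is a solution (`κ ≥ n` is the content of register 10) -/
def good (P : Par) (κ : ℕ) (S : Finset ℕ) : Bool :=
  decide (P.nD S = 0 ∧ κ * P.dfc S / P.n = 0)

theorem run_evSamp {s : State} {q : Q} (h : Rl P K s q) (hn : 0 < P.n) (hr : P.r ≤ P.n)
    (hκ : q.κ ≤ K) :
    Ex (run P.o evSamp s) (fun s' => Rl P K s' q ∧
      s'.set 6 = (if good P q.κ q.S then q.S else s.set 6) ∧
      s'.time ≤ s.time + (tE P K + 4)) := by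
  have R1 : Rl P K (s.putSet 3 (s.set 0)) q := h.congr (fun r _ => by simp [State.putSet])
    (fun X hX => by
      have : X ≠ 3 := by omega
      simp [State.putSet, this])
  refine Ex.seq (Q := fun s' => s' = s.putSet 3 (s.set 0)) ⟨_, rfl, rfl⟩ ?_
  rintro s₁ rfl
  refine (run_eval R1.cf hn hr).seq ?_
  rintro s₂ ⟨f2, a30, -, a32, -, -⟩
  have b3 : (s.putSet 3 (s.set 0)).set 3 = q.S := by simp [State.putSet, h.S]
  have b2 : (s.putSet 3 (s.set 0)).set 2 = q.D := R1.D
  have hk : (s.putSet 3 (s.set 0)).num 10 = q.κ := R1.κ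
  rw [b3] at a30
  rw [b3, b2, hk] at a32
  rw [hk] at f2
  have R2 : Rl P K s₂ q := R1.fr f2
  have ht : s₂.time ≤ s.time + (tE P K + 1) := by
    have := f2.time
    have := tE_mono (P := P) hκ
    simp only [State.putSet] at *
    omega
  have z2 := R2.cf.zero
  have e6 : s₂.set 6 = s.set 6 := by
    rw [f2.set 6 (by norm_num) (by norm_num)]
    simp [State.putSet]
  have e0 : s₂.set 0 = q.S := R2.S
  by_cases hD : P.nD q.S = 0
  · have hq : P.qe q.D q.κ q.S = q.κ * P.dfc q.S / P.n := by
      simp only [Par.qe, hD, ↓reduceIte, add_zero]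
    rw [hq] at a32
    by_cases hz : q.κ * P.dfc q.S / P.n = 0
    · have hg : good P q.κ q.S = true := by simp [good, hD, hz]
      have e : run P.o (.cond 18 30 skp (.cond 18 32 skp (.copy 6 0))) s₂ =
          .leaf ((s₂.tick.tick).putSet 6 q.S) := by
        have c1 : ¬ s₂.num 18 < s₂.num 30 := by rw [z2, a30, hD]; omega
        have c2 : ¬ s₂.tick.num 18 < s₂.tick.num 32 := by
          show ¬ s₂.num 18 < s₂.num 32
          rw [z2, a32, hz]; omega
        simp only [run, if_neg c1, if_neg c2]
        show Rnd.leaf ((s₂.tick.tick).putSet 6 (s₂.set 0)) = _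
        rw [e0]
      rw [e]
      refine ⟨_, rfl, ?_, ?_, ?_⟩
      · refine R2.congr (fun r _ => by simp [State.putSet, State.tick]) (fun X hX => ?_)
        have : X ≠ 6 := by omega
        simp [State.putSet, State.tick, this]
      · rw [hg]; simp [State.putSet]
      · simp only [State.putSet, State.tick]; omega
    · have hg : good P q.κ q.S = false := by simp [good, hz]
      have e : run P.o (.cond 18 30 skp (.cond 18 32 skp (.copy 6 0))) s₂ =
          .leaf ((s₂.tick.tick).putNum 25 0) := by
        have c1 : ¬ s₂.num 18 < s₂.num 30 := by rw [z2, a30, hD]; omega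
        have c2 : s₂.tick.num 18 < s₂.tick.num 32 := by
          show s₂.num 18 < s₂.num 32
          rw [z2, a32]; omega
        simp only [run, if_neg c1, if_pos c2, skp]
      rw [e]
      refine ⟨_, rfl, ?_, ?_, ?_⟩
      · exact R2.tick.tick.scr (by norm_num)
      · rw [hg]; simpa [State.putNum, State.tick] using e6
      · simp only [State.putNum, State.tick]; omega
  · have hD' : 0 < P.nD q.S := by omega
    have hg : good P q.κ q.S = false := by simp [good, hD]
    have e : run P.o (.cond 18 30 skp (.cond 18 32 skp (.copy 6 0))) s₂ =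
        .leaf ((s₂.tick).putNum 25 0) := by
      have c1 : s₂.num 18 < s₂.num 30 := by rw [z2, a30]; omega
      simp only [run, if_pos c1, skp]
    rw [e]
    refine ⟨_, rfl, ?_, ?_, ?_⟩
    · exact R2.tick.scr (by norm_num)
    · rw [hg]; simpa [State.putNum, State.tick] using e6
    · simp only [State.putNum, State.tick]; omega

/-- keep the last solution -/
def sampF (t : Rnd (Finset ℕ)) (p : Finset ℕ → Bool) (T : Finset ℕ) : Rnd (Finset ℕ) :=
  t.bind fun S => .leaf (if p S then S else T)

/-- contents during the sampling loops -/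
def Rs (P : Par) (K : ℕ) (q : Q) (s : State) (T : Finset ℕ) : Prop :=
  (∃ (S : Finset ℕ) (κ : ℕ), Rl P K s { q with S := S, κ := κ }) ∧ s.set 6 = T

theorem Rs.tick {q : Q} {s : State} {T : Finset ℕ} (h : Rs P K q s T) : Rs P K q s.tick T := by
  obtain ⟨⟨S, κ, h⟩, h6⟩ := h
  exact ⟨⟨S, κ, h.tick⟩, h6⟩

theorem sim_sampOne {s : State} {q : Q} {T : Finset ℕ} (h : Rs P K q s T) (hn : 0 < P.n)
    (hr : P.r ≤ P.n) (hk : q.k < K) :
    Sim (fun s' T' => Rs P K q s' T' ∧ s'.time ≤ s.time + (τT P K + tE P K + 4))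
      (run P.o (.seq threadCode evSamp) s) (sampF (P.thread q.I q.D q.k) (good P (q.k + 1)) T) := by
  obtain ⟨⟨S₀, κ₀, h⟩, h6⟩ := h
  have e2 : run P.o (.seq threadCode evSamp) s =
    (run P.o threadCode s).bind (run P.o evSamp) := rfl
  rw [e2]
  unfold sampF
  refine (sim_and_all (sim_thread h hn hr hk) (keepS_run threadCode keep_thread s)).bind ?_
  rintro s₁ S ⟨⟨h1, t1⟩, k6⟩
  refine (run_evSamp h1 hn hr (by simp only; omega)).leaf ?_
  rintro s₂ ⟨h2, k2, t2⟩
  refine ⟨⟨⟨S, q.k + 1, h2⟩, ?_⟩, by omega⟩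
  rw [k2, k6, h6]

/-- one round of `L` threads -/
theorem sim_sampRow {s : State} {q : Q} {T : Finset ℕ} (h : Rs P K q s T) (hn : 0 < P.n)
    (hr : P.r ≤ P.n) (hk : q.k < K) :
    Sim (fun s' T' => Rs P K q s' T' ∧
        s'.time ≤ s.time + (P.L * (τT P K + tE P K + 5) + 1))
      (run P.o (.loop 8 (.seq threadCode evSamp)) s)
      (rep (sampF (P.thread q.I q.D q.k) (good P (q.k + 1))) P.L T) := by
  have hL : s.num 8 = P.L := by
    obtain ⟨⟨S, κ, h⟩, -⟩ := h
    exact h.L
  have e : run P.o (.loop 8 (.seq threadCode evSamp)) s =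
      iter (run P.o (.seq threadCode evSamp)) P.L s.tick := by
    rw [← hL]; rfl
  rw [e]
  have hmain := sim_iterN (A := Finset ℕ) (R := fun i s' T => Rs P K q s' T ∧
    s'.time ≤ s.time + (i * (τT P K + tE P K + 5) + 1)) (g := run P.o (.seq threadCode evSamp))
    (g' := sampF (P.thread q.I q.D q.k) (good P (q.k + 1))) (by
      rintro i s' T ⟨h1, h2⟩
      refine (sim_sampOne h1.tick hn hr hk).mono ?_
      rintro s'' T' ⟨h3, h4⟩
      refine ⟨h3, ?_⟩
      simp only [State.tick] at h4
      have h6 : (i + 1) * (τT P K + tE P K + 5) =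
        i * (τT P K + tE P K + 5) + (τT P K + tE P K + 5) := by ring
      rw [h6]
      omega) P.L 0 s.tick T ⟨h.tick, by simp [State.tick]⟩
  rw [Nat.zero_add] at hmain
  exact hmain

/-- the sampling loops -/
theorem sim_sampLoop {s : State} {q : Q} (h : Rl P K s q) (hr : P.r ≤ P.n)
    (hk : 0 < P.n → q.k < K) :
    Sim (fun s' T' => s'.set 6 = T' ∧ Cf P s' ∧
        s'.time ≤ s.time + (P.n * (P.L * (τT P K + tE P K + 5) + 2) + 2))
      (run P.o sampLoop s)
      (rep (rep (sampF (P.thread q.I q.D q.k) (good P (q.k + 1))) P.L) P.n ∅) := by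
  have h0 : s.num 0 = P.n := h.cf.n
  have e : run P.o sampLoop s =
      iter (run P.o (.loop 8 (.seq threadCode evSamp))) P.n (s.putSet 6 ∅).tick := by
    have : (s.putSet 6 ∅).num 0 = P.n := by simp [State.putSet, h0]
    rw [← this]
    rfl
  rw [e]
  have hs : Rs P K q (s.putSet 6 ∅).tick ∅ := by
    refine ⟨⟨q.S, q.κ, ?_⟩, by simp [State.putSet, State.tick]⟩
    refine h.congr (fun r _ => by simp [State.putSet, State.tick]) (fun X hX => ?_)
    have : X ≠ 6 := by omega
    simp [State.putSet, State.tick, this]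
  rcases Nat.eq_zero_or_pos P.n with hn | hn
  · rw [hn]
    obtain ⟨⟨S, κ, h1⟩, h6⟩ := hs
    refine ⟨h6, h1.cf, ?_⟩
    simp only [State.putSet, State.tick]
    omega
  · have hmain := sim_iterN (A := Finset ℕ) (R := fun i s' T => Rs P K q s' T ∧
      s'.time ≤ s.time + (i * (P.L * (τT P K + tE P K + 5) + 2) + 2))
      (g := run P.o (.loop 8 (.seq threadCode evSamp)))
      (g' := rep (sampF (P.thread q.I q.D q.k) (good P (q.k + 1))) P.L) (by
        rintro i s' T ⟨h1, h2⟩
        refine (sim_sampRow h1.tick hn hr (hk hn)).mono ?_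
        rintro s'' T' ⟨h3, h4⟩
        refine ⟨h3, ?_⟩
        simp only [State.tick] at h4
        have h6 : (i + 1) * (P.L * (τT P K + tE P K + 5) + 2) =
          i * (P.L * (τT P K + tE P K + 5) + 2) + (P.L * (τT P K + tE P K + 5) + 2) := by ring
        rw [h6]
        omega) P.n 0 (s.putSet 6 ∅).tick ∅ ⟨hs, by simp [State.putSet, State.tick]⟩
    rw [Nat.zero_add] at hmain
    refine hmain.mono ?_
    rintro s' T ⟨⟨⟨S, κ, h1⟩, h6⟩, h2⟩
    exact ⟨h6, h1.cf, h2⟩

/-! ### decoding -/

/-- the decoded set -/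
def dec (n : ℕ) (T : Finset ℕ) : Finset ℕ := (Finset.range n).filter fun i => i + i ∈ T

theorem run_dec {s : State} (h : Cf P s) :
    Ex (run P.o decCode s) (fun s' => s'.set 0 = dec P.n (s.set 6) ∧
      s'.time ≤ s.time + (6 * P.n + 3)) := by
  set T := s.set 6 with hT
  set Inv : ℕ → State → Prop := fun m t =>
    t.num 0 = P.n ∧ t.num 5 = 1 ∧ t.num 18 = 0 ∧ t.set 6 = T ∧ t.num 20 = m ∧
    t.set 0 = dec m T ∧ t.time ≤ s.time + (6 * m + 3) with hInv
  have hds : ∀ m, dec (m + 1) T = if m + m ∈ T then insert m (dec m T) else dec m T := by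
    intro m
    unfold dec
    rw [Finset.range_add_one, Finset.filter_insert]
  have hstep : ∀ i t, Inv i t → Ex (run P.o decBody t.tick) (Inv (i + 1)) := by
    rintro m t ⟨h0, h5, h18, h6, h20, hS, ht⟩
    by_cases c : m + m ∈ T
    · unfold Ex
      simp [decBody, skp, run, State.putNum, State.putSet, State.tick, h0, h5, h18, h6, h20, hS, c]
      refine ⟨?_, ?_, ?_, ?_, ?_, ?_, ?_⟩
      · simp [h0]
      · simp [h5]
      · simp [h18]
      · simp [h6]
      · simp
      · simp [hds, c]
      · simp only; omega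
    · unfold Ex
      simp [decBody, skp, run, State.putNum, State.putSet, State.tick, h0, h5, h18, h6, h20, hS, c]
      refine ⟨?_, ?_, ?_, ?_, ?_, ?_, ?_⟩
      · simp [h0]
      · simp [h5]
      · simp [h18]
      · simp [h6]
      · simp
      · simp [hds, c, hS]
      · simp only; omega
  have h0 : Inv 0 ((s.putSet 0 ∅).putNum 20 0).tick := by
    refine ⟨?_, ?_, ?_, ?_, ?_, ?_, ?_⟩
    · simp [State.putNum, State.putSet, State.tick, h.n]
    · simp [State.putNum, State.putSet, State.tick, h.one]
    · simp [State.putNum, State.putSet, State.tick, h.zero]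
    · simp [State.putNum, State.putSet, State.tick, hT]
    · simp [State.putNum, State.putSet, State.tick]
    · simp [State.putNum, State.putSet, State.tick, dec]
    · simp only [State.putNum, State.putSet, State.tick]; omega
  have hloop := ex_loop hstep P.n 0 _ h0
  rw [Nat.zero_add] at hloop
  have e : run P.o decCode s = iter (run P.o decBody) P.n ((s.putSet 0 ∅).putNum 20 0).tick := by
    have : ((s.putSet 0 ∅).putNum 20 0).num 0 = P.n := by simp [State.putNum, State.putSet, h.n]
    rw [← this]
    rfl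
  rw [e]
  exact hloop.mono fun t ht => ⟨ht.2.2.2.2.2.1, ht.2.2.2.2.2.2⟩

/-! ### the whole program after the preparation -/

theorem Rl.setBigK {q : Q} {s : State} (h : Rl P K s q) :
    Rl P (K + 1) (s.putNum 16 (K + 1)) q := by
  obtain ⟨⟨h0, h5, h9, h17, h18⟩, h6, h8, h16, h19, h3, h4, h10, h11, h12, h13, h14, h15, z0, z1,
    z2⟩ := h
  constructor <;> first | (constructor <;> simp [State.putNum, *]) | simp [State.putNum, *]

/-- abstract sampler -/
def samp (P : Par) (K : ℕ) : Rnd (Finset ℕ) :=
  (P.main K 0 (∅, ∅) (2 ^ P.n, 1)).bind fun r =>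
    rep (rep (sampF (P.thread r.1.1 r.1.2 K) (good P (K + 1))) P.L) P.n ∅

/-- time bound of the sampling part -/
def τS (P : Par) (K : ℕ) : ℕ :=
  τM P K + P.n * (P.L * (τT P (K + 1) + tE P (K + 1) + 5) + 2) + 6 * P.n + 10

theorem sim_samp (hyp : Hyp P K) (hr : P.r ≤ P.n) {q : Q} {s : State} (h : Rt P K s q)
    (hu : q.u = 2 ^ P.n) (hv : q.v = 1) (hI : q.I = ∅) (hD : q.D = ∅) :
    Sim (fun s' T => s'.set 0 = dec P.n T ∧ s'.time ≤ s.time + τS P K)
      (run P.o (.seq mainCode (.seq (.add 16 16 5) (.seq sampLoop decCode))) s) (samp P K) := by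
  obtain ⟨S, κ, h⟩ := h
  have h0 : Rw P K 0 (s.putNum 11 0).tick ((∅, ∅), (2 ^ P.n, 1)) := by
    refine ⟨q.i, q.j, q.x, q.y, κ, S, ?_⟩
    have := (h.setK 0).tick
    simp only [hu, hv, hI, hD] at this
    exact this
  have e16 : (s.putNum 11 0).num 16 = K := by simp [State.putNum, h.K]
  have e : run P.o (.seq mainCode (.seq (.add 16 16 5) (.seq sampLoop decCode))) s =
      (iter (run P.o (.seq stageCode (.add 11 11 5))) K (s.putNum 11 0).tick).bind
        (run P.o (.seq (.add 16 16 5) (.seq sampLoop decCode))) := by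
    have : run P.o mainCode s = iter (run P.o (.seq stageCode (.add 11 11 5)))
        ((s.putNum 11 0).num 16) (s.putNum 11 0).tick := rfl
    rw [e16] at this
    rw [← this]
    rfl
  rw [e]
  unfold samp
  refine (sim_mainLoop hyp (s.time + 2) K 0 _ _ (by omega) h0 (by
    simp only [State.tick, State.putNum]; omega)).bind ?_
  rintro s₁ r₁ ⟨⟨i, j, x, y, κ', S', h1⟩, t1⟩
  have h2 := Rl.setBigK h1
  have e2 : run P.o (.seq (.add 16 16 5) (.seq sampLoop decCode)) s₁ =
      (run P.o sampLoop (s₁.putNum 16 (K + 1))).bind (run P.o decCode) := by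
    have a1 : s₁.num 16 + s₁.num 5 = K + 1 := by rw [h1.K, h1.cf.one]
    show run P.o (.seq sampLoop decCode) (s₁.putNum 16 (s₁.num 16 + s₁.num 5)) = _
    rw [a1]
    rfl
  rw [e2]
  have e3 : rep (rep (sampF (P.thread r₁.1.1 r₁.1.2 K) (good P (K + 1))) P.L) P.n ∅ =
      (rep (rep (sampF (P.thread r₁.1.1 r₁.1.2 K) (good P (K + 1))) P.L) P.n ∅).bind .leaf := by
    generalize rep (rep (sampF (P.thread r₁.1.1 r₁.1.2 K) (good P (K + 1))) P.L) P.n ∅ = t
    induction t with
    | leaf a => rfl
    | flip t u iht ihu => rw [bind_flip, ← iht, ← ihu]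
  rw [e3]
  refine (sim_sampLoop h2 hr (fun _ => Nat.lt_succ_self K)).bind ?_
  rintro s₂ T ⟨k6, kc, t2⟩
  refine (run_dec kc).leaf ?_
  rintro s₃ ⟨k0, t3⟩
  refine ⟨by rw [k0, k6], ?_⟩
  have t1' : s₁.time ≤ s.time + 2 + K * (τG P K + 2) := t1
  have b1 : K * (τG P K + 2) ≤ K * (τG P K + 5) := Nat.mul_le_mul_left _ (by omega)
  have t2' : s₂.time ≤ s₁.time + 1 +
    (P.n * (P.L * (τT P (K + 1) + tE P (K + 1) + 5) + 2) + 2) := t2
  unfold τS τM
  generalize P.n * (P.L * (τT P (K + 1) + tE P (K + 1) + 5) + 2) = w at *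
  generalize K * (τG P K + 2) = w1 at *
  generalize K * (τG P K + 5) = w2 at *
  omega

end Vale.Agent.P317.H964
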