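import Vale.Agent.P317.H964.SampCode

/-!
# P317 (helper964): the law of the sampler
-/

set_option linter.unusedSimpArgs false
set_option linter.unusedVariables false

namespace Vale.Agent.P317.H964

open Rnd Alg Window Anneal Finset

open Classical in
/-- indicator -/
noncomputable def ind (G : Finset ℕ → Prop) (S : Finset ℕ) : ℝ := if G S then 1 else 0

theorem ind_nonneg (G : Finset ℕ → Prop) (S : Finset ℕ) : 0 ≤ ind G S := by
  unfold ind; split_ifs <;> norm_num

theorem ind_le_one (G : Finset ℕ → Prop) (S : Finset ℕ) : ind G S ≤ 1 := by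
  unfold ind; split_ifs <;> norm_num

theorem rep_add {A : Type} (f : A → Rnd A) (k m : ℕ) : ∀ x,
    rep f (k + m) x = (rep f k x).bind (rep f m) := by
  induction k with
  | zero => intro x; rw [Nat.zero_add]; rfl
  | succ k ih =>
    intro x
    have e : k + 1 + m = (k + m) + 1 := by ring
    rw [e]
    show (f x).bind (rep f (k + m)) = ((f x).bind (rep f k)).bind (rep f m)
    rw [bind_assoc]
    congr 1
    funext y
    exact ih y

theorem rep_rep {A : Type} (f : A → Rnd A) (L m : ℕ) : ∀ x,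
    rep (rep f L) m x = rep f (m * L) x := by
  induction m with
  | zero => intro x; rw [zero_mul]; rfl
  | succ m ih =>
    intro x
    have e : (m + 1) * L = L + m * L := by ring
    rw [e, rep_add f L (m * L) x]
    show (rep f L x).bind (rep (rep f L) m) = _
    congr 1
    funext y
    exact ih y

theorem ex_rep_samp (t : Rnd (Finset ℕ)) (p : Finset ℕ → Bool) (G : Finset ℕ → Prop) (m : ℕ) :
    ∀ T, ex (ind G) (rep (sampF t p) m T) =
      ex (fun S => if p S then ind G S else 0) t *
        ∑ i ∈ range m, (1 - ex (fun S => if p S then 1 else 0) t) ^ i +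
      (1 - ex (fun S => if p S then 1 else 0) t) ^ m * ind G T := by
  set q := ex (fun S => if p S then ind G S else 0) t with hq
  set pp := ex (fun S => if p S then (1 : ℝ) else 0) t with hpp
  induction m with
  | zero => intro T; simp [rep]
  | succ m ih =>
    intro T
    show ex (ind G) ((sampF t p T).bind (rep (sampF t p) m)) = _
    rw [ex_bind]
    unfold sampF
    rw [ex_bind]
    have h1 : (fun S => ex (fun a => ex (ind G) (rep (sampF t p) m a))
        (Rnd.leaf (if p S then S else T))) =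
        fun S => (q * ∑ i ∈ range m, (1 - pp) ^ i + (1 - pp) ^ m * ind G T) +
          (1 - pp) ^ m * ((if p S then ind G S else 0) +
            (- ind G T) * (if p S then 1 else 0)) := by
      funext S
      rw [ex_leaf, ih]
      by_cases hp : p S = true
      · rw [if_pos hp, if_pos hp, if_pos hp]; ring
      · rw [if_neg hp, if_neg hp, if_neg hp]; ring
    have h2 : (fun S => ex (fun a => ex (ind G) (rep (fun T => t.bind fun S =>
        Rnd.leaf (if p S then S else T)) m a)) (Rnd.leaf (if p S then S else T))) =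
        (fun S => ex (fun a => ex (ind G) (rep (sampF t p) m a))
        (Rnd.leaf (if p S then S else T))) := rfl
    rw [h2, h1, Rnd.ex_add, Rnd.ex_const, ex_mul_left, Rnd.ex_add, ex_mul_left, ← hq, ← hpp, sum_range_succ]
    ring

theorem samp_close {t : Rnd (Finset ℕ)} {p : Finset ℕ → Bool} {G : Finset ℕ → Prop}
    (m : ℕ) (T : Finset ℕ) (hp : 0 < ex (fun S => if p S then (1 : ℝ) else 0) t) :
    |ex (ind G) (rep (sampF t p) m T) -
      ex (fun S => if p S then ind G S else 0) t / ex (fun S => if p S then 1 else 0) t| ≤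
      1 / (1 + m * ex (fun S => if p S then 1 else 0) t) := by
  rw [ex_rep_samp]
  set q := ex (fun S => if p S then ind G S else 0) t with hq
  set pp := ex (fun S => if p S then (1 : ℝ) else 0) t with hpp
  have hq0 : 0 ≤ q := by
    have := ex_mono (f := fun _ => (0:ℝ)) (g := fun S => if p S then ind G S else 0)
      (fun S => by
        beta_reduce
        split_ifs
        · exact ind_nonneg G S
        · exact le_rfl) t
    rwa [Rnd.ex_const] at this
  have hqp : q ≤ pp := ex_mono (fun S => by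
    beta_reduce
    split_ifs
    · exact ind_le_one G S
    · exact le_rfl) t
  have hp1 : pp ≤ 1 := by
    have := ex_mono (g := fun _ => (1:ℝ)) (f := fun S => if p S then (1 : ℝ) else 0)
      (fun S => by split_ifs <;> norm_num) t
    rwa [Rnd.ex_const] at this
  have hg : (∑ i ∈ range m, (1 - pp) ^ i) * pp = 1 - (1 - pp) ^ m := by
    have := geom_sum_mul (1 - pp) m
    linarith
  have e : q * ∑ i ∈ range m, (1 - pp) ^ i + (1 - pp) ^ m * ind G T - q / pp =
      (1 - pp) ^ m * (ind G T - q / pp) := by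
    have h1 : q * ∑ i ∈ range m, (1 - pp) ^ i = q / pp * (1 - (1 - pp) ^ m) := by
      rw [← hg]
      field_simp
    rw [h1]
    ring
  rw [e, abs_mul]
  have hr0 : 0 ≤ (1 - pp) ^ m := pow_nonneg (by linarith) m
  rw [abs_of_nonneg hr0]
  have h2 : |ind G T - q / pp| ≤ 1 := by
    have a1 : 0 ≤ q / pp := div_nonneg hq0 hp.le
    have a2 : q / pp ≤ 1 := (div_le_one hp).2 hqp
    have a3 := ind_nonneg G T
    have a4 := ind_le_one G T
    rw [abs_le]
    constructor <;> linarith
  have h3 : (1 - pp) ^ m ≤ 1 / (1 + m * pp) := by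
    have b1 : (1 - pp) ^ m ≤ Real.exp (-pp) ^ m :=
      pow_le_pow_left₀ (by linarith) (Real.one_sub_le_exp_neg pp) m
    rw [← Real.exp_nat_mul] at b1
    refine b1.trans ?_
    have b2 : (m : ℝ) * -pp = -(m * pp) := by ring
    rw [b2, Real.exp_neg, one_div]
    have b3 := Real.add_one_le_exp ((m : ℝ) * pp)
    have b4 : (0 : ℝ) < 1 + m * pp := by positivity
    exact inv_anti₀ b4 (by linarith)
  calc (1 - pp) ^ m * |ind G T - q / pp| ≤ (1 - pp) ^ m * 1 :=
        mul_le_mul_of_nonneg_left h2 hr0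
    _ ≤ _ := by rw [mul_one]; exact h3

/-- conditioning on an event that rarely fails -/
theorem ex_close {α β : Type} {t : Rnd α} {g : α → Rnd β} {f : β → ℝ} {p : α → Prop}
    {a b c : ℝ} (ht : fail p t ≤ a) (hf0 : ∀ x, 0 ≤ f x) (hf1 : ∀ x, f x ≤ 1) (hc0 : 0 ≤ c)
    (hc1 : c ≤ 1) (hb : 0 ≤ b) (hg : ∀ x, p x → |ex f (g x) - c| ≤ b) :
    |ex f (t.bind g) - c| ≤ a + b := by
  classical
  rw [ex_bind]
  have hb1 : ∀ x, ex f (g x) ≤ 1 := fun x => by
    have := ex_mono (g := fun _ => (1:ℝ)) hf1 (g x)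
    rwa [Rnd.ex_const] at this
  have hb0 : ∀ x, 0 ≤ ex f (g x) := fun x => by
    have := ex_mono (f := fun _ => (0:ℝ)) hf0 (g x)
    rwa [Rnd.ex_const] at this
  have hfail : fail p t = ex (fun x => if p x then (0 : ℝ) else 1) t := rfl
  have h1 : ex (fun x => ex f (g x)) t ≤ ex (fun x => (if p x then (0 : ℝ) else 1) + (b + c)) t := by
    refine ex_mono (fun x => ?_) t
    by_cases hx : p x
    · simp only [hx, if_true, zero_add]
      have := (abs_le.1 (hg x hx)).2
      linarith
    · simp only [hx, if_false]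
      have := hb1 x
      linarith
  rw [Rnd.ex_add, Rnd.ex_const, ← hfail] at h1
  have h2 : ex (fun x => (-1) * (if p x then (0 : ℝ) else 1) + (c - b)) t ≤
      ex (fun x => ex f (g x)) t := by
    refine ex_mono (fun x => ?_) t
    by_cases hx : p x
    · simp only [hx, if_true]
      have := (abs_le.1 (hg x hx)).1
      linarith
    · simp only [hx, if_false]
      have := hb0 x
      linarith
  rw [Rnd.ex_add, Rnd.ex_const, ex_mul_left, ← hfail] at h2
  rw [abs_le]
  constructor <;> linarith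

/-! ### the law of a thread at the last stage -/

section law

variable {P : Par} {e l u : ℕ} {θ : ℝ}

/-- number of solutions satisfying `G` -/
noncomputable def nG (P : Par) (G : Finset ℕ → Prop) : ℕ := by
  classical
  exact ((Om0 (Fin P.n)).filter (fun Z => P.dfc (enc Z) = 0 ∧ G (enc Z))).card

theorem nG_le (G : Finset ℕ → Prop) : nG P G ≤ P.nb := by
  classical
  unfold nG Par.nb
  refine card_le_card fun Z hZ => ?_
  rw [mem_filter] at hZ ⊢
  exact ⟨hZ.1, hZ.2.1⟩

theorem law_good {H : Finset ℕ × Finset ℕ} {k : ℕ} (hn : 0 < P.n) (hk : P.n ≤ k + 1)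
    (G : Finset ℕ → Prop) (p : Finset ℕ → Bool)
    (hp : ∀ S, p S = true ↔ good P (k + 1) S = true ∧ G S) :
    P.law H.1 H.2 k (fun S => if p S then 1 else 0) = (nG P G : ℝ) / P.zz H.1 H.2 k := by
  classical
  unfold Par.law
  rw [sum_win]
  congr 1
  have h1 : ∑ Z ∈ Om0 (Fin P.n),
      P.wt H.1 H.2 k (enc Z) * (if p (enc Z) then (1 : ℝ) else 0) = nG P G := by
    unfold nG
    rw [Finset.cast_card, sum_filter]
    refine sum_congr rfl fun Z hZ => ?_
    rw [P.wt_Om0 _ _ _ hZ]
    have hcol := P.nD_enc_col (mem_Om0.mp hZ)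
    have hz : (k + 1) * P.dfc (enc Z) / P.n = 0 ↔ P.dfc (enc Z) = 0 := by
      rw [Nat.div_eq_zero_iff]
      constructor
      · rintro (h | h)
        · omega
        · by_contra h0
          have : P.n * 1 ≤ (k + 1) * P.dfc (enc Z) := Nat.mul_le_mul hk (by omega)
          omega
      · intro h
        right
        rw [h]
        simpa using hn
    have hpz : p (enc Z) = true ↔ P.dfc (enc Z) = 0 ∧ G (enc Z) := by
      rw [hp]
      simp only [good, decide_eq_true_eq, hcol, true_and, hz]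
    by_cases hc : P.dfc (enc Z) = 0 ∧ G (enc Z)
    · rw [if_pos (hpz.2 hc), if_pos hc, mul_one]
      unfold Par.mu
      rw [hc.1]
      simp
    · rw [if_neg (fun h => hc (hpz.1 h)), if_neg hc, mul_zero]
  have h2 : ∑ q ∈ prs P.n, ∑ Z ∈ Om q.1 q.2,
      P.wt H.1 H.2 k (enc Z) * (if p (enc Z) then (1 : ℝ) else 0) = 0 := by
    refine sum_eq_zero fun q _ => sum_eq_zero fun Z hZ => ?_
    have hn1 := P.nD_enc_near (mem_Om.mp hZ)
    have : ¬ p (enc Z) = true := by
      rw [hp]
      simp [good, hn1]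
    rw [if_neg this, mul_zero]
  rw [h1, h2, add_zero]

theorem z0_le (hn : 0 < P.n) (hu : P.n + 1 ≤ u) (hnb : 0 < P.nb) :
    P.z0 (P.n * u) ≤ 2 * P.nb := by
  obtain ⟨junk, h1, h2, h3⟩ := mass_final (A := Om0 (Fin P.n))
    (df := fun Z => P.dfc (enc Z)) (u := u) hn
  rw [Alg.card_Om0] at h3
  have h4 : ((2 ^ P.n : ℕ) : ℝ) * (1 / 2 : ℝ) ^ u ≤ 1 := by
    have : (2 : ℝ) ^ P.n ≤ 2 ^ u := pow_le_pow_right₀ (by norm_num) (by omega)
    push_cast
    rw [one_div_pow, mul_one_div, div_le_one (by positivity)]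
    exact this
  have h5 : P.z0 (P.n * u) = P.nb + junk := by
    rw [Par.z0_eq_mass, h1]; rfl
  have h6 : (1 : ℝ) ≤ P.nb := by exact_mod_cast hnb
  rw [h5]
  linarith

/-- numbers: from the law of a thread to the sampler -/
theorem ratio_close {q pp qs ps θ B : ℝ} (hB : 0 < B) (hθ0 : 0 ≤ θ) (hps : 1 / (18 * B) ≤ ps)
    (hθ : 900 * B * θ ≤ 1) (hq : |q - qs| ≤ θ / 2) (hp : |pp - ps| ≤ θ / 2) (hqs : 0 ≤ qs)
    (hqp : qs ≤ ps) :
    1 / (20 * B) ≤ pp ∧ |q / pp - qs / ps| ≤ 20 * B * θ := by
  have hps0 : 0 < ps := lt_of_lt_of_le (by positivity) hps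
  have h1 : θ ≤ 1 / (900 * B) := by
    rw [le_div_iff₀ (by positivity)]; linarith
  have h2 : 1 / (20 * B) ≤ pp := by
    have a1 := (abs_le.1 hp).1
    have a2 : 1 / (20 * B) + 1 / (900 * B) / 2 ≤ 1 / (18 * B) := by
      rw [div_div, div_add_div _ _ (by positivity) (by positivity),
        div_le_div_iff₀ (by positivity) (by positivity)]
      nlinarith [mul_pos hB hB]
    linarith
  have hpp : 0 < pp := lt_of_lt_of_le (by positivity) h2
  refine ⟨h2, ?_⟩
  have e : q / pp - qs / ps = (q - qs) / pp + qs / ps * ((ps - pp) / pp) := by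
    field_simp
    ring
  rw [e]
  have h3 : |(q - qs) / pp| ≤ θ / 2 / pp := by
    rw [abs_div, abs_of_pos hpp]
    exact div_le_div_of_nonneg_right hq hpp.le
  have h4 : |qs / ps * ((ps - pp) / pp)| ≤ θ / 2 / pp := by
    rw [abs_mul, abs_div (ps - pp), abs_of_pos hpp, abs_of_nonneg (div_nonneg hqs hps0.le)]
    have a1 : qs / ps ≤ 1 := (div_le_one hps0).2 hqp
    have a2 : |ps - pp| / pp ≤ θ / 2 / pp := by
      rw [abs_sub_comm]
      exact div_le_div_of_nonneg_right hp hpp.le
    calc qs / ps * (|ps - pp| / pp) ≤ 1 * (|ps - pp| / pp) :=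
          mul_le_mul_of_nonneg_right a1 (by positivity)
      _ ≤ _ := by rw [one_mul]; exact a2
  have h5 : θ / 2 / pp + θ / 2 / pp = θ * (1 / pp) := by ring
  have h6 : 1 / pp ≤ 20 * B := by
    rw [div_le_iff₀ hpp]
    rw [div_le_iff₀ (by positivity)] at h2
    linarith
  calc _ ≤ |(q - qs) / pp| + |qs / ps * ((ps - pp) / pp)| := abs_add_le _ _
    _ ≤ θ * (1 / pp) := by linarith
    _ ≤ θ * (20 * B) := mul_le_mul_of_nonneg_left h6 hθ0
    _ = _ := by ring

/-- the sampling loops, after an accurate annealing -/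
theorem loops_close (F : Facts P e l u θ) (he : 1 ≤ e) (hn : 0 < P.n) (hu : P.n + e + 16 ≤ u)
    (hL : P.L = u ^ 34) (hnb : 0 < P.nb) {H : Finset ℕ × Finset ℕ} (hS : P.St (P.n * u) H)
    (G : Finset ℕ → Prop) :
    |ex (ind G) (rep (rep (sampF (P.thread H.1 H.2 (P.n * u)) (good P (P.n * u + 1))) P.L) P.n ∅) -
      (nG P G : ℝ) / P.nb| ≤ 1 / e := by
  classical
  set K := P.n * u with hK
  have hn1 : (1 : ℝ) ≤ P.n := by exact_mod_cast hn
  have he1 : (1 : ℝ) ≤ e := by exact_mod_cast he
  have hnb1 : (0 : ℝ) < P.nb := by exact_mod_cast hnb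
  rw [rep_rep]
  set t := P.thread H.1 H.2 K with ht
  set p := good P (K + 1) with hp
  have hnk : P.n ≤ K + 1 := by
    have : P.n * 1 ≤ P.n * u := Nat.mul_le_mul_left _ (by omega)
    omega
  have hzz := P.zz_pos H K
  have hbal : ∀ κ ≤ K, P.Bal H.1 H.2 κ := hS.bal
  -- law of the two events
  have hT1 := F.T hn K (by omega) H.1 H.2 hbal p
  have hT2 := F.T hn K (by omega) H.1 H.2 hbal (fun S => p S && decide (G S))
  rw [law_good hn hnk (fun _ => True) p (fun S => by simp [hp])] at hT1
  rw [law_good hn hnk G (fun S => p S && decide (G S)) (fun S => by simp [hp])] at hT2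
  have hq : ex (fun S => if (p S && decide (G S)) then (1 : ℝ) else 0) t =
      ex (fun S => if p S then ind G S else 0) t := by
    congr 1
    funext S
    unfold ind
    by_cases h1 : p S = true <;> by_cases h2 : G S <;> simp [h1, h2]
  rw [hq] at hT2
  have hnt : nG P (fun _ => True) = P.nb := by
    unfold nG Par.nb
    congr 1
    ext Z
    simp
  rw [hnt] at hT1
  have hp0 := P.p0_ge H K hn (hbal K le_rfl)
  have hz := z0_le (u := u) hn (by omega) hnb
  have hps : 1 / (18 * (P.n : ℝ) ^ 2) ≤ (P.nb : ℝ) / P.zz H.1 H.2 K := by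
    have a1 : P.z0 K / P.zz H.1 H.2 K ≤ 2 * P.nb / P.zz H.1 H.2 K :=
      div_le_div_of_nonneg_right hz hzz.le
    have a2 : 1 / (18 * (P.n : ℝ) ^ 2) = 1 / (9 * (P.n : ℝ) ^ 2) / 2 := by
      rw [div_div]; congr 1; ring
    have a3 : 2 * (P.nb : ℝ) / P.zz H.1 H.2 K = 2 * (P.nb / P.zz H.1 H.2 K) := by ring
    rw [a2]
    rw [a3] at a1
    linarith
  obtain ⟨c1, c2⟩ := ratio_close (B := (P.n : ℝ) ^ 2) (by positivity) F.θ0 hps F.θ1 hT2 hT1
    (by positivity) (div_le_div_of_nonneg_right (by exact_mod_cast nG_le G) hzz.le)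
  have c3 : (nG P G : ℝ) / P.zz H.1 H.2 K / (P.nb / P.zz H.1 H.2 K) = (nG P G : ℝ) / P.nb := by
    field_simp
  rw [c3] at c2
  have hpp : 0 < ex (fun S => if p S then (1 : ℝ) else 0) t :=
    lt_of_lt_of_le (by positivity) c1
  have c4 := samp_close (G := G) (P.n * P.L) ∅ hpp
  have hun : (P.n : ℝ) ≤ u := by exact_mod_cast (by omega : P.n ≤ u)
  have hue : (e : ℝ) ≤ u := by exact_mod_cast (by omega : e ≤ u)
  have hu17 : (17 : ℝ) ≤ u := by exact_mod_cast (by omega : 17 ≤ u)
  -- the two error terms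
  have d1 : 20 * (P.n : ℝ) ^ 2 * θ ≤ 1 / (2 * e) := by
    have h := F.δe
    push_cast at h
    rw [le_div_iff₀ (by positivity)]
    have h0 := F.θ0
    have a1 : (1 : ℝ) ≤ P.n * u := by nlinarith
    have a2 : 0 ≤ (P.n : ℝ) ^ 2 * θ * e := by positivity
    nlinarith
  have d2 : 1 / (1 + ((P.n * P.L : ℕ) : ℝ) * ex (fun S => if p S then (1 : ℝ) else 0) t) ≤
      1 / (2 * e) := by
    apply one_div_le_one_div_of_le (by positivity)
    have a1 : 1 / (20 * (P.n : ℝ) ^ 2) ≤ ex (fun S => if p S then (1 : ℝ) else 0) t := c1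
    have a2 : ((P.n * P.L : ℕ) : ℝ) * (1 / (20 * (P.n : ℝ) ^ 2)) ≤
        ((P.n * P.L : ℕ) : ℝ) * ex (fun S => if p S then (1 : ℝ) else 0) t :=
      mul_le_mul_of_nonneg_left a1 (by positivity)
    have a3 : 2 * (e : ℝ) ≤ ((P.n * P.L : ℕ) : ℝ) * (1 / (20 * (P.n : ℝ) ^ 2)) := by
      rw [mul_one_div, le_div_iff₀ (by positivity), hL]
      push_cast
      have b1 : (u : ℝ) ^ 34 = (u : ℝ) ^ 31 * ((u : ℝ) * u * u) := by ring
      have b2 : (40 : ℝ) ≤ (u : ℝ) ^ 31 := by
        calc (40 : ℝ) ≤ 17 ^ 31 := by norm_num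
          _ ≤ _ := pow_le_pow_left₀ (by norm_num) hu17 31
      have b3 : (e : ℝ) * P.n ≤ u * u := by
        apply mul_le_mul hue hun (by positivity) (by positivity)
      have b4 : (u : ℝ) * u ≤ u * u * u := by nlinarith
      rw [b1]
      have b5 : 2 * (e : ℝ) * (20 * (P.n : ℝ) ^ 2) = P.n * (40 * (e * P.n)) := by ring
      rw [b5]
      apply mul_le_mul_of_nonneg_left _ (by positivity)
      exact mul_le_mul b2 (b3.trans b4) (by positivity) (by positivity)
    linarith
  have d3 : 1 / (2 * (e : ℝ)) + 1 / (2 * e) = 1 / e := by field_simp; ring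
  calc _ ≤ |ex (ind G) (rep (sampF t p) (P.n * P.L) ∅) -
          ex (fun S => if p S then ind G S else 0) t / ex (fun S => if p S then 1 else 0) t| +
        |ex (fun S => if p S then ind G S else 0) t / ex (fun S => if p S then 1 else 0) t -
          (nG P G : ℝ) / P.nb| := abs_sub_le _ _ _
    _ ≤ 1 / (2 * e) + 1 / (2 * e) := add_le_add (c4.trans d2) (c2.trans d1)
    _ = 1 / e := d3

/-- **the law of the sampler** -/
theorem samp_close_all (F : Facts P e l u θ) (he : 1 ≤ e) (hu : P.n + e + 16 ≤ u)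
    (hL : P.L = u ^ 34) (hnb : 0 < P.nb) (G : Finset ℕ → Prop) :
    |ex (ind G) (samp P (P.n * u)) - (nG P G : ℝ) / P.nb| ≤ (1 / 2) ^ l + 1 / e := by
  classical
  rcases Nat.eq_zero_or_pos P.n with hn | hn
  · have hK : P.n * u = 0 := by rw [hn, zero_mul]
    have e1 : samp P (P.n * u) = .leaf ∅ := by
      unfold samp
      rw [hK, hn]
      rfl
    have hz := F.z hn
    have hE : IsEmpty (Fin P.n) := by rw [hn]; infer_instance
    have hZ : ∀ Z : Finset (Fin P.n × Bool), Z = ∅ := by
      intro Z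
      ext ⟨a, b⟩
      exact hE.elim a
    have hmem : ∀ Z ∈ Om0 (Fin P.n), Z = ∅ := fun Z _ => hZ Z
    have he0 : enc (∅ : Finset (Fin P.n × Bool)) = ∅ := by simp [enc]
    have hc : (Om0 (Fin P.n)).card = 1 := by rw [Alg.card_Om0, hn]; simp
    have h1 : P.nb = 1 := by
      unfold Par.nb
      rw [← hc]
      congr 1
      rw [filter_eq_self]
      intro Z _
      rw [hZ Z, he0]; exact hz
    have h2 : (nG P G : ℝ) = ind G ∅ := by
      unfold nG ind
      by_cases hG : G ∅
      · rw [if_pos hG]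
        have : (Om0 (Fin P.n)).filter (fun Z => P.dfc (enc Z) = 0 ∧ G (enc Z)) =
            Om0 (Fin P.n) := by
          rw [filter_eq_self]
          intro Z _
          rw [hZ Z, he0]; exact ⟨hz, hG⟩
        rw [this, hc]
        simp
      · rw [if_neg hG]
        have : (Om0 (Fin P.n)).filter (fun Z => P.dfc (enc Z) = 0 ∧ G (enc Z)) = ∅ := by
          rw [filter_eq_empty_iff]
          intro Z _
          rw [hZ Z, he0]
          exact fun h => hG h.2
        rw [this]
        simp
    rw [e1, ex_leaf, h1, h2]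
    simp only [Nat.cast_one, div_one, sub_self, abs_zero]
    positivity
  · unfold samp
    have h1 := Par.main_fail (P := P) (θ := θ) (δ := 36 * (P.n : ℝ) ^ 2 * θ) (K := P.n * u) hn F.L
      F.θ0 F.θ1 le_rfl F.d F.TL (P.n * u) 0 (∅, ∅) (2 ^ P.n, 1) (by omega) Par.st_zero
      Par.fr_zero
    rw [Nat.zero_add] at h1
    have hnb1 : (0 : ℝ) < P.nb := by exact_mod_cast hnb
    refine ex_close (h1.trans F.b) (ind_nonneg G) (ind_le_one G) (by positivity) ?_
      (by positivity) ?_
    · rw [div_le_one hnb1]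
      exact_mod_cast nG_le G
    · rintro r ⟨hr, -⟩
      exact loops_close F he hn hu hL hnb hr G

end law

end Vale.Agent.P317.H964
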