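import Vale.Agent.P317.H964.SampLaw
import Vale.Agent.P317.H964.Count

/-!
# P317 (helper964): specification of the sampling program
-/

set_option linter.unusedSimpArgs false
set_option linter.unusedVariables false

namespace Vale.Agent.P317.H964

open Rnd Alg Window Anneal Finset

/-! ### time -/

theorem tS_le' {P : Par} {u K : ℕ} (hu : 17 ≤ u) (hn : P.n ≤ u) (hL : P.L = u ^ 34)
    (ha : P.a ≤ 4 * u) (hK : K ≤ 2 * u ^ 2) :
    P.n * (P.L * (τT P K + tE P K + 5) + 2) + 6 * P.n + 10 ≤ 4000 * u ^ 77 := by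
  have hpow : ∀ {a b : ℕ}, a ≤ b → u ^ a ≤ u ^ b := fun h => Nat.pow_le_pow_right (by omega) h
  have h1 : ∀ b, 1 ≤ u ^ b := fun b => Nat.one_le_pow _ _ (by omega)
  have hu' : ∀ {b : ℕ}, 1 ≤ b → u ≤ u ^ b := by
    intro b hb
    calc u = u ^ 1 := (pow_one u).symm
      _ ≤ u ^ b := hpow hb
  have hnK : P.n * K ≤ 2 * u ^ 3 := by
    calc P.n * K ≤ u * (2 * u ^ 2) := Nat.mul_le_mul hn hK
      _ = 2 * u ^ 3 := by ring
  have htE : tE P K ≤ 360 * u ^ 3 := by
    unfold tE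
    have a1 : P.n ≤ u ^ 3 := hn.trans (hu' (by norm_num))
    have a2 : K ≤ 2 * u ^ 3 := hK.trans (Nat.mul_le_mul_left _ (hpow (by norm_num)))
    have a3 := h1 3
    omega
  have htS : tS P K ≤ 920 * u ^ 3 := by
    unfold tS
    have a1 : P.a ≤ 4 * u ^ 3 := by
      have := hu' (b := 3) (by norm_num)
      omega
    have a2 : K ≤ 2 * u ^ 3 := hK.trans (Nat.mul_le_mul_left _ (hpow (by norm_num)))
    have a3 := h1 3
    omega
  have hτT : τT P K ≤ 2800 * u ^ 39 := by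
    unfold τT
    have a1 : K + 1 ≤ 3 * u ^ 2 := by have := h1 2; omega
    have a2 : P.L * (tS P K + 1) + 4 ≤ 925 * u ^ 37 := by
      have b1 : P.L * (tS P K + 1) ≤ u ^ 34 * (921 * u ^ 3) := by
        rw [hL]; apply Nat.mul_le_mul_left
        have := h1 3; omega
      have b2 : u ^ 34 * (921 * u ^ 3) = 921 * u ^ 37 := by ring
      have b3 := h1 37
      omega
    have a3 : (K + 1) * (P.L * (tS P K + 1) + 4) ≤ (3 * u ^ 2) * (925 * u ^ 37) :=
      Nat.mul_le_mul a1 a2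
    have a4 : (3 * u ^ 2) * (925 * u ^ 37) = 2775 * u ^ 39 := by ring
    have a5 : P.n ≤ u ^ 39 := hn.trans (hu' (by norm_num))
    have a6 := h1 39
    omega
  have hb : P.L * (τT P K + tE P K + 5) + 2 ≤ 3167 * u ^ 73 := by
    have b1 : P.L * (τT P K + tE P K + 5) ≤ u ^ 34 * (3165 * u ^ 39) := by
      rw [hL]; apply Nat.mul_le_mul_left
      have c1 : u ^ 3 ≤ u ^ 39 := hpow (by norm_num)
      have c2 := h1 39
      omega
    have b2 : u ^ 34 * (3165 * u ^ 39) = 3165 * u ^ 73 := by ring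
    have b3 := h1 73
    omega
  have hc : P.n * (P.L * (τT P K + tE P K + 5) + 2) ≤ u * (3167 * u ^ 73) := Nat.mul_le_mul hn hb
  have hd : u * (3167 * u ^ 73) = 3167 * u ^ 74 := by ring
  have he : u ^ 74 ≤ u ^ 77 := hpow (by norm_num)
  have hf : P.n ≤ u ^ 77 := hn.trans (hu' (by norm_num))
  have hg := h1 77
  omega

theorem time_arith3 {x t : ℕ} (hx3 : 3 ≤ x) {n : ℕ} (hn : n ≤ x)
    (ht : t ≤ 68 * (x + 14) + 23 * n + 169 + (20000 * (x + 14) ^ 77 + 4000 * (x + 14) ^ 77)) :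
    t ≤ x ^ 241 := by
  have h1 : x + 14 ≤ x ^ 3 := by nlinarith [Nat.pow_le_pow_left hx3 2, sq_nonneg x]
  have h2 : (x + 14) ^ 77 ≤ x ^ 231 := by
    calc (x + 14) ^ 77 ≤ (x ^ 3) ^ 77 := Nat.pow_le_pow_left h1 77
      _ = x ^ 231 := by rw [← pow_mul]
  have h3 : x + 14 ≤ (x + 14) ^ 77 := by
    calc x + 14 = (x + 14) ^ 1 := (pow_one _).symm
      _ ≤ (x + 14) ^ 77 := Nat.pow_le_pow_right (by omega) (by norm_num)
  have h4 : n ≤ (x + 14) ^ 77 := by omega
  have h5 : t ≤ 24260 * (x + 14) ^ 77 := by omega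
  have h6 : 24260 ≤ x ^ 10 :=
    calc 24260 ≤ 3 ^ 10 := by norm_num
      _ ≤ x ^ 10 := Nat.pow_le_pow_left hx3 10
  calc t ≤ 24260 * (x + 14) ^ 77 := h5
    _ ≤ x ^ 10 * x ^ 231 := Nat.mul_le_mul h6 h2
    _ = x ^ 241 := by rw [← pow_add]

/-! ### counting with a side condition -/

variable {n : ℕ}

open Classical in
/-- the solutions in `𝓖` -/
noncomputable def indSpanG (M₁ M₂ : Matroid (Fin n)) (𝓖 : Set (Set (Fin n))) :
    Finset (Finset (Fin n)) :=
  (indSpan M₁ M₂).filter fun A => (A : Set (Fin n)) ∈ 𝓖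

/-- the decoded set is in `𝓖` -/
def decIn (n : ℕ) (𝓖 : Set (Set (Fin n))) (T : Finset ℕ) : Prop :=
  {x : Fin n | (x : ℕ) ∈ dec n T} ∈ 𝓖

theorem dec_enc (Z : Finset (Fin n × Bool)) :
    {x : Fin n | (x : ℕ) ∈ dec n (enc Z)} = (part false Z : Set (Fin n)) := by
  ext x
  simp only [dec, Set.mem_ofPred_eq, mem_filter, mem_range, mem_enc_even, mem_coe, mem_part]
  exact ⟨fun h => h.2, fun h => ⟨x.2, h⟩⟩

theorem nG_eq {r a : ℕ} {M₁ M₂ : Matroid (Fin n)} (hr : rkM M₂ univ = r) (L : ℕ)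
    (𝓖 : Set (Set (Fin n))) :
    nG (PP M₁ M₂ r a L) (decIn n 𝓖) = (indSpanG M₁ M₂ 𝓖).card := by
  classical
  symm
  unfold nG
  refine Finset.card_bij (fun B _ => colOf B) ?_ ?_ ?_
  · intro B hB
    unfold indSpanG indSpan at hB
    rw [Finset.mem_filter, Finset.mem_filter] at hB
    rw [Finset.mem_filter]
    refine ⟨Window.mem_Om0.2 (isCol_colOf B), ?_, ?_⟩
    · have := dfc_enc M₁ M₂ r a L hr (colOf B)
      change (PP M₁ M₂ r a L).dfc (enc (colOf B)) = _ at this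
      rw [this]
      exact (dfct_colOf_iff M₁ M₂ B).2 hB.1.2
    · unfold decIn
      rw [dec_enc, part_colOf_false]
      exact hB.2
  · intro B _ B' _ h
    have := congrArg (part false) h
    rwa [part_colOf_false, part_colOf_false] at this
  · intro S hS
    rw [Finset.mem_filter, Window.mem_Om0] at hS
    obtain ⟨hS1, hS2, hS3⟩ := hS
    have hd := dfc_enc M₁ M₂ r a L hr S
    change (PP M₁ M₂ r a L).dfc (enc S) = _ at hd
    rw [hd] at hS2
    refine ⟨part false S, ?_, colOf_part hS1⟩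
    unfold indSpanG indSpan
    rw [Finset.mem_filter, Finset.mem_filter]
    refine ⟨⟨Finset.mem_univ _, (dfct_colOf_iff M₁ M₂ _).1 ?_⟩, ?_⟩
    · rw [colOf_part hS1]; exact hS2
    · unfold decIn at hS3
      rwa [dec_enc] at hS3

theorem prob_eq_ind (𝓖 : Set (Set (Fin n))) {t : Rnd State} {u : Rnd (Finset ℕ)}
    (h : Sim (fun s T => s.set 0 = dec n T) t u) :
    t.prob (fun s => {x : Fin n | (x : ℕ) ∈ s.set 0} ∈ 𝓖) = ex (ind (decIn n 𝓖)) u := by
  classical
  rw [prob_eq_ex]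
  refine h.ex_eq ?_
  intro s T hs
  unfold ind decIn
  rw [hs]

/-- the sampling program, for matroids of arbitrary ranks -/
theorem samp_spec (n : ℕ) (M₁ M₂ : Matroid (Fin n)) (e l : ℕ) (he : 0 < e) :
    (run (oracles M₁ M₂) sampProg (input n e l)).All
      (fun s => s.time ≤ (n + e + l + 2) ^ 241) ∧
    (0 < (indSpan M₁ M₂).card → ∀ 𝓖 : Set (Set (Fin n)),
      |(run (oracles M₁ M₂) sampProg (input n e l)).prob
          (fun s => {x : Fin n | (x : ℕ) ∈ s.set 0} ∈ 𝓖) -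
        ((indSpanG M₁ M₂ 𝓖).card : ℝ) / (indSpan M₁ M₂).card| ≤ (1 / 2) ^ l + 1 / e) := by
  obtain ⟨s', hs', a, ha, h2n, h4n, hRl, htime⟩ := ex_preT (o := oracles M₁ M₂) n e l
  rw [greedy_rank_univT] at hRl
  set u := n + e + l + 16 with hu
  have hrun : run (oracles M₁ M₂) sampProg (input n e l) =
      run (oracles M₁ M₂) (.seq mainCode (.seq (.add 16 16 5) (.seq sampLoop decCode))) s' := by
    have : run (oracles M₁ M₂) sampProg (input n e l) =
      (run (oracles M₁ M₂) preCodeT (input n e l)).bind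
        (run (oracles M₁ M₂) (.seq mainCode (.seq (.add 16 16 5) (.seq sampLoop decCode)))) := rfl
    rw [this, hs']
    rfl
  have hsim := sim_samp (hypG M₁ M₂ a u) (rkM_univ_le M₂) (s := s') (q := q0 n) ⟨_, _, hRl⟩
    rfl rfl rfl rfl
  rw [hrun]
  constructor
  · refine all_of_sim hsim ?_
    rintro s f ⟨-, ht⟩
    have h1 := tM_le (P := PP M₁ M₂ (rkM M₂ univ) a (u ^ 34)) (u := u) (by omega)
      (by show n ≤ u; omega) rfl (by show a ≤ 4 * u; omega)
    have h2 := tS_le' (P := PP M₁ M₂ (rkM M₂ univ) a (u ^ 34)) (u := u) (K := n * u + 1) (by omega)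
      (by show n ≤ u; omega) rfl (by show a ≤ 4 * u; omega) (by
        have : n * u ≤ u * u := Nat.mul_le_mul_right u (by omega)
        have : 1 ≤ u * u := Nat.mul_pos (by omega) (by omega)
        nlinarith)
    have h3 : s.time ≤ s'.time + τS (PP M₁ M₂ (rkM M₂ univ) a (u ^ 34)) (n * u) := ht
    unfold τS at h3
    refine time_arith3 (x := n + e + l + 2) (n := n) (by omega) (by omega) ?_
    have e1 : n + e + l + 2 + 14 = u := by omega
    rw [e1]
    have h2' : n * ((PP M₁ M₂ (rkM M₂ univ) a (u ^ 34)).L *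
      (τT (PP M₁ M₂ (rkM M₂ univ) a (u ^ 34)) (n * u + 1) +
        tE (PP M₁ M₂ (rkM M₂ univ) a (u ^ 34)) (n * u + 1) + 5) + 2) + 6 * n + 10 ≤
        4000 * u ^ 77 := h2
    have h1' : τM (PP M₁ M₂ (rkM M₂ univ) a (u ^ 34)) (n * u) ≤ 20000 * u ^ 77 := h1
    have h3' : s.time ≤ s'.time + (τM (PP M₁ M₂ (rkM M₂ univ) a (u ^ 34)) (n * u) +
      n * ((PP M₁ M₂ (rkM M₂ univ) a (u ^ 34)).L *
      (τT (PP M₁ M₂ (rkM M₂ univ) a (u ^ 34)) (n * u + 1) +
        tE (PP M₁ M₂ (rkM M₂ univ) a (u ^ 34)) (n * u + 1) + 5) + 2) + 6 * n + 10) := h3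
    omega
  · intro hpos 𝓖
    have F := facts (M₁ := M₁) (M₂ := M₂) (r := rkM M₂ univ) (a := a) (e := e) (l := l) (u := u)
      rfl he rfl h2n h4n
    have hnb : (PP M₁ M₂ (rkM M₂ univ) a (u ^ 34)).nb = (indSpan M₁ M₂).card := nb_eqG rfl _
    have key := samp_close_all F he (by show n + e + 16 ≤ u; omega) rfl (by rw [hnb]; exact hpos)
      (decIn n 𝓖)
    rw [hnb, nG_eq rfl] at key
    rw [prob_eq_ind 𝓖 (hsim.mono fun s T h => h.1)]
    exact key

/-! ### families -/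

/-- a family of sets is given by a finite set of finite sets -/
theorem card_of_iff {F : Set (Set (Fin n))} {S : Finset (Finset (Fin n))}
    (h : ∀ A : Finset (Fin n), (A : Set (Fin n)) ∈ F ↔ A ∈ S) : Nat.card F = S.card := by
  classical
  have e : Nat.card {B : Finset (Fin n) // (B : Set (Fin n)) ∈ F} = S.card :=
    Nat.subtype_card _ fun B => (h B).symm
  rw [← e]
  refine Nat.card_congr ⟨fun B => ⟨B.1.toFinset, by simpa using B.2⟩,
    fun B => ⟨(B.1 : Set (Fin n)), B.2⟩, fun B => ?_, fun B => ?_⟩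
  · exact Subtype.ext (by simp)
  · exact Subtype.ext (by simp)

theorem card_of_iffG {M₁ M₂ : Matroid (Fin n)} {F : Set (Set (Fin n))}
    (h : ∀ A : Finset (Fin n), (A : Set (Fin n)) ∈ F ↔ A ∈ indSpan M₁ M₂)
    (𝓖 : Set (Set (Fin n))) : Nat.card ↥(F ∩ 𝓖) = (indSpanG M₁ M₂ 𝓖).card := by
  classical
  refine card_of_iff fun A => ?_
  unfold indSpanG
  rw [Finset.mem_filter, Set.mem_inter_iff, h]

theorem card_pos_of {F : Set (Set (Fin n))} {S : Finset (Finset (Fin n))}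
    (h : ∀ A : Finset (Fin n), (A : Set (Fin n)) ∈ F ↔ A ∈ S) (hF : F.Nonempty) : 0 < S.card := by
  classical
  obtain ⟨A, hA⟩ := hF
  rw [Finset.card_pos]
  refine ⟨A.toFinset, (h _).1 ?_⟩
  simpa using hA

/-- the sets of the family -/
theorem family_iff (M₁ M₂ : Matroid (Fin n)) (a b : ℕ) (hb : b ≤ rkM M₂ Finset.univ)
    (A : Finset (Fin n)) :
    (A : Set (Fin n)) ∈ Fam.family M₁ M₂ a b ↔ A ∈ indSpan (trunc M₁ a) (trunc M₂ b) := by
  unfold indSpan
  rw [Finset.mem_filter, trunc_iff, trunc_span_iff M₂ hb]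
  unfold Fam.family
  rw [Set.mem_ofPred_eq, ← coe_rkM, Set.encard_coe_eq_coe_finsetCard]
  simp only [Finset.mem_univ, true_and, Nat.cast_le, and_assoc]

/-- the common bases -/
theorem bases_iff (M₁ M₂ : Matroid (Fin n)) (hr : M₁.eRank = M₂.eRank) (A : Finset (Fin n)) :
    (A : Set (Fin n)) ∈ {B | M₁.IsBase B ∧ M₂.IsBase B} ↔ A ∈ indSpan M₁ M₂ := by
  unfold indSpan
  rw [Finset.mem_filter, Set.mem_ofPred_eq, isBase_iff_rkM, isBase_iff_rkM]
  have h0 := rkM_univ_eq hr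
  have h1 := (isRk_rkM M₁).le_card (rkM_empty M₁) A
  have h2 := (isRk_rkM M₂).le_card (rkM_empty M₂) A
  have h3 := rkM_le_univ M₁ A
  have h4 := rkM_le_univ M₂ A
  simp only [Finset.mem_univ, true_and]
  omega

/-- the sampling program with bounds -/
def sampProgB : Cmd := .seq initC (tr sampProg)

/-- the specification of the sampling program with bounds -/
theorem sampB_spec (n : ℕ) (M₁ M₂ : Matroid (Fin n)) (a b e l : ℕ) (he : 0 < e) :
    (run (oracles M₁ M₂) sampProgB (input5 n e l a b)).All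
      (fun s => s.time ≤ (n + e + l + 2) ^ 245) ∧
    ((Fam.family M₁ M₂ a b).Nonempty → ∀ 𝓖 : Set (Set (Fin n)),
      |(run (oracles M₁ M₂) sampProgB (input5 n e l a b)).prob
          (fun s => {x : Fin n | (x : ℕ) ∈ s.set 0} ∈ 𝓖) -
        (Nat.card ↥(Fam.family M₁ M₂ a b ∩ 𝓖) : ℝ) / Nat.card (Fam.family M₁ M₂ a b)| ≤
          (1 / 2) ^ l + 1 / e) := by
  have hsim := sim_wrap (oracles M₁ M₂) sampProg low_sampProg n e l a b
  obtain ⟨h1, h2⟩ := samp_spec n (trunc M₁ a) (trunc M₂ b) e l he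
  rw [← oT_oracles] at h1 h2
  constructor
  · refine hsim.all h1 ?_
    intro t s ht hs
    have h3 := ht.time
    have h4 := time_aux (x := n + e + l + 2) (n := n) (t := s.time) (by omega) (by omega) hs
    omega
  · intro hne 𝓖
    have hb : b ≤ rkM M₂ Finset.univ := by
      by_contra hb
      rw [card_family_zero M₁ M₂ a b (not_le.1 hb)] at hne
      exact Set.not_nonempty_empty hne
    have hF := family_iff M₁ M₂ a b hb
    rw [card_of_iff hF, card_of_iffG hF 𝓖]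
    have h3 := h2 (card_pos_of hF hne) 𝓖
    have h4 : (run (oracles M₁ M₂) sampProgB (input5 n e l a b)).prob
        (fun s => {x : Fin n | (x : ℕ) ∈ s.set 0} ∈ 𝓖) =
        (run (oT n a b (oracles M₁ M₂)) sampProg (input n e l)).prob
        (fun s => {x : Fin n | (x : ℕ) ∈ s.set 0} ∈ 𝓖) := by
      refine prob_eq_of_sim hsim ?_
      intro t s ht
      rw [ht.set]
    rw [h4]
    exact h3

end Vale.Agent.P317.H964
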