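import Vale.Agent.P317.H964.Trunc

/-!
# P317 (helper964): program transformation simulating the oracles of truncated matroids
-/

set_option linter.unusedSimpArgs false
set_option linter.unusedVariables false

namespace Vale.Agent.P317.H964

open Rnd Alg

/-- all number registers of the program are below `R` -/
def lowN (R : ℕ) : Cmd → Bool
  | .const x _ => decide (x < R)
  | .add x y z => decide (x < R) && decide (y < R) && decide (z < R)
  | .sub x y z => decide (x < R) && decide (y < R) && decide (z < R)
  | .coin x => decide (x < R)
  | .clear _ => true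
  | .copy _ _ => true
  | .insert _ x => decide (x < R)
  | .erase _ x => decide (x < R)
  | .mem x y _ => decide (x < R) && decide (y < R)
  | .ask _ x _ => decide (x < R)
  | .seq c d => lowN R c && lowN R d
  | .cond x y c d => decide (x < R) && decide (y < R) && lowN R c && lowN R d
  | .loop x c => decide (x < R) && lowN R c

/-- register 65 := number of elements below `n` (register 60) of set register `S` -/
def sizeCode (S : ℕ) : Cmd :=
  .seq (.const 65 0) (.seq (.const 64 0) (.loop 60
    (.seq (.mem 66 64 S) (.seq (.add 65 65 66) (.add 64 64 61)))))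

/-- question to the truncated oracle; bounds in registers 62 and 63 -/
def askT (i : Bool) (x S : ℕ) : Cmd :=
  .seq (sizeCode S) (.cond (if i then 63 else 62) 65 (.const x 0) (.ask i x S))

/-- the transformed program -/
def tr : Cmd → Cmd
  | .const x c => .const x c
  | .add x y z => .add x y z
  | .sub x y z => .sub x y z
  | .coin x => .coin x
  | .clear S => .clear S
  | .copy S T => .copy S T
  | .insert S x => .insert S x
  | .erase S x => .erase S x
  | .mem x y S => .mem x y S
  | .ask i x S => askT i x S
  | .seq c d => .seq (tr c) (tr d)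
  | .cond x y c d => .cond x y (tr c) (tr d)
  | .loop x c => .loop x (tr c)

/-- the oracles of the truncated matroids -/
def oT (n a b : ℕ) (o : Bool → Finset ℕ → Bool) (i : Bool) (S : Finset ℕ) : Bool :=
  o i S && decide (cnt (fun v => decide (v ∈ S)) n ≤ if i then b else a)

/-- states of the transformed and of the original program -/
structure Tq (n a b C : ℕ) (s' s : State) : Prop where
  num : ∀ r < 60, s'.num r = s.num r
  set : s'.set = s.set
  n60 : s'.num 60 = n
  one : s'.num 61 = 1
  a62 : s'.num 62 = a
  b63 : s'.num 63 = b
  time : s'.time ≤ C + (4 * n + 6) * s.time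

variable {n a b C : ℕ} {s s' : State} {o : Bool → Finset ℕ → Bool}

theorem Tq.put (h : Tq n a b C s' s) {x : ℕ} (hx : x < 60) (v : ℕ) :
    Tq n a b C (s'.putNum x v) (s.putNum x v) := by
  refine ⟨?_, h.set, ?_, ?_, ?_, ?_, ?_⟩
  · intro r hr
    simp only [State.putNum, Function.update_apply]
    split_ifs
    · rfl
    · exact h.num r hr
  · rw [State.putNum]; simp only; rw [Function.update_of_ne (by omega)]; exact h.n60
  · rw [State.putNum]; simp only; rw [Function.update_of_ne (by omega)]; exact h.one
  · rw [State.putNum]; simp only; rw [Function.update_of_ne (by omega)]; exact h.a62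
  · rw [State.putNum]; simp only; rw [Function.update_of_ne (by omega)]; exact h.b63
  · have := h.time
    simp only [State.putNum]
    have e : C + (4 * n + 6) * (s.time + 1) = C + (4 * n + 6) * s.time + (4 * n + 6) := by ring
    rw [e]
    generalize (4 * n + 6) * s.time = w at *
    omega

theorem Tq.putS (h : Tq n a b C s' s) (X : ℕ) (v : Finset ℕ) :
    Tq n a b C (s'.putSet X v) (s.putSet X v) := by
  refine ⟨h.num, ?_, h.n60, h.one, h.a62, h.b63, ?_⟩
  · simp only [State.putSet, h.set]
  · have := h.time
    simp only [State.putSet]
    have e : C + (4 * n + 6) * (s.time + 1) = C + (4 * n + 6) * s.time + (4 * n + 6) := by ring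
    rw [e]
    generalize (4 * n + 6) * s.time = w at *
    omega

theorem Tq.tick (h : Tq n a b C s' s) : Tq n a b C s'.tick s.tick := by
  refine ⟨h.num, h.set, h.n60, h.one, h.a62, h.b63, ?_⟩
  have := h.time
  simp only [State.tick]
  have e : C + (4 * n + 6) * (s.time + 1) = C + (4 * n + 6) * s.time + (4 * n + 6) := by ring
  rw [e]
  generalize (4 * n + 6) * s.time = w at *
  omega

/-- run of the size computation -/
theorem run_size (S : ℕ) (h60 : s'.num 60 = n) (h61 : s'.num 61 = 1) :
    Ex (run o (sizeCode S) s') (fun t =>
      (∀ r, r ≠ 64 → r ≠ 65 → r ≠ 66 → t.num r = s'.num r) ∧ t.set = s'.set ∧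
      t.num 65 = cnt (fun v => decide (v ∈ s'.set S)) n ∧ t.time ≤ s'.time + (4 * n + 3)) := by
  set T := s'.set S with hT
  set Inv : ℕ → State → Prop := fun m t =>
    (∀ r, r ≠ 64 → r ≠ 65 → r ≠ 66 → t.num r = s'.num r) ∧ t.set = s'.set ∧
    t.num 64 = m ∧ t.num 65 = cnt (fun v => decide (v ∈ T)) m ∧
    t.time ≤ s'.time + (4 * m + 3) with hInv
  have hstep : ∀ i t, Inv i t →
      Ex (run o (.seq (.mem 66 64 S) (.seq (.add 65 65 66) (.add 64 64 61))) t.tick)
        (Inv (i + 1)) := by
    rintro m t ⟨h1, h2, h3, h4, h5⟩
    have e61 : t.num 61 = 1 := by rw [h1 61 (by norm_num) (by norm_num) (by norm_num)]; exact h61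
    by_cases c : m ∈ T
    · unfold Ex
      simp [run, State.putNum, State.tick, h3, h4, e61, h2, ← hT, c]
      refine ⟨?_, rfl, ?_, ?_, ?_⟩
      · intro r r1 r2 r3
        simp [r1, r2, r3, h1 r r1 r2 r3]
      · simp
      · simp [cnt, c]
      · simp only; omega
    · unfold Ex
      simp [run, State.putNum, State.tick, h3, h4, e61, h2, ← hT, c]
      refine ⟨?_, rfl, ?_, ?_, ?_⟩
      · intro r r1 r2 r3
        simp [r1, r2, r3, h1 r r1 r2 r3]
      · simp
      · simp [cnt, c]
      · simp only; omega
  have h0 : Inv 0 ((s'.putNum 65 0).putNum 64 0).tick := by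
    refine ⟨?_, rfl, ?_, ?_, ?_⟩
    · intro r r1 r2 r3
      simp [State.putNum, State.tick, r1, r2, r3]
    · simp [State.putNum, State.tick]
    · simp [State.putNum, State.tick, cnt]
    · simp only [State.putNum, State.tick]; omega
  have hloop := ex_loop hstep n 0 _ h0
  rw [Nat.zero_add] at hloop
  have e : run o (sizeCode S) s' =
      iter (run o (.seq (.mem 66 64 S) (.seq (.add 65 65 66) (.add 64 64 61)))) n
        ((s'.putNum 65 0).putNum 64 0).tick := by
    have : ((s'.putNum 65 0).putNum 64 0).num 60 = n := by simp [State.putNum, h60]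
    rw [← this]
    rfl
  rw [e]
  exact hloop.mono fun t ht => ⟨ht.1, ht.2.1, ht.2.2.2.1, ht.2.2.2.2⟩

theorem sim_askT {i : Bool} {x S : ℕ} (hx : x < 60) (h : Tq n a b C s' s) :
    Sim (Tq n a b C) (run o (askT i x S) s') (run (oT n a b o) (.ask i x S) s) := by
  obtain ⟨t, ht, h1, h2, h3, h4⟩ := run_size (o := o) S h.n60 h.one
  have e : run o (askT i x S) s' =
      run o (.cond (if i then 63 else 62) 65 (.const x 0) (.ask i x S)) t := by
    have : run o (askT i x S) s' = (run o (sizeCode S) s').bind
      (run o (.cond (if i then 63 else 62) 65 (.const x 0) (.ask i x S))) := rfl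
    rw [this, ht]
    rfl
  rw [e]
  have hb : t.num (if i then 63 else 62) = if i then b else a := by
    cases i
    · simp only [Bool.false_eq_true, if_false]
      rw [h1 62 (by norm_num) (by norm_num) (by norm_num)]; exact h.a62
    · simp only [if_true]
      rw [h1 63 (by norm_num) (by norm_num) (by norm_num)]; exact h.b63
  have hS : s'.set S = s.set S := by rw [h.set]
  have hgo : ∀ v : ℕ, ∀ t' : State, t' = (t.tick).putNum x v → Tq n a b C t' (s.putNum x v) := by
    rintro v t' rfl
    refine ⟨?_, ?_, ?_, ?_, ?_, ?_, ?_⟩
    · intro r hr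
      simp only [State.putNum, State.tick, Function.update_apply]
      split_ifs
      · rfl
      · rw [h1 r (by omega) (by omega) (by omega)]; exact h.num r hr
    · simp only [State.putNum, State.tick, h2, h.set]
    · simp only [State.putNum, State.tick]
      rw [Function.update_of_ne (by omega), h1 _ (by norm_num) (by norm_num) (by norm_num)]
      exact h.n60
    · simp only [State.putNum, State.tick]
      rw [Function.update_of_ne (by omega), h1 _ (by norm_num) (by norm_num) (by norm_num)]
      exact h.one
    · simp only [State.putNum, State.tick]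
      rw [Function.update_of_ne (by omega), h1 _ (by norm_num) (by norm_num) (by norm_num)]
      exact h.a62
    · simp only [State.putNum, State.tick]
      rw [Function.update_of_ne (by omega), h1 _ (by norm_num) (by norm_num) (by norm_num)]
      exact h.b63
    · have := h.time
      simp only [State.putNum, State.tick]
      have e : C + (4 * n + 6) * (s.time + 1) = C + (4 * n + 6) * s.time + (4 * n + 6) := by ring
      rw [e]
      generalize (4 * n + 6) * s.time = w at *
      omega
  by_cases hc : (if i then b else a) < cnt (fun v => decide (v ∈ s'.set S)) n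
  · have e2 : run o (.cond (if i then 63 else 62) 65 (.const x 0) (.ask i x S)) t =
        .leaf ((t.tick).putNum x 0) := by
      have : t.num (if i then 63 else 62) < t.num 65 := by rw [hb, h3]; exact hc
      simp only [run, if_pos this]
    have e3 : oT n a b o i (s.set S) = false := by
      unfold oT
      rw [← hS, decide_eq_false (not_le.2 hc), Bool.and_false]
    rw [e2]
    simp only [run, e3]
    exact hgo 0 _ rfl
  · have e2 : run o (.cond (if i then 63 else 62) 65 (.const x 0) (.ask i x S)) t =
        .leaf ((t.tick).putNum x (if o i (s.set S) then 1 else 0)) := by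
      have : ¬ t.num (if i then 63 else 62) < t.num 65 := by rw [hb, h3]; exact hc
      simp only [run, if_neg this, State.tick, h2, hS]
    have e3 : oT n a b o i (s.set S) = o i (s.set S) := by
      unfold oT
      rw [← hS, decide_eq_true (not_lt.1 hc), Bool.and_true]
    rw [e2]
    simp only [run, e3]
    exact hgo _ _ rfl

theorem sim_iter2 {R : State → State → Prop} {g g' : State → Rnd State}
    (h : ∀ s' s, R s' s → Sim R (g' s'.tick) (g s.tick)) (m : ℕ) :
    ∀ s' s, R s' s → Sim R (iter g' m s') (iter g m s) := by
  induction m with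
  | zero => intro s' s hR; exact hR
  | succ m ih =>
    intro s' s hR
    rw [iter_succ, iter_succ]
    exact (h s' s hR).bind ih

theorem sim_tr (c : Cmd) (hc : lowN 60 c = true) : ∀ s' s, Tq n a b C s' s →
    Sim (Tq n a b C) (run o (tr c) s') (run (oT n a b o) c s) := by
  induction c with
  | const x c =>
    intro s' s h
    simp only [lowN, decide_eq_true_eq] at hc
    exact h.put hc c
  | add x y z =>
    intro s' s h
    simp only [lowN, Bool.and_eq_true, decide_eq_true_eq] at hc
    have := h.put hc.1.1 (s.num y + s.num z)
    simp only [tr, run, h.num y hc.1.2, h.num z hc.2]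
    exact this
  | sub x y z =>
    intro s' s h
    simp only [lowN, Bool.and_eq_true, decide_eq_true_eq] at hc
    have := h.put hc.1.1 (s.num y - s.num z)
    simp only [tr, run, h.num y hc.1.2, h.num z hc.2]
    exact this
  | coin x =>
    intro s' s h
    simp only [lowN, decide_eq_true_eq] at hc
    exact ⟨h.put hc 0, h.put hc 1⟩
  | clear S => intro s' s h; exact h.putS S ∅
  | copy S T =>
    intro s' s h
    have := h.putS S (s.set T)
    simp only [tr, run, h.set]
    exact this
  | insert S x =>
    intro s' s h
    simp only [lowN, decide_eq_true_eq] at hc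
    have := h.putS S (insert (s.num x) (s.set S))
    simp only [tr, run, h.set, h.num x hc]
    exact this
  | erase S x =>
    intro s' s h
    simp only [lowN, decide_eq_true_eq] at hc
    have := h.putS S ((s.set S).erase (s.num x))
    simp only [tr, run, h.set, h.num x hc]
    exact this
  | mem x y S =>
    intro s' s h
    simp only [lowN, Bool.and_eq_true, decide_eq_true_eq] at hc
    have := h.put hc.1 (if s.num y ∈ s.set S then 1 else 0)
    simp only [tr, run, h.set, h.num y hc.2]
    exact this
  | ask i x S =>
    intro s' s h
    simp only [lowN, decide_eq_true_eq] at hc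
    exact sim_askT hc h
  | seq c d ihc ihd =>
    intro s' s h
    simp only [lowN, Bool.and_eq_true] at hc
    simp only [tr, run]
    exact (ihc hc.1 s' s h).bind (ihd hc.2)
  | cond x y c d ihc ihd =>
    intro s' s h
    simp only [lowN, Bool.and_eq_true, decide_eq_true_eq] at hc
    simp only [tr, run, h.num x hc.1.1.1, h.num y hc.1.1.2]
    split_ifs
    · exact ihc hc.1.2 _ _ h.tick
    · exact ihd hc.2 _ _ h.tick
  | loop x c ih =>
    intro s' s h
    simp only [lowN, Bool.and_eq_true, decide_eq_true_eq] at hc
    simp only [tr, run, h.num x hc.1]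
    exact sim_iter2 (fun s' s hh => ih hc.2 _ _ hh.tick) _ _ _ h.tick

/-- the simulated oracles are those of the truncated matroids -/
theorem oT_oracles (M₁ M₂ : Matroid (Fin n)) (a b : ℕ) :
    oT n a b (oracles M₁ M₂) = oracles (trunc M₁ a) (trunc M₂ b) := by
  classical
  funext i S
  have hc : ({x : Fin n | (x : ℕ) ∈ S} : Set (Fin n)).ncard =
      cnt (fun v => decide (v ∈ S)) n := by
    rw [cnt_eq_card]
    rw [← Set.ncard_coe_finset]
    congr 1
    ext x
    simp
  unfold oT oracles
  rw [← hc]
  cases i
  · simp only [Bool.false_eq_true, if_false]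
    rw [← Bool.decide_and]
    apply decide_eq_decide.2
    rw [trunc_indep]
  · simp only [if_true]
    rw [← Bool.decide_and]
    apply decide_eq_decide.2
    rw [trunc_indep]

end Vale.Agent.P317.H964
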