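import Vale.Agent.P317.H964.Gen

/-!
# P317 (helper964): truncation of matroids, and the families counted by the program
-/

namespace Vale.Agent.P317.H964

open Finset

variable {n : ℕ}

/-- truncation: the independent sets with at most `a` elements -/
noncomputable def trunc (M : Matroid (Fin n)) (a : ℕ) : Matroid (Fin n) :=
  (IndepMatroid.ofFinite (E := Set.univ) Set.finite_univ (fun A => M.Indep A ∧ A.ncard ≤ a)
    ⟨M.empty_indep, by simp⟩
    (fun I J hJ hIJ => ⟨hJ.1.subset hIJ, (Set.ncard_le_ncard hIJ (Set.toFinite J)).trans hJ.2⟩)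
    (fun I J hI hJ h => by
      have h1 : I.encard < J.encard := by
        rw [← (Set.toFinite I).cast_ncard_eq, ← (Set.toFinite J).cast_ncard_eq]
        exact_mod_cast h
      obtain ⟨x, hx, hi⟩ := hI.1.augment hJ.1 h1
      refine ⟨x, hx.1, hx.2, hi, ?_⟩
      rw [Set.ncard_insert_of_notMem hx.2 (Set.toFinite I)]
      have := hJ.2
      omega)
    (fun I _ => Set.subset_univ I)).matroid

theorem trunc_indep (M : Matroid (Fin n)) (a : ℕ) (A : Set (Fin n)) :
    (trunc M a).Indep A ↔ M.Indep A ∧ A.ncard ≤ a := by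
  unfold trunc
  rw [IndepMatroid.matroid_Indep, IndepMatroid.ofFinite_indep]

theorem le_rkM {M : Matroid (Fin n)} {I S : Finset (Fin n)} (hI : M.Indep (I : Set (Fin n)))
    (h : I ⊆ S) : I.card ≤ rkM M S := by
  rw [← (indep_iff_rkM M I).1 hI]
  exact (isRk_rkM M).mono h

theorem exists_rkM (M : Matroid (Fin n)) (S : Finset (Fin n)) :
    ∃ I ⊆ S, M.Indep (I : Set (Fin n)) ∧ I.card = rkM M S := by
  classical
  obtain ⟨I, hI⟩ := M.exists_isBasis' (S : Set (Fin n))
  refine ⟨I.toFinset, ?_, by simpa using hI.indep, ?_⟩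
  · intro x hx
    have := hI.subset (by simpa using hx)
    exact_mod_cast this
  · have h1 := hI.encard_eq_eRk
    rw [← coe_rkM] at h1
    have h2 : I.encard = ((I.toFinset.card : ℕ) : ℕ∞) := by
      rw [← Set.encard_coe_eq_coe_finsetCard]
      simp
    rw [h2] at h1
    exact_mod_cast h1

theorem rkM_trunc (M : Matroid (Fin n)) (a : ℕ) (S : Finset (Fin n)) :
    rkM (trunc M a) S = min (rkM M S) a := by
  apply le_antisymm
  · obtain ⟨I, h1, h2, h3⟩ := exists_rkM (trunc M a) S
    rw [trunc_indep, Set.ncard_coe_finset] at h2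
    have := le_rkM h2.1 h1
    omega
  · obtain ⟨I, h1, h2, h3⟩ := exists_rkM M S
    obtain ⟨J, h4, h5⟩ := Finset.exists_subset_card_eq (s := I) (n := min I.card a) (by omega)
    have h6 : (trunc M a).Indep (J : Set (Fin n)) := by
      rw [trunc_indep, Set.ncard_coe_finset]
      exact ⟨h2.subset (by exact_mod_cast h4), by omega⟩
    have := le_rkM h6 (h4.trans h1)
    omega

theorem trunc_iff (M : Matroid (Fin n)) (a : ℕ) (A : Finset (Fin n)) :
    rkM (trunc M a) A = A.card ↔ M.Indep (A : Set (Fin n)) ∧ A.card ≤ a := by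
  rw [← indep_iff_rkM, trunc_indep, Set.ncard_coe_finset]

theorem trunc_span_iff (M : Matroid (Fin n)) {b : ℕ} (hb : b ≤ rkM M univ) (A : Finset (Fin n)) :
    rkM (trunc M b) A = rkM (trunc M b) univ ↔ b ≤ rkM M A := by
  rw [rkM_trunc, rkM_trunc]
  omega

end Vale.Agent.P317.H964
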