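import Vale.Agent.P317.MathlibUsed

/-!
# P317 (helper964): the path gadget for a binary weight
-/

set_option linter.unusedVariables false
set_option linter.unusedSimpArgs false

namespace Vale.Agent.P317.H964

open Finset

/-- membership as a number -/
def mm (S : Finset ℕ) (g : ℕ) : ℕ := if g ∈ S then 1 else 0

theorem mm_le (S : Finset ℕ) (g : ℕ) : mm S g ≤ 1 := by
  unfold mm; split_ifs <;> omega

theorem mm_pos {S : Finset ℕ} {g : ℕ} : 0 < mm S g ↔ g ∈ S := by
  unfold mm; split_ifs with h <;> simp [h]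

theorem mm_one {S : Finset ℕ} {g : ℕ} : mm S g = 1 ↔ g ∈ S := by
  unfold mm; split_ifs with h <;> simp [h]

theorem mm_zero {S : Finset ℕ} {g : ℕ} : mm S g = 0 ↔ g ∉ S := by
  unfold mm; split_ifs with h <;> simp [h]

/-- the elements of the gadget: `4 j + 1` and (if `1 ≤ j`) `4 j + 2` are the two edges leaving
node `j` downwards, `4 j + 4` is the loop at node `j`, `4 j + 7` is the entry edge at node `j`,
present if bit `j` of the weight is one -/
def pres (w L c : ℕ) : Prop :=
  ∃ j < L, c = 4 * j + 1 ∨ (c = 4 * j + 2 ∧ 1 ≤ j) ∨ c = 4 * j + 4 ∨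
    (c = 4 * j + 7 ∧ w.testBit j = true)

/-- a perfect configuration of the gadget -/
structure IsConf (w L b : ℕ) (T : Finset ℕ) : Prop where
  pr : ∀ c ∈ T, pres w L c
  left : ∀ j < L, mm T (4 * j + 1) + mm T (4 * j + 2) + mm T (4 * j + 4) = 1
  right : ∀ j < L, mm T (4 * j + 4) + mm T (4 * j + 5) + mm T (4 * j + 6) + mm T (4 * j + 7) = 1
  pl : ∑ j ∈ range L, mm T (4 * j + 7) = b

open Classical in
/-- all perfect configurations -/
noncomputable def Conf (w L b : ℕ) : Finset (Finset ℕ) :=
  ((range (4 * (L + 1))).powerset).filter (IsConf w L b)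

theorem pres_lt {w L c : ℕ} (h : pres w L c) : c < 4 * (L + 1) := by
  obtain ⟨j, hj, h⟩ := h
  omega

theorem mem_Conf {w L b : ℕ} {T : Finset ℕ} : T ∈ Conf w L b ↔ IsConf w L b T := by
  classical
  unfold Conf
  rw [mem_filter, mem_powerset, and_iff_right_iff_imp]
  intro h c hc
  exact mem_range.2 (pres_lt (h.pr c hc))

/-- number of chosen edges leaving node `j` -/
def dn (T : Finset ℕ) (j : ℕ) : ℕ := mm T (4 * j + 1) + mm T (4 * j + 2)

theorem IsConf.dn_top {w L b : ℕ} {T : Finset ℕ} (h : IsConf w L b T) : dn T L = 0 := by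
  have h1 : mm T (4 * L + 1) = 0 := mm_zero.2 fun hc => by
    obtain ⟨j, hj, hh⟩ := h.pr _ hc
    omega
  have h2 : mm T (4 * L + 2) = 0 := mm_zero.2 fun hc => by
    obtain ⟨j, hj, hh⟩ := h.pr _ hc
    omega
  unfold dn; omega

theorem IsConf.dn_step {w L b : ℕ} {T : Finset ℕ} (h : IsConf w L b T) {j : ℕ} (hj : j < L) :
    dn T j = dn T (j + 1) + mm T (4 * j + 7) := by
  have h1 := h.left j hj
  have h2 := h.right j hj
  unfold dn
  have e1 : 4 * (j + 1) + 1 = 4 * j + 5 := by ring
  have e2 : 4 * (j + 1) + 2 = 4 * j + 6 := by ring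
  rw [e1, e2]
  omega

theorem IsConf.dn_eq {w L b : ℕ} {T : Finset ℕ} (h : IsConf w L b T) {j : ℕ} (hj : j ≤ L) :
    dn T j = ∑ i ∈ Ico j L, mm T (4 * i + 7) := by
  obtain ⟨m, rfl⟩ := Nat.exists_eq_add_of_le hj
  clear hj
  induction m generalizing j with
  | zero => simpa using h.dn_top
  | succ m ih =>
    rw [h.dn_step (by omega : j < j + (m + 1))]
    have e : j + (m + 1) = (j + 1) + m := by ring
    rw [Finset.sum_eq_sum_Ico_succ_bot (by omega : j < j + (m + 1))]
    have h2 := ih (j := j + 1) (by rw [← e]; exact h)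
    rw [h2, e, add_comm]

theorem IsConf.right_port {w L b : ℕ} {T : Finset ℕ} (h : IsConf w L b T) : mm T 1 = b := by
  have h1 := h.dn_eq (Nat.zero_le L)
  rw [← range_eq_Ico, h.pl] at h1
  have h2 : mm T 2 = 0 := mm_zero.2 fun hc => by
    obtain ⟨j, hj, hh⟩ := h.pr _ hc
    omega
  unfold dn at h1
  simp only [Nat.mul_zero, Nat.zero_add] at h1
  omega

/-! ### no path -/

theorem card_Conf_zero (w L : ℕ) : (Conf w L 0).card = 1 := by
  classical
  rw [card_eq_one]
  refine ⟨(range L).image fun j => 4 * j + 4, ?_⟩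
  ext T
  rw [mem_Conf, mem_singleton]
  constructor
  · intro h
    have he : ∀ j < L, mm T (4 * j + 7) = 0 := by
      have := (Finset.sum_eq_zero_iff).1 h.pl
      intro j hj
      exact this j (mem_range.2 hj)
    have hd : ∀ j ≤ L, dn T j = 0 := by
      intro j hj
      rw [h.dn_eq hj]
      exact Finset.sum_eq_zero fun i hi => he i (mem_Ico.1 hi).2
    ext c
    rw [mem_image]
    constructor
    · intro hc
      obtain ⟨j, hj, hh⟩ := h.pr c hc
      have h1 := hd j hj.le
      unfold dn at h1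
      rcases hh with rfl | ⟨rfl, _⟩ | rfl | ⟨rfl, _⟩
      · have := mm_one.2 hc; omega
      · have := mm_one.2 hc; omega
      · exact ⟨j, mem_range.2 hj, rfl⟩
      · have := mm_one.2 hc; have := he j hj; omega
    · rintro ⟨j, hj, rfl⟩
      have h1 := h.left j (mem_range.1 hj)
      have h2 := hd j (mem_range.1 hj).le
      unfold dn at h2
      exact mm_one.1 (by omega)
  · rintro rfl
    have hm : ∀ c, mm ((range L).image fun j => 4 * j + 4) c =
        if ∃ j < L, 4 * j + 4 = c then 1 else 0 := by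
      intro c
      unfold mm
      simp only [mem_image, mem_range]
    refine ⟨?_, ?_, ?_, ?_⟩
    · intro c hc
      rw [mem_image] at hc
      obtain ⟨j, hj, rfl⟩ := hc
      exact ⟨j, mem_range.1 hj, Or.inr (Or.inr (Or.inl rfl))⟩
    · intro j hj
      simp only [hm]
      rw [if_neg (by rintro ⟨i, -, hi⟩; omega), if_neg (by rintro ⟨i, -, hi⟩; omega),
        if_pos ⟨j, hj, rfl⟩]
    · intro j hj
      simp only [hm]
      rw [if_pos ⟨j, hj, rfl⟩, if_neg (by rintro ⟨i, -, hi⟩; omega),
        if_neg (by rintro ⟨i, -, hi⟩; omega), if_neg (by rintro ⟨i, -, hi⟩; omega)]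
    · refine Finset.sum_eq_zero fun j hj => ?_
      rw [hm, if_neg (by rintro ⟨i, -, hi⟩; omega)]

/-! ### one path -/

/-- the configuration with entry at node `i` and second edges at the nodes of `E` -/
def cf (L i : ℕ) (E : Finset ℕ) : Finset ℕ :=
  (range (4 * (L + 1))).filter fun c => c = 4 * i + 7 ∨ (c % 4 = 0 ∧ 4 * i + 8 ≤ c ∧ c ≤ 4 * L) ∨
    (c % 4 = 1 ∧ c ≤ 4 * i + 1 ∧ c / 4 ∉ E) ∨ (c % 4 = 2 ∧ c / 4 ∈ E)

theorem cf_conf {w L i : ℕ} {E : Finset ℕ} (hi : i < L) (hb : w.testBit i = true)
    (hE : E ⊆ Icc 1 i) : IsConf w L 1 (cf L i E) := by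
  have hE' : ∀ j ∈ E, 1 ≤ j ∧ j ≤ i := fun j hj => mem_Icc.1 (hE hj)
  have m1 : ∀ j < L, mm (cf L i E) (4 * j + 1) = if j ≤ i ∧ j ∉ E then 1 else 0 := by
    intro j hj
    unfold mm cf
    refine if_congr ?_ rfl rfl
    rw [mem_filter, mem_range]
    have e : (4 * j + 1) / 4 = j := by omega
    rw [e]
    constructor
    · rintro ⟨-, h | h | h | h⟩
      · omega
      · omega
      · exact ⟨by omega, h.2.2⟩
      · omega
    · rintro ⟨h1, h2⟩
      exact ⟨by omega, Or.inr (Or.inr (Or.inl ⟨by omega, by omega, h2⟩))⟩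
  have m2 : ∀ j < L, mm (cf L i E) (4 * j + 2) = if j ∈ E then 1 else 0 := by
    intro j hj
    unfold mm cf
    refine if_congr ?_ rfl rfl
    rw [mem_filter, mem_range]
    have e : (4 * j + 2) / 4 = j := by omega
    rw [e]
    constructor
    · rintro ⟨-, h | h | h | h⟩
      · omega
      · omega
      · omega
      · exact h.2
    · intro h
      exact ⟨by omega, Or.inr (Or.inr (Or.inr ⟨by omega, h⟩))⟩
  have m4 : ∀ j < L, mm (cf L i E) (4 * j + 4) = if i < j then 1 else 0 := by
    intro j hj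
    unfold mm cf
    refine if_congr ?_ rfl rfl
    rw [mem_filter, mem_range]
    constructor
    · rintro ⟨-, h | h | h | h⟩ <;> omega
    · intro h
      exact ⟨by omega, Or.inr (Or.inl ⟨by omega, by omega, by omega⟩)⟩
  have m7 : ∀ j < L, mm (cf L i E) (4 * j + 7) = if j = i then 1 else 0 := by
    intro j hj
    unfold mm cf
    refine if_congr ?_ rfl rfl
    rw [mem_filter, mem_range]
    constructor
    · rintro ⟨-, h | h | h | h⟩ <;> omega
    · intro h
      exact ⟨by omega, Or.inl (by omega)⟩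
  refine ⟨?_, ?_, ?_, ?_⟩
  · intro c hc
    unfold cf at hc
    rw [mem_filter, mem_range] at hc
    obtain ⟨hc, h | h | h | h⟩ := hc
    · exact ⟨i, hi, Or.inr (Or.inr (Or.inr ⟨h, hb⟩))⟩
    · exact ⟨c / 4 - 1, by omega, Or.inr (Or.inr (Or.inl (by omega)))⟩
    · exact ⟨c / 4, by omega, Or.inl (by omega)⟩
    · have := hE' _ h.2
      exact ⟨c / 4, by omega, Or.inr (Or.inl ⟨by omega, by omega⟩)⟩
  · intro j hj
    rw [m1 j hj, m2 j hj, m4 j hj]
    by_cases h1 : j ∈ E
    · have := hE' j h1
      rw [if_neg (by tauto), if_pos h1, if_neg (by omega)]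
    · by_cases h2 : j ≤ i
      · rw [if_pos ⟨h2, h1⟩, if_neg h1, if_neg (by omega)]
      · rw [if_neg (by tauto), if_neg h1, if_pos (by omega)]
  · intro j hj
    have e5 : mm (cf L i E) (4 * j + 5) = if j + 1 ≤ i ∧ j + 1 ∉ E then 1 else 0 := by
      by_cases h : j + 1 < L
      · exact m1 (j + 1) h
      · rw [if_neg (by omega)]
        refine mm_zero.2 fun hc => ?_
        unfold cf at hc
        rw [mem_filter, mem_range] at hc
        obtain ⟨hc, h | h | h | h⟩ := hc <;> omega
    have e6 : mm (cf L i E) (4 * j + 6) = if j + 1 ∈ E then 1 else 0 := by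
      by_cases h : j + 1 < L
      · exact m2 (j + 1) h
      · rw [if_neg (fun h' => by have := hE' _ h'; omega)]
        refine mm_zero.2 fun hc => ?_
        unfold cf at hc
        rw [mem_filter, mem_range] at hc
        obtain ⟨hc, h | h | h | h⟩ := hc
        · omega
        · omega
        · omega
        · have := hE' _ h.2
          omega
    rw [m4 j hj, e5, e6, m7 j hj]
    by_cases h1 : j + 1 ∈ E
    · have := hE' _ h1
      rw [if_neg (by omega), if_neg (by tauto), if_pos h1, if_neg (by omega)]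
    · by_cases h2 : j + 1 ≤ i
      · rw [if_neg (by omega), if_pos ⟨h2, h1⟩, if_neg h1, if_neg (by omega)]
      · have h3 : ¬ (j + 1 ≤ i ∧ j + 1 ∉ E) := fun h => h2 h.1
        rw [if_neg h3, if_neg h1]
        split_ifs <;> omega
  · rw [Finset.sum_congr rfl fun j hj => m7 j (mem_range.1 hj)]
    rw [Finset.sum_ite_eq' (range L) i fun _ => 1, if_pos (mem_range.2 hi)]

theorem cf_inj {L i : ℕ} {E E' : Finset ℕ} (hi : i < L) (hE : E ⊆ Icc 1 i) (hE' : E' ⊆ Icc 1 i)
    (h : cf L i E = cf L i E') : E = E' := by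
  have key : ∀ {E : Finset ℕ}, E ⊆ Icc 1 i → ∀ j, j ∈ E ↔ 4 * j + 2 ∈ cf L i E := by
    intro E hE j
    unfold cf
    rw [mem_filter, mem_range]
    have e : (4 * j + 2) / 4 = j := by omega
    rw [e]
    constructor
    · intro h
      have := mem_Icc.1 (hE h)
      exact ⟨by omega, Or.inr (Or.inr (Or.inr ⟨by omega, h⟩))⟩
    · rintro ⟨-, h | h | h | h⟩
      · omega
      · omega
      · omega
      · exact h.2
  ext j
  rw [key hE, key hE', h]

theorem conf_cf {w L i : ℕ} {T : Finset ℕ} (h : IsConf w L 1 T) (hi : i < L)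
    (hT : 4 * i + 7 ∈ T) : T = cf L i ((Icc 1 i).filter fun j => 4 * j + 2 ∈ T) := by
  have he : ∀ j < L, mm T (4 * j + 7) = if j = i then 1 else 0 := by
    intro j hj
    by_cases hji : j = i
    · subst hji
      rw [if_pos rfl, mm_one]; exact hT
    · rw [if_neg hji]
      by_contra hne
      have h1 : mm T (4 * j + 7) + mm T (4 * i + 7) ≤ ∑ j ∈ range L, mm T (4 * j + 7) := by
        have := Finset.sum_le_sum_of_subset (f := fun j => mm T (4 * j + 7))
          (s := {j, i}) (t := range L) (by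
            intro x hx
            rw [mem_insert, mem_singleton] at hx
            rcases hx with rfl | rfl
            · exact mem_range.2 hj
            · exact mem_range.2 hi)
        rwa [Finset.sum_pair hji] at this
      rw [h.pl, mm_one.2 hT] at h1
      omega
  have hd : ∀ j ≤ L, dn T j = if j ≤ i then 1 else 0 := by
    intro j hj
    rw [h.dn_eq hj, Finset.sum_congr rfl fun i' hi' => he i' (mem_Ico.1 hi').2,
      Finset.sum_ite_eq' (Ico j L) i fun _ => 1]
    refine if_congr ?_ rfl rfl
    rw [mem_Ico]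
    omega
  ext c
  unfold cf
  rw [mem_filter, mem_range, mem_filter, mem_Icc]
  constructor
  · intro hc
    obtain ⟨j, hj, hh⟩ := h.pr c hc
    have h1 := hd j hj.le
    have h2 := h.left j hj
    unfold dn at h1
    refine ⟨by omega, ?_⟩
    rcases hh with rfl | ⟨rfl, h3⟩ | rfl | ⟨rfl, _⟩
    · have h4 := mm_one.2 hc
      have e : (4 * j + 1) / 4 = j := by omega
      rw [e]
      have h5 : j ≤ i := by by_contra h5; rw [if_neg h5] at h1; omega
      rw [if_pos h5] at h1
      refine Or.inr (Or.inr (Or.inl ⟨by omega, by omega, fun h6 => ?_⟩))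
      have := mm_one.2 h6.2
      omega
    · have h4 := mm_one.2 hc
      have e : (4 * j + 2) / 4 = j := by omega
      rw [e]
      have h5 : j ≤ i := by by_contra h5; rw [if_neg h5] at h1; omega
      exact Or.inr (Or.inr (Or.inr ⟨by omega, ⟨by omega, by omega⟩, hc⟩))
    · have h4 := mm_one.2 hc
      have h5 : ¬ j ≤ i := by intro h5; rw [if_pos h5] at h1; omega
      exact Or.inr (Or.inl ⟨by omega, by omega, by omega⟩)
    · have h4 := mm_one.2 hc
      have h5 := he j hj
      have h6 : j = i := by by_contra h6; rw [if_neg h6] at h5; omega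
      exact Or.inl (by omega)
  · rintro ⟨hc, h1 | h1 | h1 | h1⟩
    · rw [h1]; exact hT
    · obtain ⟨j, hj⟩ : ∃ j, c = 4 * j + 4 := ⟨c / 4 - 1, by omega⟩
      have h2 := h.left j (by omega)
      have h3 := hd j (by omega)
      rw [if_neg (by omega)] at h3
      unfold dn at h3
      rw [hj]
      exact mm_one.1 (by omega)
    · obtain ⟨j, hj⟩ : ∃ j, c = 4 * j + 1 := ⟨c / 4, by omega⟩
      have h3 := hd j (by omega)
      rw [if_pos (by omega)] at h3
      unfold dn at h3
      subst hj
      have e : (4 * j + 1) / 4 = j := by omega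
      rw [e] at h1
      have h4 : mm T (4 * j + 2) = 0 := by
        refine mm_zero.2 fun h5 => h1.2.2 ⟨⟨?_, by omega⟩, h5⟩
        obtain ⟨j', hj', hh⟩ := h.pr _ h5
        omega
      exact mm_one.1 (by omega)
    · obtain ⟨j, hj⟩ : ∃ j, c = 4 * j + 2 := ⟨c / 4, by omega⟩
      subst hj
      have e : (4 * j + 2) / 4 = j := by omega
      rw [e] at h1
      exact h1.2.2

theorem sum_bits (w L : ℕ) :
    ∑ i ∈ range L, (if w.testBit i = true then 2 ^ i else 0) = w % 2 ^ L := by
  induction L with
  | zero => simp [Nat.mod_one]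
  | succ L ih =>
    rw [Finset.sum_range_succ, ih, Nat.mod_pow_succ]
    congr 1
    simp only [Nat.testBit_eq_decide_div_mod_eq, decide_eq_true_eq]
    have := Nat.mod_lt (w / 2 ^ L) (by norm_num : 0 < 2)
    split_ifs with h
    · rw [h, mul_one]
    · have h0 : w / 2 ^ L % 2 = 0 := by omega
      rw [h0, mul_zero]

theorem card_Conf_one {w L : ℕ} (hw : w < 2 ^ L) : (Conf w L 1).card = w := by
  classical
  have h1 : Conf w L 1 = (range L).biUnion fun i => (Conf w L 1).filter fun T => 4 * i + 7 ∈ T := by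
    ext T
    rw [mem_biUnion]
    constructor
    · intro hT
      have h := mem_Conf.1 hT
      have h2 : ∃ i ∈ range L, mm T (4 * i + 7) ≠ 0 := by
        by_contra hne
        push Not at hne
        have := h.pl
        rw [Finset.sum_eq_zero hne] at this
        omega
      obtain ⟨i, hi, h3⟩ := h2
      exact ⟨i, hi, mem_filter.2 ⟨hT, by by_contra h4; exact h3 (mm_zero.2 h4)⟩⟩
    · rintro ⟨i, -, hT⟩
      exact (mem_filter.1 hT).1
  rw [h1, card_biUnion]
  · have h2 := sum_bits w L
    rw [Nat.mod_eq_of_lt hw] at h2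
    refine Eq.trans ?_ h2
    refine Finset.sum_congr rfl fun i hi => ?_
    have hi := mem_range.1 hi
    split_ifs with hb
    · have : (2 : ℕ) ^ i = ((Icc 1 i).powerset).card := by
        rw [card_powerset, Nat.card_Icc]; simp
      rw [this]
      symm
      refine Finset.card_bij (fun E _ => cf L i E) ?_ ?_ ?_
      · intro E hE
        refine mem_filter.2 ⟨mem_Conf.2 (cf_conf hi hb (mem_powerset.1 hE)), ?_⟩
        unfold cf
        rw [mem_filter, mem_range]
        exact ⟨by omega, Or.inl rfl⟩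
      · intro E hE E' hE' h
        exact cf_inj hi (mem_powerset.1 hE) (mem_powerset.1 hE') h
      · intro T hT
        obtain ⟨hT1, hT2⟩ := mem_filter.1 hT
        exact ⟨_, mem_powerset.2 (filter_subset _ _), (conf_cf (mem_Conf.1 hT1) hi hT2).symm⟩
    · rw [card_eq_zero, filter_eq_empty_iff]
      intro T hT hi7
      obtain ⟨j, hj, hh⟩ := (mem_Conf.1 hT).pr _ hi7
      rcases hh with hh | ⟨hh, _⟩ | hh | ⟨hh, hb'⟩
      · omega
      · omega
      · omega
      · have : j = i := by omega
        subst this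
        exact hb hb'
  · intro i hi i' hi' hne
    rw [Function.onFun, disjoint_left]
    intro T hT hT'
    obtain ⟨hT1, hT2⟩ := mem_filter.1 hT
    obtain ⟨-, hT3⟩ := mem_filter.1 hT'
    have h := (mem_Conf.1 hT1).pl
    have h2 : mm T (4 * i + 7) + mm T (4 * i' + 7) ≤ ∑ j ∈ range L, mm T (4 * j + 7) := by
      have := Finset.sum_le_sum_of_subset (f := fun j => mm T (4 * j + 7))
        (s := {i, i'}) (t := range L) (by
          intro x hx
          rw [mem_insert, mem_singleton] at hx
          rcases hx with rfl | rfl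
          · exact hi
          · exact hi')
      rwa [Finset.sum_pair hne] at this
    rw [h, mm_one.2 hT2, mm_one.2 hT3] at h2
    omega

end Vale.Agent.P317.H964
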