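import Vale.Agent.P317.H964.W9

/-!
# P317 (helper964): the sampling program for binary weights
-/

set_option linter.unusedSimpArgs false
set_option linter.unusedVariables false

namespace Vale.Agent.P317.H964

open Rnd Alg

variable {n k L : ℕ} {w : ℕ → ℕ} {P W : Finset ℕ} {o : Bool → Finset ℕ → Bool}

/-- set register 0 := the set of the elements whose exit is used -/
def decW : Cmd :=
  .seq (.copy 61 0) (.seq (.clear 0) (.seq (.const 64 1) (.seq (.const 68 0)
    (.loop 60 (.seq (.mem 66 64 61) (.seq (.cond 72 66 (.insert 0 68) (.const 67 0))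
      (.seq (.add 64 64 73) (.add 68 68 61))))))))

theorem run_decW {C : ℕ} {s' s : State} (h : Wq n k L P C s' s) :
    Ex (run o decW s') (fun t =>
      t.set 0 = (Finset.range n).filter (fun v => 4 * (L + 1) * v + 1 ∈ s.set 0) ∧
      t.time ≤ C + cW n L * s.time + (7 * n + 5)) := by
  set S := s.set 0 with hS
  have hS' : s'.set 0 = S := by rw [h.set 0 (by norm_num)]
  set Inv : ℕ → State → Prop := fun m t =>
    t.num 61 = 1 ∧ t.num 72 = 0 ∧ t.num 73 = 4 * (L + 1) ∧ t.set 61 = S ∧
    t.num 64 = 4 * (L + 1) * m + 1 ∧ t.num 68 = m ∧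
    t.set 0 = (Finset.range m).filter (fun v => 4 * (L + 1) * v + 1 ∈ S) ∧
    t.time ≤ s'.time + (7 * m + 5) with hInv
  have hstep : ∀ m t, Inv m t → Ex (run o (.seq (.mem 66 64 61)
      (.seq (.cond 72 66 (.insert 0 68) (.const 67 0))
      (.seq (.add 64 64 73) (.add 68 68 61)))) t.tick) (Inv (m + 1)) := by
    rintro m t ⟨h1, h2, h3, h4, h5, h6, h7, h8⟩
    by_cases c : 4 * (L + 1) * m + 1 ∈ S
    · unfold Ex
      simp [run, State.putNum, State.putSet, State.tick, h1, h2, h3, h4, h5, h6, c]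
      refine ⟨?_, ?_, ?_, ?_, ?_, ?_, ?_, ?_⟩
      · simp [h1]
      · simp [h2]
      · simp [h3]
      · simp [h4]
      · simp; ring
      · simp
      · simp [h7, Finset.range_add_one, Finset.filter_insert, c]
      · simp only; omega
    · unfold Ex
      simp [run, State.putNum, State.putSet, State.tick, h1, h2, h3, h4, h5, h6, c]
      refine ⟨?_, ?_, ?_, ?_, ?_, ?_, ?_, ?_⟩
      · simp [h1]
      · simp [h2]
      · simp [h3]
      · simp [h4]
      · simp; ring
      · simp
      · simp [h7, Finset.range_add_one, Finset.filter_insert, c]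
      · simp only; omega
  set s₁ := (((s'.putSet 61 S).putSet 0 ∅).putNum 64 1).putNum 68 0 with hs1
  have h0 : Inv 0 s₁.tick := by
    refine ⟨?_, ?_, ?_, ?_, ?_, ?_, ?_, ?_⟩
    · simp [hs1, State.putNum, State.putSet, State.tick, h.one]
    · simp [hs1, State.putNum, State.putSet, State.tick, h.z72]
    · simp [hs1, State.putNum, State.putSet, State.tick, h.k73]
    · simp [hs1, State.putNum, State.putSet, State.tick]
    · simp [hs1, State.putNum, State.putSet, State.tick]
    · simp [hs1, State.putNum, State.putSet, State.tick]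
    · simp [hs1, State.putNum, State.putSet, State.tick]
    · simp only [hs1, State.putNum, State.putSet, State.tick]; omega
  have hloop := ex_loop hstep n 0 _ h0
  rw [Nat.zero_add] at hloop
  have e : run o decW s' = iter (run o (.seq (.mem 66 64 61)
      (.seq (.cond 72 66 (.insert 0 68) (.const 67 0))
      (.seq (.add 64 64 73) (.add 68 68 61))))) n s₁.tick := by
    have e1 : s₁.num 60 = n := by simp [hs1, State.putNum, State.putSet, h.n60]
    rw [← e1, hs1, ← hS']
    rfl
  rw [e]
  refine hloop.mono ?_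
  rintro t ⟨-, -, -, -, -, -, h7, h8⟩
  refine ⟨h7, ?_⟩
  have := h.time
  omega

/-- the sampling program for weights -/
def sampW : Cmd := .seq (.seq preW (trW sampProg)) decW

theorem lowS_sampProg : lowS 60 sampProg = true := by decide +kernel

open Classical in
/-- the weighted number, members of `G` -/
noncomputable def wsumG {n : ℕ} (M₁ M₂ : Matroid (Fin n)) (k : ℕ) (w : ℕ → ℕ)
    (G : Set (Set (Fin n))) : ℕ :=
  ∑ A ∈ (famK M₁ M₂ k).filter (fun A : Finset (Fin n) => (A : Set (Fin n)) ∈ G), ∏ v ∈ A, w v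

/-- the family of the gadget matroids for a family `G` -/
def upG (n L : ℕ) (G : Set (Set (Fin n))) : Set (Set (Fin (4 * (L + 1) * n))) :=
  {T | {v : Fin n | ⟨4 * (L + 1) * v + 1, lt_g v.2 (by omega)⟩ ∈ T} ∈ G}

theorem upG_toN (S : Finset (Fin (4 * (L + 1) * n))) (G : Set (Set (Fin n))) :
    (S : Set (Fin (4 * (L + 1) * n))) ∈ upG n L G ↔ ((dcd n L (toN S) : Finset (Fin n)) :
      Set (Fin n)) ∈ G := by
  unfold upG
  rw [Set.mem_ofPred_eq]
  have : {v : Fin n | (⟨4 * (L + 1) * v + 1, lt_g v.2 (by omega)⟩ : Fin (4 * (L + 1) * n)) ∈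
      (S : Set (Fin (4 * (L + 1) * n)))} = ((dcd n L (toN S) : Finset (Fin n)) : Set (Fin n)) := by
    ext v
    unfold dcd
    simp only [Set.mem_ofPred_eq, Finset.mem_coe, Finset.mem_filter, Finset.mem_univ, true_and]
    exact (mem_toN (x := (⟨4 * (L + 1) * v + 1, lt_g v.2 (by omega)⟩ :
      Fin (4 * (L + 1) * n)))).symm
  rw [this]

theorem card_sol_G {M₁ M₂ : Matroid (Fin n)} (hL : 0 < L) (hP : IsPres n L w P)
    (hw : ∀ v < n, w v < 2 ^ L) (hk : k ≤ rkM M₂ Finset.univ) (G : Set (Set (Fin n))) :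
    (indSpanG (lift M₁ k P (clF n L)) (lift M₂ k P (clT n L)) (upG n L G)).card =
      wsumG M₁ M₂ k w G := by
  classical
  have := card_sol (M₁ := M₁) (M₂ := M₂) hL hP hw hk (fun A => (A : Set (Fin n)) ∈ G)
  unfold wsumG indSpanG
  refine Eq.trans ?_ (this.trans ?_)
  · congr 1
    refine Finset.filter_congr fun S _ => ?_
    exact upG_toN S G
  · rfl

theorem sampW_spec (n : ℕ) (M₁ M₂ : Matroid (Fin n)) (e l k L : ℕ) (he : 0 < e) (hL : 0 < L)
    (w : ℕ → ℕ) (W : Finset ℕ) (hw : ∀ v < n, w v < 2 ^ L)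
    (hW : ∀ v < n, ∀ j < L, L * v + j ∈ W ↔ (w v).testBit j = true) :
    (run (oracles M₁ M₂) sampW (inputW n e l k L W)).All
      (fun s => s.time ≤ (n + L + e + l + 2) ^ 1220) ∧
    (0 < wsum M₁ M₂ k w → ∀ G : Set (Set (Fin n)),
      |(run (oracles M₁ M₂) sampW (inputW n e l k L W)).prob
          (fun s => {x : Fin n | (x : ℕ) ∈ s.set 0} ∈ G) -
        (wsumG M₁ M₂ k w G : ℝ) / wsum M₁ M₂ k w| ≤ (1 / 2) ^ l + 1 / e) := by
  obtain ⟨P, hP, hsim⟩ := sim_wrapW (oracles M₁ M₂) sampProg low_sampProg lowS_sampProg n e l k L W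
  have hPr := isPres_of hW hP
  have hsim2 : Sim (fun t s =>
      t.set 0 = (Finset.range n).filter (fun v => 4 * (L + 1) * v + 1 ∈ s.set 0) ∧
      t.time ≤ tP n L + cW n L * s.time + (7 * n + 5))
      (run (oracles M₁ M₂) sampW (inputW n e l k L W))
      (run (oW n k L P (oracles M₁ M₂)) sampProg (input (4 * (L + 1) * n) e l)) := by
    have e1 : run (oracles M₁ M₂) sampW (inputW n e l k L W) =
      (run (oracles M₁ M₂) (.seq preW (trW sampProg)) (inputW n e l k L W)).bind
        (run (oracles M₁ M₂) decW) := rfl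
    rw [e1, bind_leaf' (run (oW n k L P (oracles M₁ M₂)) sampProg (input (4 * (L + 1) * n) e l))]
    refine hsim.bind ?_
    intro s' s hs
    exact (run_decW hs).leaf fun t ht => ht
  rw [oW_oracles hPr] at hsim2
  obtain ⟨h1, h2⟩ := samp_spec (4 * (L + 1) * n) (lift M₁ k P (clF n L)) (lift M₂ k P (clT n L))
    e l he
  constructor
  · refine hsim2.all h1 ?_
    rintro t s ⟨-, ht⟩ hs
    have := timeW (n := n) (L := L) (e := e) (l := l) he hs
    generalize cW n L * s.time = q at *
    generalize (n + L + e + l + 2) ^ 1220 = y at *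
    omega
  · intro hpos G
    have hb : k ≤ rkM M₂ Finset.univ := by
      by_contra hb
      unfold wsum at hpos
      rw [famK_empty (not_le.1 hb), Finset.sum_empty] at hpos
      omega
    have h3 := h2 (by rw [card_sol_all hL hPr hw hb]; exact hpos) (upG n L G)
    rw [card_sol_all hL hPr hw hb, card_sol_G hL hPr hw hb] at h3
    have h4 : (run (oracles M₁ M₂) sampW (inputW n e l k L W)).prob
        (fun s => {x : Fin n | (x : ℕ) ∈ s.set 0} ∈ G) =
        (run (oracles (lift M₁ k P (clF n L)) (lift M₂ k P (clT n L))) sampProg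
          (input (4 * (L + 1) * n) e l)).prob
        (fun s => {x : Fin (4 * (L + 1) * n) | (x : ℕ) ∈ s.set 0} ∈ upG n L G) := by
      refine prob_eq_of_sim hsim2 ?_
      rintro t s ⟨ht, -⟩
      rw [ht]
      unfold upG
      rw [Set.mem_ofPred_eq]
      have : {x : Fin n | (x : ℕ) ∈ (Finset.range n).filter
          (fun v => 4 * (L + 1) * v + 1 ∈ s.set 0)} =
          {v : Fin n | (⟨4 * (L + 1) * v + 1, lt_g v.2 (by omega)⟩ : Fin (4 * (L + 1) * n)) ∈
            {x : Fin (4 * (L + 1) * n) | (x : ℕ) ∈ s.set 0}} := by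
        ext x
        simp only [Set.mem_ofPred_eq, Finset.mem_filter, Finset.mem_range]
        exact and_iff_right x.2
      rw [this]
    rw [h4]
    exact h3

end Vale.Agent.P317.H964
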