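import Vale.Agent.P317.H964.W1

/-!
# P317 (helper964): many gadgets side by side
-/

set_option linter.unusedVariables false
set_option linter.unusedSimpArgs false

namespace Vale.Agent.P317.H964

open Finset

/-- the part of `S` in the gadget `v` -/
def sl (L : ℕ) (S : Finset ℕ) (v : ℕ) : Finset ℕ :=
  (range (4 * (L + 1))).filter fun c => 4 * (L + 1) * v + c ∈ S

theorem mm_sl {L : ℕ} {S : Finset ℕ} {v c : ℕ} (hc : c < 4 * (L + 1)) :
    mm (sl L S v) c = mm S (4 * (L + 1) * v + c) := by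
  unfold mm sl
  refine if_congr ?_ rfl rfl
  rw [mem_filter, mem_range]
  exact and_iff_right hc

theorem sum_four (f : ℕ → ℕ) (m : ℕ) :
    ∑ c ∈ range (4 * m), f c =
      ∑ r ∈ range m, (f (4 * r) + f (4 * r + 1) + f (4 * r + 2) + f (4 * r + 3)) := by
  induction m with
  | zero => simp
  | succ m ih =>
    rw [show 4 * (m + 1) = 4 * m + 1 + 1 + 1 + 1 by ring, sum_range_succ, sum_range_succ,
      sum_range_succ, sum_range_succ, sum_range_succ, ih]
    ring

theorem card_eq_sum {K : ℕ} {T : Finset ℕ} (hT : T ⊆ range K) : T.card = ∑ c ∈ range K, mm T c := by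
  unfold mm
  rw [← Finset.card_filter]
  congr 1
  ext c
  rw [mem_filter]
  exact ⟨fun h => ⟨hT h, h⟩, fun h => h.2⟩

theorem pres_absent {w L : ℕ} {T : Finset ℕ} (h : ∀ c ∈ T, pres w L c) :
    mm T 0 = 0 ∧ mm T 2 = 0 ∧ mm T 3 = 0 ∧ mm T (4 * L + 1) = 0 ∧ mm T (4 * L + 2) = 0 := by
  refine ⟨?_, ?_, ?_, ?_, ?_⟩ <;>
  · refine mm_zero.2 fun hc => ?_
    obtain ⟨j, hj, hh⟩ := h _ hc
    omega

theorem card_right {w L : ℕ} {T : Finset ℕ} (h : ∀ c ∈ T, pres w L c) :
    T.card = ∑ j ∈ range L, (mm T (4 * j + 4) + mm T (4 * j + 5) + mm T (4 * j + 6) +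
      mm T (4 * j + 7)) + mm T 1 := by
  obtain ⟨h0, h2, h3, -, -⟩ := pres_absent h
  rw [card_eq_sum (K := 4 * (L + 1)) (fun c hc => mem_range.2 (pres_lt (h c hc))), sum_four,
    sum_range_succ']
  have e : 4 * 0 = 0 := rfl
  rw [e, h0, Nat.zero_add, Nat.zero_add, Nat.zero_add, h2, h3]
  simp only [Nat.zero_add, Nat.add_zero]
  rfl

theorem left_sum (f : ℕ → ℕ) (L : ℕ) :
    ∑ r ∈ range (L + 1), (f (4 * r) + f (4 * r + 1) + f (4 * r + 2) + f (4 * r + 3)) =
      f 0 + ∑ j ∈ range L, (f (4 * j + 1) + f (4 * j + 2) + f (4 * j + 4)) +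
        ∑ r ∈ range (L + 1), f (4 * r + 3) + f (4 * L + 1) + f (4 * L + 2) := by
  induction L with
  | zero => simp; ring
  | succ L ih =>
    rw [sum_range_succ, ih, sum_range_succ (fun j => f (4 * j + 1) + f (4 * j + 2) + f (4 * j + 4)),
      sum_range_succ (fun r => f (4 * r + 3)) (L + 1)]
    have e : 4 * (L + 1) = 4 * L + 4 := by ring
    rw [e]
    ring

theorem card_left {w L : ℕ} {T : Finset ℕ} (h : ∀ c ∈ T, pres w L c) :
    T.card = ∑ j ∈ range L, (mm T (4 * j + 1) + mm T (4 * j + 2) + mm T (4 * j + 4)) +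
      ∑ j ∈ range L, mm T (4 * j + 7) := by
  obtain ⟨h0, h2, h3, h4, h5⟩ := pres_absent h
  rw [card_eq_sum (K := 4 * (L + 1)) (fun c hc => mem_range.2 (pres_lt (h c hc))), sum_four,
    left_sum, h0, h4, h5, sum_range_succ' (fun r => mm T (4 * r + 3))]
  simp only [Nat.mul_zero, Nat.zero_add, h3, Nat.add_zero]
  rfl

/-! ### the quantities computed by the program -/

/-- number of used entries of gadget `v` -/
def uF (L : ℕ) (S : Finset ℕ) (v : ℕ) : ℕ := ∑ r ∈ range (L + 1), mm S (4 * (L + 1) * v + 4 * r + 3)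

/-- the exit of gadget `v` is used -/
def uT (L : ℕ) (S : Finset ℕ) (v : ℕ) : ℕ := mm S (4 * (L + 1) * v + 1)

/-- elements of `S` which are not present -/
def prs (S P : Finset ℕ) (g : ℕ) : ℕ :=
  (mm S g - mm P g) + (mm S (g + 1) - mm P (g + 1)) + (mm S (g + 2) - mm P (g + 2)) +
    (mm S (g + 3) - mm P (g + 3))

/-- defects for the first matroid -/
def bF (S P : Finset ℕ) (g : ℕ) : ℕ :=
  prs S P g + ((mm S (g + 1) + mm S (g + 2) + mm S (g + 4)) - 1)

/-- defects for the second matroid -/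
def bT (S P : Finset ℕ) (g : ℕ) : ℕ :=
  prs S P g + ((mm S g + mm S (g + 1) + mm S (g + 2) + mm S (g + 3)) - 1)

/-- no defects -/
structure Ok (n k L : ℕ) (b u : ℕ → ℕ) : Prop where
  slot : ∀ v < n, ∀ r < L + 1, b (4 * (L + 1) * v + 4 * r) = 0
  port : ∀ v < n, u v ≤ 1
  tot : ∑ v ∈ range n, u v ≤ k

/-- all defects -/
def bad (n k L : ℕ) (b u : ℕ → ℕ) : ℕ :=
  ∑ v ∈ range n, (∑ r ∈ range (L + 1), b (4 * (L + 1) * v + 4 * r) + (u v - 1)) +
    (∑ v ∈ range n, u v - k)

theorem bad_eq_zero {n k L : ℕ} {b u : ℕ → ℕ} : bad n k L b u = 0 ↔ Ok n k L b u := by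
  unfold bad
  rw [Nat.add_eq_zero_iff, Finset.sum_eq_zero_iff]
  constructor
  · rintro ⟨h1, h2⟩
    refine ⟨fun v hv r hr => ?_, fun v hv => ?_, by omega⟩
    · have := h1 v (mem_range.2 hv)
      rw [Nat.add_eq_zero_iff, Finset.sum_eq_zero_iff] at this
      exact this.1 r (mem_range.2 hr)
    · have := h1 v (mem_range.2 hv)
      rw [Nat.add_eq_zero_iff] at this
      omega
  · intro h
    refine ⟨fun v hv => ?_, by have := h.tot; omega⟩
    rw [Nat.add_eq_zero_iff, Finset.sum_eq_zero_iff]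
    exact ⟨fun r hr => h.slot v (mem_range.1 hv) r (mem_range.1 hr), by
      have := h.port v (mem_range.1 hv); omega⟩

/-- `P` is the set of the elements which are present -/
def IsPres (n L : ℕ) (w : ℕ → ℕ) (P : Finset ℕ) : Prop :=
  ∀ v < n, ∀ c < 4 * (L + 1), 4 * (L + 1) * v + c ∈ P ↔ pres (w v) L c

variable {n k L : ℕ} {w : ℕ → ℕ} {P S : Finset ℕ}

theorem prs_zero (hP : IsPres n L w P) {v : ℕ} (hv : v < n)
    (h : ∀ r < L + 1, prs S P (4 * (L + 1) * v + 4 * r) = 0) :
    ∀ c ∈ sl L S v, pres (w v) L c := by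
  intro c hc
  unfold sl at hc
  rw [mem_filter, mem_range] at hc
  rw [← hP v hv c hc.1]
  have h1 := h (c / 4) (by omega)
  unfold prs at h1
  have h2 := mm_one.2 hc.2
  have hcc : c = 4 * (c / 4) ∨ c = 4 * (c / 4) + 1 ∨ c = 4 * (c / 4) + 2 ∨ c = 4 * (c / 4) + 3 := by
    omega
  apply mm_pos.1
  rcases hcc with e | e | e | e
  · rw [e] at h2 ⊢; omega
  · rw [e] at h2 ⊢
    rw [← add_assoc] at h2 ⊢
    omega
  · rw [e] at h2 ⊢
    rw [← add_assoc] at h2 ⊢
    omega
  · rw [e] at h2 ⊢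
    rw [← add_assoc] at h2 ⊢
    omega

theorem prs_of_sl (hP : IsPres n L w P) {v : ℕ} (hv : v < n)
    (h : ∀ c ∈ sl L S v, pres (w v) L c) {r : ℕ} (hr : r < L + 1) :
    prs S P (4 * (L + 1) * v + 4 * r) = 0 := by
  have key : ∀ t < 4, mm S (4 * (L + 1) * v + 4 * r + t) ≤ mm P (4 * (L + 1) * v + 4 * r + t) := by
    intro t ht
    by_cases hS : 4 * (L + 1) * v + 4 * r + t ∈ S
    · have h1 : 4 * r + t ∈ sl L S v := by
        unfold sl
        rw [mem_filter, mem_range, ← add_assoc]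
        exact ⟨by omega, hS⟩
      have h2 := (hP v hv _ (by omega)).2 (h _ h1)
      rw [← add_assoc] at h2
      rw [mm_one.2 hS, mm_one.2 h2]
    · rw [mm_zero.2 hS]; exact Nat.zero_le _
  have k0 := key 0 (by norm_num)
  have k1 := key 1 (by norm_num)
  have k2 := key 2 (by norm_num)
  have k3 := key 3 (by norm_num)
  rw [Nat.add_zero] at k0
  unfold prs
  omega

theorem uF_eq {v : ℕ} (h : ∀ c ∈ sl L S v, pres (w v) L c) :
    uF L S v = ∑ j ∈ range L, mm (sl L S v) (4 * j + 7) := by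
  unfold uF
  rw [sum_range_succ']
  have h3 : mm S (4 * (L + 1) * v + 4 * 0 + 3) = 0 := by
    have := (pres_absent h).2.2.1
    rw [mm_sl (by omega)] at this
    simpa using this
  rw [h3, Nat.add_zero]
  refine Finset.sum_congr rfl fun j hj => ?_
  have := mem_range.1 hj
  rw [mm_sl (by omega)]
  congr 1

theorem uT_eq {v : ℕ} : uT L S v = mm (sl L S v) 1 := by
  unfold uT
  rw [mm_sl (by omega)]

theorem Ok.left (h : Ok n k L (bF S P) (uF L S)) {v : ℕ} (hv : v < n) {j : ℕ} (hj : j < L) :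
    mm (sl L S v) (4 * j + 1) + mm (sl L S v) (4 * j + 2) + mm (sl L S v) (4 * j + 4) ≤ 1 := by
  have h1 := h.slot v hv j (by omega)
  unfold bF at h1
  rw [mm_sl (by omega), mm_sl (by omega), mm_sl (by omega), ← add_assoc, ← add_assoc, ← add_assoc]
  omega

theorem Ok.right (h : Ok n k L (bT S P) (uT L S)) {v : ℕ} (hv : v < n) {j : ℕ} (hj : j < L) :
    mm (sl L S v) (4 * j + 4) + mm (sl L S v) (4 * j + 5) + mm (sl L S v) (4 * j + 6) +
      mm (sl L S v) (4 * j + 7) ≤ 1 := by
  have h1 := h.slot v hv (j + 1) (by omega)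
  unfold bT at h1
  rw [mm_sl (by omega), mm_sl (by omega), mm_sl (by omega), mm_sl (by omega)]
  have e : 4 * (L + 1) * v + 4 * (j + 1) = 4 * (L + 1) * v + 4 * j + 4 := by ring
  rw [e] at h1
  simp only [← add_assoc]
  simp only [add_assoc] at h1 ⊢
  norm_num at h1 ⊢
  first | done | omega

theorem Ok.presF (hP : IsPres n L w P) {u : ℕ → ℕ} (h : Ok n k L (bF S P) u) {v : ℕ} (hv : v < n) :
    ∀ c ∈ sl L S v, pres (w v) L c :=
  prs_zero hP hv fun r hr => by have := h.slot v hv r hr; unfold bF at this; omega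

theorem Ok.presT (hP : IsPres n L w P) {u : ℕ → ℕ} (h : Ok n k L (bT S P) u) {v : ℕ} (hv : v < n) :
    ∀ c ∈ sl L S v, pres (w v) L c :=
  prs_zero hP hv fun r hr => by have := h.slot v hv r hr; unfold bT at this; omega

theorem card_slices (hS : S ⊆ range (4 * (L + 1) * n)) :
    S.card = ∑ v ∈ range n, (sl L S v).card := by
  have h1 : ∀ v, (sl L S v).card = ∑ c ∈ range (4 * (L + 1)), mm S (4 * (L + 1) * v + c) := by
    intro v
    have hsub : sl L S v ⊆ range (4 * (L + 1)) := filter_subset _ _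
    rw [card_eq_sum hsub]
    exact Finset.sum_congr rfl fun c hc => mm_sl (mem_range.1 hc)
  rw [card_eq_sum hS, Finset.sum_congr rfl fun v _ => h1 v]
  generalize mm S = f
  generalize 4 * (L + 1) = K
  clear hS h1
  induction n with
  | zero => simp
  | succ n ih =>
    rw [sum_range_succ, ← ih, Nat.mul_succ, Finset.sum_range_add]

theorem card_le_F (hP : IsPres n L w P) (h : Ok n k L (bF S P) (uF L S)) {v : ℕ} (hv : v < n) :
    (sl L S v).card ≤ L + uF L S v := by
  rw [card_left (h.presF hP hv), uF_eq (h.presF hP hv)]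
  have : ∑ j ∈ range L, (mm (sl L S v) (4 * j + 1) + mm (sl L S v) (4 * j + 2) +
      mm (sl L S v) (4 * j + 4)) ≤ ∑ j ∈ range L, 1 :=
    Finset.sum_le_sum fun j hj => h.left hv (mem_range.1 hj)
  rw [Finset.sum_const, card_range, smul_eq_mul, mul_one] at this
  omega

theorem card_le_T (hP : IsPres n L w P) (h : Ok n k L (bT S P) (uT L S)) {v : ℕ} (hv : v < n) :
    (sl L S v).card ≤ L + uT L S v := by
  rw [card_right (h.presT hP hv), uT_eq]
  have : ∑ j ∈ range L, (mm (sl L S v) (4 * j + 4) + mm (sl L S v) (4 * j + 5) +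
      mm (sl L S v) (4 * j + 6) + mm (sl L S v) (4 * j + 7)) ≤ ∑ j ∈ range L, 1 :=
    Finset.sum_le_sum fun j hj => h.right hv (mem_range.1 hj)
  rw [Finset.sum_const, card_range, smul_eq_mul, mul_one] at this
  omega

theorem sum_eq_of_le {f g : ℕ → ℕ} {n : ℕ} (h : ∀ i < n, f i ≤ g i)
    (hs : ∑ i ∈ range n, g i ≤ ∑ i ∈ range n, f i) : ∀ i < n, f i = g i := by
  intro i hi
  by_contra hne
  have hlt : ∑ i ∈ range n, f i < ∑ i ∈ range n, g i :=
    Finset.sum_lt_sum (fun i hi => h i (mem_range.1 hi))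
      ⟨i, mem_range.2 hi, lt_of_le_of_ne (h i hi) hne⟩
  omega

/-- full sets consist of perfect configurations -/
theorem confs_of (hP : IsPres n L w P) (hS : S ⊆ range (4 * (L + 1) * n))
    (hF : Ok n k L (bF S P) (uF L S)) (hT : Ok n k L (bT S P) (uT L S))
    (hc : S.card = k + n * L) :
    (∀ v < n, uF L S v = uT L S v) ∧ (∑ v ∈ range n, uT L S v = k) ∧
      ∀ v < n, IsConf (w v) L (uT L S v) (sl L S v) := by
  rw [card_slices hS] at hc
  have f1 := sum_eq_of_le (f := fun v => (sl L S v).card) (g := fun v => L + uF L S v) (n := n)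
    (fun v hv => card_le_F hP hF hv) (by
      rw [sum_add_distrib, sum_const, card_range, smul_eq_mul, hc]
      have := hF.tot
      omega)
  have t1 := sum_eq_of_le (f := fun v => (sl L S v).card) (g := fun v => L + uT L S v) (n := n)
    (fun v hv => card_le_T hP hT hv) (by
      rw [sum_add_distrib, sum_const, card_range, smul_eq_mul, hc]
      have := hT.tot
      omega)
  have hu : ∀ v < n, uF L S v = uT L S v := by
    intro v hv
    have a := f1 v hv
    have b := t1 v hv
    omega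
  refine ⟨hu, ?_, ?_⟩
  · have : ∑ v ∈ range n, (sl L S v).card = ∑ v ∈ range n, (L + uT L S v) :=
      Finset.sum_congr rfl fun v hv => t1 v (mem_range.1 hv)
    rw [hc, sum_add_distrib, sum_const, card_range, smul_eq_mul] at this
    omega
  · intro v hv
    have pr := hF.presF hP hv
    have a := f1 v hv
    have b := t1 v hv
    rw [card_left pr, ← uF_eq pr] at a
    rw [card_right pr, ← uT_eq] at b
    have a1 := sum_eq_of_le (f := fun j => mm (sl L S v) (4 * j + 1) + mm (sl L S v) (4 * j + 2) +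
      mm (sl L S v) (4 * j + 4)) (g := fun _ => 1) (n := L) (fun j hj => hF.left hv hj) (by
        rw [sum_const, card_range, smul_eq_mul, mul_one]; omega)
    have b1 := sum_eq_of_le (f := fun j => mm (sl L S v) (4 * j + 4) + mm (sl L S v) (4 * j + 5) +
      mm (sl L S v) (4 * j + 6) + mm (sl L S v) (4 * j + 7)) (g := fun _ => 1) (n := L)
      (fun j hj => hT.right hv hj) (by
        rw [sum_const, card_range, smul_eq_mul, mul_one]; omega)
    exact ⟨pr, a1, b1, by rw [← uF_eq pr]; exact hu v hv⟩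

/-- perfect configurations make a full set -/
theorem of_confs (hP : IsPres n L w P) (hS : S ⊆ range (4 * (L + 1) * n)) {a : ℕ → ℕ}
    (ha : ∀ v < n, a v ≤ 1) (hk : ∑ v ∈ range n, a v = k)
    (h : ∀ v < n, IsConf (w v) L (a v) (sl L S v)) :
    Ok n k L (bF S P) (uF L S) ∧ Ok n k L (bT S P) (uT L S) ∧ S.card = k + n * L ∧
      (∀ v < n, uF L S v = a v) ∧ (∀ v < n, uT L S v = a v) := by
  have huF : ∀ v < n, uF L S v = a v := fun v hv => by rw [uF_eq (h v hv).pr, (h v hv).pl]
  have huT : ∀ v < n, uT L S v = a v := fun v hv => by rw [uT_eq, (h v hv).right_port]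
  refine ⟨⟨?_, ?_, ?_⟩, ⟨?_, ?_, ?_⟩, ?_, huF, huT⟩
  · intro v hv r hr
    unfold bF
    rw [prs_of_sl hP hv (h v hv).pr hr, Nat.zero_add]
    by_cases hrL : r < L
    · have h1 := (h v hv).left r hrL
      rw [mm_sl (by omega), mm_sl (by omega), mm_sl (by omega), ← add_assoc, ← add_assoc,
        ← add_assoc] at h1
      omega
    · have e : r = L := by omega
      obtain ⟨-, -, -, h4, h5⟩ := pres_absent (h v hv).pr
      rw [mm_sl (by omega), ← add_assoc] at h4 h5
      rw [e, h4, h5]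
      have := mm_le S (4 * (L + 1) * v + 4 * L + 4)
      omega
  · intro v hv; rw [huF v hv]; exact ha v hv
  · rw [Finset.sum_congr rfl fun v hv => huF v (mem_range.1 hv), hk]
  · intro v hv r hr
    unfold bT
    rw [prs_of_sl hP hv (h v hv).pr hr, Nat.zero_add]
    rcases Nat.eq_zero_or_pos r with rfl | hr0
    · obtain ⟨h0, h2, h3, -, -⟩ := pres_absent (h v hv).pr
      rw [mm_sl (by omega)] at h0 h2 h3
      have := mm_le S (4 * (L + 1) * v + 1)
      simp only [Nat.mul_zero, Nat.add_zero] at h0 ⊢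
      rw [h0, h2, h3]
      omega
    · obtain ⟨j, rfl⟩ : ∃ j, r = j + 1 := ⟨r - 1, by omega⟩
      have h1 := (h v hv).right j (by omega)
      rw [mm_sl (by omega), mm_sl (by omega), mm_sl (by omega), mm_sl (by omega)] at h1
      have e : 4 * (L + 1) * v + 4 * (j + 1) = 4 * (L + 1) * v + 4 * j + 4 := by ring
      rw [e]
      simp only [← add_assoc] at h1 ⊢
      simp only [add_assoc] at h1 ⊢
      norm_num at h1 ⊢
      omega
  · intro v hv; rw [huT v hv]; exact ha v hv
  · rw [Finset.sum_congr rfl fun v hv => huT v (mem_range.1 hv), hk]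
  · rw [card_slices hS]
    have : ∀ v ∈ range n, (sl L S v).card = L + a v := by
      intro v hv
      have hv := mem_range.1 hv
      rw [card_right (h v hv).pr, (h v hv).right_port,
        Finset.sum_congr rfl fun j hj => (h v hv).right j (mem_range.1 hj), sum_const, card_range,
        smul_eq_mul, mul_one]
    rw [Finset.sum_congr rfl this, sum_add_distrib, sum_const, card_range, smul_eq_mul, hk]
    omega

end Vale.Agent.P317.H964
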