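import Mathlib.Combinatorics.Matroid.Sum
import Vale.Agent.P317.H964.Trunc
import Vale.Agent.P317.H964.W2

/-!
# P317 (helper964): the matroids of the gadgets
-/

set_option linter.unusedVariables false
set_option linter.unusedSimpArgs false

namespace Vale.Agent.P317.H964

open Finset

variable {n : ℕ}

theorem dec_g {L n g : ℕ} (hg : g < 4 * (L + 1) * n) :
    ∃ v < n, ∃ r < L + 1, ∃ t < 4, g = 4 * (L + 1) * v + 4 * r + t := by
  have h1 : g / (4 * (L + 1)) < n := Nat.div_lt_of_lt_mul hg
  have h2 := Nat.div_add_mod g (4 * (L + 1))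
  have h3 := Nat.mod_lt g (by omega : 0 < 4 * (L + 1))
  refine ⟨_, h1, g % (4 * (L + 1)) / 4, by omega, g % (4 * (L + 1)) % 4, by omega, ?_⟩
  omega

theorem lt_g {L n v c : ℕ} (hv : v < n) (hc : c < 4 * (L + 1)) :
    4 * (L + 1) * v + c < 4 * (L + 1) * n := by
  calc 4 * (L + 1) * v + c < 4 * (L + 1) * v + 4 * (L + 1) := by omega
    _ = 4 * (L + 1) * (v + 1) := by ring
    _ ≤ 4 * (L + 1) * n := Nat.mul_le_mul_left _ hv

theorem div_g {L v c : ℕ} (hc : c < 4 * (L + 1)) : (4 * (L + 1) * v + c) / (4 * (L + 1)) = v := by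
  rw [Nat.mul_add_div (by omega), Nat.div_eq_of_lt hc, Nat.add_zero]

theorem mod_g {L v c : ℕ} (hc : c < 4 * (L + 1)) : (4 * (L + 1) * v + c) % (4 * (L + 1)) = c := by
  rw [Nat.mul_add_mod, Nat.mod_eq_of_lt hc]

theorem div4_g {L v r t : ℕ} (ht : t < 4) : (4 * (L + 1) * v + 4 * r + t) / 4 = (L + 1) * v + r := by
  rw [Nat.mul_assoc]
  generalize (L + 1) * v = y
  omega

theorem mod4_g {L v r t : ℕ} (ht : t < 4) : (4 * (L + 1) * v + 4 * r + t) % 4 = t := by
  rw [Nat.mul_assoc]
  generalize (L + 1) * v = y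
  omega

theorem slot_inj {L v v' r r' : ℕ} (hr : r < L + 1) (hr' : r' < L + 1)
    (h : (L + 1) * v + r = (L + 1) * v' + r') : v = v' ∧ r = r' := by
  have h1 : ((L + 1) * v + r) / (L + 1) = v := by
    rw [Nat.mul_add_div (by omega), Nat.div_eq_of_lt hr, Nat.add_zero]
  have h2 : ((L + 1) * v' + r') / (L + 1) = v' := by
    rw [Nat.mul_add_div (by omega), Nat.div_eq_of_lt hr', Nat.add_zero]
  have h3 : v = v' := by rw [← h1, ← h2, h]
  subst h3
  exact ⟨rfl, by omega⟩

/-- classes of the first matroid -/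
def clF (n L : ℕ) (g : Fin (4 * (L + 1) * n)) : Fin n ⊕ ℕ :=
  if (g : ℕ) % 4 = 3 then .inl ⟨g / (4 * (L + 1)), Nat.div_lt_of_lt_mul g.2⟩
  else if (g : ℕ) % 4 = 0 then .inr (g / 4 - 1) else .inr (g / 4)

/-- classes of the second matroid -/
def clT (n L : ℕ) (g : Fin (4 * (L + 1) * n)) : Fin n ⊕ ℕ :=
  if (g : ℕ) % (4 * (L + 1)) < 4 then .inl ⟨g / (4 * (L + 1)), Nat.div_lt_of_lt_mul g.2⟩
  else .inr (g / 4)

/-- the matroid of the gadgets, with a bound for the number of ports -/
noncomputable def lift {N : ℕ} (M : Matroid (Fin n)) (k : ℕ) (P : Finset ℕ)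
    (cl : Fin N → Fin n ⊕ ℕ) : Matroid (Fin N) :=
  (((trunc M k).sum (Matroid.freeOn (Set.univ : Set ℕ))).comap cl).restrict {g | (g : ℕ) ∈ P}

/-- ports of a set -/
def ports {N : ℕ} (cl : Fin N → Fin n ⊕ ℕ) (S : Set (Fin N)) : Set (Fin n) :=
  {v | ∃ g ∈ S, cl g = .inl v}

theorem lift_indep {N : ℕ} (M : Matroid (Fin n)) (k : ℕ) (P : Finset ℕ)
    (cl : Fin N → Fin n ⊕ ℕ) (S : Set (Fin N)) :
    (lift M k P cl).Indep S ↔ (∀ g ∈ S, (g : ℕ) ∈ P) ∧ Set.InjOn cl S ∧
      (ports cl S).ncard ≤ k ∧ M.Indep (ports cl S) := by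
  have e : Sum.inl ⁻¹' (cl '' S) = ports cl S := by
    ext v
    simp only [Set.mem_preimage, Set.mem_image, ports, Set.mem_ofPred_eq]
  unfold lift
  rw [Matroid.restrict_indep_iff, Matroid.comap_indep_iff, Matroid.sum_indep_iff, trunc_indep, e,
    Matroid.freeOn_indep_iff]
  have e2 : S ⊆ {g : Fin N | (g : ℕ) ∈ P} ↔ ∀ g ∈ S, (g : ℕ) ∈ P := Iff.rfl
  rw [e2]
  simp only [Set.subset_univ, and_true]
  tauto

variable {k L : ℕ} {w : ℕ → ℕ} {P S : Finset ℕ}

/-- the set of the elements of `Fin N` with numbers in `S` -/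
def fs (N : ℕ) (S : Finset ℕ) : Set (Fin N) := {x | (x : ℕ) ∈ S}

theorem sum_ports {u : ℕ → ℕ} (hu : ∀ v < n, u v ≤ 1) :
    ∑ v ∈ range n, u v = ({v : Fin n | 0 < u v} : Set (Fin n)).ncard := by
  classical
  have e : ({v : Fin n | 0 < u v} : Set (Fin n)) = ((univ.filter fun v : Fin n => 0 < u v :
      Finset (Fin n)) : Set (Fin n)) := by
    ext v; simp
  rw [e, Set.ncard_coe_finset, Finset.card_filter, Finset.sum_range]
  refine Finset.sum_congr rfl fun v _ => ?_
  have := hu v v.2
  split_ifs with h <;> omega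

theorem pres_iff (hP : IsPres n L w P) :
    (∀ g ∈ fs (4 * (L + 1) * n) S, (g : ℕ) ∈ P) ↔ ∀ v < n, ∀ c ∈ sl L S v, pres (w v) L c := by
  constructor
  · intro h v hv c hc
    unfold sl at hc
    rw [mem_filter, mem_range] at hc
    rw [← hP v hv c hc.1]
    exact h ⟨4 * (L + 1) * v + c, lt_g hv hc.1⟩ hc.2
  · intro h g hg
    obtain ⟨v, hv, r, hr, t, ht, e⟩ := dec_g g.2
    have hg' : (g : ℕ) ∈ S := hg
    rw [e, add_assoc] at hg' ⊢
    rw [hP v hv _ (by omega)]
    refine h v hv _ ?_
    unfold sl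
    rw [mem_filter, mem_range]
    exact ⟨by omega, hg'⟩

/-! ### the first matroid -/

theorem clF_val {g : Fin (4 * (L + 1) * n)} {v r t : ℕ} (hr : r < L + 1) (ht : t < 4) (hv : v < n)
    (hg : (g : ℕ) = 4 * (L + 1) * v + 4 * r + t) :
    clF n L g = if t = 3 then .inl ⟨v, hv⟩ else if t = 0 then .inr ((L + 1) * v + r - 1)
      else .inr ((L + 1) * v + r) := by
  unfold clF
  simp only [hg, mod4_g ht, div4_g ht]
  have : (4 * (L + 1) * v + 4 * r + t) / (4 * (L + 1)) = v := by
    rw [add_assoc, div_g (by omega)]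
  simp only [this]

theorem ports_F (v : Fin n) :
    v ∈ ports (clF n L) (fs (4 * (L + 1) * n) S) ↔ 0 < uF L S v := by
  unfold uF
  rw [Finset.sum_pos_iff]
  constructor
  · rintro ⟨g, hg, hc⟩
    obtain ⟨v', hv', r, hr, t, ht, e⟩ := dec_g g.2
    rw [clF_val hr ht hv' e] at hc
    have hg' : (g : ℕ) ∈ S := hg
    split_ifs at hc with h1 h2
    rw [Sum.inl.injEq] at hc
    subst hc
    rw [e, h1] at hg'
    exact ⟨r, mem_range.2 hr, mm_pos.2 hg'⟩
  · rintro ⟨r, hr, h⟩
    have hr := mem_range.1 hr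
    refine ⟨⟨4 * (L + 1) * v + 4 * r + 3, by rw [add_assoc]; exact lt_g v.2 (by omega)⟩,
      mm_pos.1 h, ?_⟩
    rw [clF_val (r := r) (t := 3) hr (by norm_num) v.2 rfl, if_pos rfl]

theorem inj_F (hpr : ∀ v < n, ∀ c ∈ sl L S v, pres (w v) L c) :
    Set.InjOn (clF n L) (fs (4 * (L + 1) * n) S) ↔
      (∀ v < n, ∀ r < L + 1, mm S (4 * (L + 1) * v + 4 * r + 1) +
        mm S (4 * (L + 1) * v + 4 * r + 2) + mm S (4 * (L + 1) * v + 4 * r + 4) ≤ 1) ∧
      ∀ v < n, uF L S v ≤ 1 := by
  constructor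
  · intro h
    have hne : ∀ (v : ℕ) (hv : v < n), ∀ r < L + 1, ∀ t < 4, ∀ r' < L + 1, ∀ t' < 4,
        4 * (L + 1) * v + 4 * r + t ∈ S → 4 * (L + 1) * v + 4 * r' + t' ∈ S →
        ((if t = 3 then .inl ⟨v, hv⟩ else if t = 0 then .inr ((L + 1) * v + r - 1)
          else .inr ((L + 1) * v + r) : Fin n ⊕ ℕ)) =
          (if t' = 3 then .inl ⟨v, hv⟩ else if t' = 0 then .inr ((L + 1) * v + r' - 1)
          else .inr ((L + 1) * v + r')) → 4 * r + t = 4 * r' + t' := by
      intro v hv r hr t ht r' hr' t' ht' hS hS' hc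
      have hl : 4 * (L + 1) * v + 4 * r + t < 4 * (L + 1) * n := by
        rw [add_assoc]; exact lt_g hv (by omega)
      have hl' : 4 * (L + 1) * v + 4 * r' + t' < 4 * (L + 1) * n := by
        rw [add_assoc]; exact lt_g hv (by omega)
      have := h (x₁ := ⟨_, hl⟩) hS (x₂ := ⟨_, hl'⟩) hS' (by
        rw [clF_val hr ht hv rfl, clF_val hr' ht' hv rfl]; exact hc)
      rw [Fin.ext_iff] at this
      simp only at this
      omega
    constructor
    · intro v hv r hr
      by_cases hrL : r < L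
      · have a1 := mm_le S (4 * (L + 1) * v + 4 * r + 1)
        have a2 := mm_le S (4 * (L + 1) * v + 4 * r + 2)
        have a4 := mm_le S (4 * (L + 1) * v + 4 * r + 4)
        have e4 : 4 * (L + 1) * v + 4 * r + 4 = 4 * (L + 1) * v + 4 * (r + 1) + 0 := by ring
        by_contra hcon
        by_cases m1 : 4 * (L + 1) * v + 4 * r + 1 ∈ S
        · by_cases m2 : 4 * (L + 1) * v + 4 * r + 2 ∈ S
          · have := hne v hv r hr 1 (by norm_num) r hr 2 (by norm_num) m1 m2 (by simp)
            omega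
          · have m4 : 4 * (L + 1) * v + 4 * r + 4 ∈ S := by
              have := mm_zero.2 m2
              exact mm_pos.1 (by omega)
            rw [e4] at m4
            have := hne v hv r hr 1 (by norm_num) (r + 1) (by omega) 0 (by norm_num) m1 m4
              (by simp [← add_assoc])
            omega
        · have z1 := mm_zero.2 m1
          have m2 : 4 * (L + 1) * v + 4 * r + 2 ∈ S := mm_pos.1 (by omega)
          have m4 : 4 * (L + 1) * v + 4 * r + 4 ∈ S := mm_pos.1 (by omega)
          rw [e4] at m4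
          have := hne v hv r hr 2 (by norm_num) (r + 1) (by omega) 0 (by norm_num) m2 m4
            (by simp [← add_assoc])
          omega
      · have e : r = L := by omega
        obtain ⟨-, -, -, h4, h5⟩ := pres_absent (hpr v hv)
        rw [mm_sl (by omega), ← add_assoc] at h4 h5
        rw [e, h4, h5]
        have := mm_le S (4 * (L + 1) * v + 4 * L + 4)
        omega
    · intro v hv
      unfold uF mm
      rw [← Finset.card_filter, Finset.card_le_one]
      intro r hr r' hr'
      rw [mem_filter, mem_range] at hr hr'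
      have := hne v hv r hr.1 3 (by norm_num) r' hr'.1 3 (by norm_num) hr.2 hr'.2 (by simp)
      omega
  · rintro ⟨h1, h2⟩ g hg g' hg' hc
    obtain ⟨v, hv, r, hr, t, ht, e⟩ := dec_g g.2
    obtain ⟨v', hv', r', hr', t', ht', e'⟩ := dec_g g'.2
    rw [clF_val hr ht hv e, clF_val hr' ht' hv' e'] at hc
    have hg : (g : ℕ) ∈ S := hg
    have hg' : (g' : ℕ) ∈ S := hg'
    rw [Fin.ext_iff]
    -- a present element of type 0 has a slot before it
    have hz : ∀ {v r : ℕ}, v < n → r < L + 1 → 4 * (L + 1) * v + 4 * r + 0 ∈ S → 1 ≤ r := by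
      intro v r hv hr hS
      by_contra h0
      have : r = 0 := by omega
      subst this
      have := (pres_absent (hpr v hv)).1
      rw [mm_sl (by omega), mm_zero] at this
      exact this hS
    have fin : ∀ {v r a b : ℕ}, v < n → r < L + 1 → a = 1 ∨ a = 2 ∨ a = 4 →
        b = 1 ∨ b = 2 ∨ b = 4 → 4 * (L + 1) * v + 4 * r + a ∈ S →
        4 * (L + 1) * v + 4 * r + b ∈ S → a = b := by
      intro v r a b hv hr ha hb hA hB
      have := h1 v hv r hr
      by_contra hne
      rcases ha with rfl | rfl | rfl <;> rcases hb with rfl | rfl | rfl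
      · exact hne rfl
      · have := mm_one.2 hA; have := mm_one.2 hB; omega
      · have := mm_one.2 hA; have := mm_one.2 hB; omega
      · have := mm_one.2 hA; have := mm_one.2 hB; omega
      · exact hne rfl
      · have := mm_one.2 hA; have := mm_one.2 hB; omega
      · have := mm_one.2 hA; have := mm_one.2 hB; omega
      · have := mm_one.2 hA; have := mm_one.2 hB; omega
      · exact hne rfl
    rw [e] at hg
    rw [e'] at hg'
    rw [e, e']
    by_cases ht3 : t = 3
    · by_cases ht3' : t' = 3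
      · rw [if_pos ht3, if_pos ht3', Sum.inl.injEq, Fin.mk.injEq] at hc
        subst hc
        subst ht3
        subst ht3'
        have h3 := h2 v hv
        unfold uF mm at h3
        rw [← Finset.card_filter, Finset.card_le_one] at h3
        have := h3 r (mem_filter.2 ⟨mem_range.2 hr, hg⟩) r' (mem_filter.2 ⟨mem_range.2 hr', hg'⟩)
        subst this
        rfl
      · rw [if_pos ht3, if_neg ht3'] at hc
        split_ifs at hc
    · by_cases ht3' : t' = 3
      · rw [if_neg ht3, if_pos ht3'] at hc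
        split_ifs at hc
      · rw [if_neg ht3, if_neg ht3'] at hc
        by_cases t0 : t = 0
        · subst t0
          have hr1 := hz hv hr hg
          obtain ⟨j, rfl⟩ : ∃ j, r = j + 1 := ⟨r - 1, by omega⟩
          have ee : 4 * (L + 1) * v + 4 * (j + 1) + 0 = 4 * (L + 1) * v + 4 * j + 4 := by ring
          rw [ee] at hg ⊢
          by_cases t0' : t' = 0
          · subst t0'
            have hr1' := hz hv' hr' hg'
            rw [if_pos rfl, if_pos rfl, Sum.inr.injEq] at hc
            have := slot_inj (L := L) (v := v) (v' := v') (r := j + 1) (r' := r') hr hr'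
              (by omega)
            obtain ⟨rfl, rfl⟩ := this
            rw [ee]
          · rw [if_pos rfl, if_neg t0', Sum.inr.injEq] at hc
            have := slot_inj (L := L) (v := v) (v' := v') (r := j) (r' := r') (by omega) hr'
              (by omega)
            obtain ⟨rfl, rfl⟩ := this
            have := fin hv (by omega) (Or.inr (Or.inr rfl)) (b := t') (by omega) hg hg'
            omega
        · by_cases t0' : t' = 0
          · subst t0'
            have hr1' := hz hv' hr' hg'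
            obtain ⟨j, rfl⟩ : ∃ j, r' = j + 1 := ⟨r' - 1, by omega⟩
            have ee : 4 * (L + 1) * v' + 4 * (j + 1) + 0 = 4 * (L + 1) * v' + 4 * j + 4 := by ring
            rw [ee] at hg' ⊢
            rw [if_neg t0, if_pos rfl, Sum.inr.injEq] at hc
            have := slot_inj (L := L) (v := v) (v' := v') (r := r) (r' := j) hr (by omega)
              (by omega)
            obtain ⟨rfl, rfl⟩ := this
            have := fin hv hr (a := t) (by omega) (Or.inr (Or.inr rfl)) hg hg'
            omega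
          · rw [if_neg t0, if_neg t0', Sum.inr.injEq] at hc
            obtain ⟨rfl, rfl⟩ := slot_inj hr hr' hc
            have := fin hv hr (a := t) (b := t') (by omega) (by omega) hg hg'
            omega

theorem liftF_indep (hP : IsPres n L w P) (M : Matroid (Fin n)) :
    (lift M k P (clF n L)).Indep (fs (4 * (L + 1) * n) S) ↔
      Ok n k L (bF S P) (uF L S) ∧ M.Indep {v : Fin n | 0 < uF L S v} := by
  have hpo : ports (clF n L) (fs (4 * (L + 1) * n) S) = {v : Fin n | 0 < uF L S v} := by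
    ext v; exact ports_F v
  rw [lift_indep, hpo, pres_iff hP]
  constructor
  · rintro ⟨hpr, hinj, hk, hM⟩
    obtain ⟨h1, h2⟩ := (inj_F hpr).1 hinj
    refine ⟨⟨?_, h2, ?_⟩, hM⟩
    · intro v hv r hr
      unfold bF
      rw [prs_of_sl hP hv (hpr v hv) hr, Nat.zero_add]
      have := h1 v hv r hr
      omega
    · rw [sum_ports h2]; exact hk
  · rintro ⟨h, hM⟩
    have hpr : ∀ v < n, ∀ c ∈ sl L S v, pres (w v) L c := fun v hv => h.presF hP hv
    refine ⟨hpr, (inj_F hpr).2 ⟨?_, h.port⟩, ?_, hM⟩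
    · intro v hv r hr
      have := h.slot v hv r hr
      unfold bF at this
      omega
    · rw [← sum_ports h.port]; exact h.tot

/-! ### the second matroid -/

theorem clT_val {g : Fin (4 * (L + 1) * n)} {v r t : ℕ} (hr : r < L + 1) (ht : t < 4) (hv : v < n)
    (hg : (g : ℕ) = 4 * (L + 1) * v + 4 * r + t) :
    clT n L g = if r = 0 then .inl ⟨v, hv⟩ else .inr ((L + 1) * v + r) := by
  unfold clT
  simp only [hg, div4_g ht]
  have h1 : (4 * (L + 1) * v + 4 * r + t) / (4 * (L + 1)) = v := by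
    rw [add_assoc, div_g (by omega)]
  have h2 : (4 * (L + 1) * v + 4 * r + t) % (4 * (L + 1)) = 4 * r + t := by
    rw [add_assoc, mod_g (by omega)]
  simp only [h1, h2]
  refine if_congr ?_ rfl rfl
  omega

theorem inj_T (hpr : ∀ v < n, ∀ c ∈ sl L S v, pres (w v) L c) :
    Set.InjOn (clT n L) (fs (4 * (L + 1) * n) S) ↔
      (∀ v < n, ∀ r < L + 1, mm S (4 * (L + 1) * v + 4 * r) + mm S (4 * (L + 1) * v + 4 * r + 1) +
        mm S (4 * (L + 1) * v + 4 * r + 2) + mm S (4 * (L + 1) * v + 4 * r + 3) ≤ 1) := by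
  constructor
  · intro h v hv r hr
    have hne : ∀ t < 4, ∀ t' < 4, 4 * (L + 1) * v + 4 * r + t ∈ S →
        4 * (L + 1) * v + 4 * r + t' ∈ S → t = t' := by
      intro t ht t' ht' hS hS'
      have hl : 4 * (L + 1) * v + 4 * r + t < 4 * (L + 1) * n := by
        rw [add_assoc]; exact lt_g hv (by omega)
      have hl' : 4 * (L + 1) * v + 4 * r + t' < 4 * (L + 1) * n := by
        rw [add_assoc]; exact lt_g hv (by omega)
      have := h (x₁ := ⟨_, hl⟩) hS (x₂ := ⟨_, hl'⟩) hS' (by
        rw [clT_val hr ht hv rfl, clT_val hr ht' hv rfl])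
      rw [Fin.ext_iff] at this
      simp only at this
      omega
    have e : mm S (4 * (L + 1) * v + 4 * r) + mm S (4 * (L + 1) * v + 4 * r + 1) +
        mm S (4 * (L + 1) * v + 4 * r + 2) + mm S (4 * (L + 1) * v + 4 * r + 3) =
        ∑ t ∈ range 4, mm S (4 * (L + 1) * v + 4 * r + t) := by
      simp [Finset.sum_range_succ]
    rw [e]
    unfold mm
    rw [← Finset.card_filter, Finset.card_le_one]
    intro t ht t' ht'
    rw [mem_filter, mem_range] at ht ht'
    exact hne t ht.1 t' ht'.1 ht.2 ht'.2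
  · intro h1 g hg g' hg' hc
    obtain ⟨v, hv, r, hr, t, ht, e⟩ := dec_g g.2
    obtain ⟨v', hv', r', hr', t', ht', e'⟩ := dec_g g'.2
    rw [clT_val hr ht hv e, clT_val hr' ht' hv' e'] at hc
    have hg : (g : ℕ) ∈ S := hg
    have hg' : (g' : ℕ) ∈ S := hg'
    rw [Fin.ext_iff]
    rw [e] at hg
    rw [e'] at hg'
    rw [e, e']
    have hvr : v = v' ∧ r = r' := by
      by_cases r0 : r = 0
      · by_cases r0' : r' = 0
        · rw [if_pos r0, if_pos r0', Sum.inl.injEq, Fin.mk.injEq] at hc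
          exact ⟨hc, by omega⟩
        · rw [if_pos r0, if_neg r0'] at hc
          exact absurd hc (by simp)
      · by_cases r0' : r' = 0
        · rw [if_neg r0, if_pos r0'] at hc
          exact absurd hc (by simp)
        · rw [if_neg r0, if_neg r0', Sum.inr.injEq] at hc
          exact slot_inj hr hr' hc
    obtain ⟨rfl, rfl⟩ := hvr
    have h2 := h1 v hv r hr
    have e : mm S (4 * (L + 1) * v + 4 * r) + mm S (4 * (L + 1) * v + 4 * r + 1) +
        mm S (4 * (L + 1) * v + 4 * r + 2) + mm S (4 * (L + 1) * v + 4 * r + 3) =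
        ∑ t ∈ range 4, mm S (4 * (L + 1) * v + 4 * r + t) := by
      simp [Finset.sum_range_succ]
    rw [e] at h2
    unfold mm at h2
    rw [← Finset.card_filter, Finset.card_le_one] at h2
    have := h2 t (mem_filter.2 ⟨mem_range.2 ht, hg⟩) t' (mem_filter.2 ⟨mem_range.2 ht', hg'⟩)
    omega

theorem ports_T (hpr : ∀ v < n, ∀ c ∈ sl L S v, pres (w v) L c) (v : Fin n) :
    v ∈ ports (clT n L) (fs (4 * (L + 1) * n) S) ↔ 0 < uT L S v := by
  unfold uT
  rw [mm_pos]
  constructor
  · rintro ⟨g, hg, hc⟩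
    obtain ⟨v', hv', r, hr, t, ht, e⟩ := dec_g g.2
    rw [clT_val hr ht hv' e] at hc
    have hg' : (g : ℕ) ∈ S := hg
    split_ifs at hc with h1
    rw [Sum.inl.injEq] at hc
    subst hc
    subst h1
    rw [e] at hg'
    obtain ⟨h0, h2, h3, -, -⟩ := pres_absent (hpr v' hv')
    rw [mm_sl (by omega), mm_zero] at h0 h2 h3
    have : t = 0 ∨ t = 1 ∨ t = 2 ∨ t = 3 := by omega
    rcases this with rfl | rfl | rfl | rfl
    · exact absurd hg' h0
    · exact hg'
    · exact absurd hg' h2
    · exact absurd hg' h3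
  · intro h
    refine ⟨⟨4 * (L + 1) * v + 4 * 0 + 1, by rw [add_assoc]; exact lt_g v.2 (by omega)⟩, h, ?_⟩
    rw [clT_val (r := 0) (t := 1) (by omega) (by norm_num) v.2 rfl, if_pos rfl]

theorem liftT_indep (hP : IsPres n L w P) (M : Matroid (Fin n)) :
    (lift M k P (clT n L)).Indep (fs (4 * (L + 1) * n) S) ↔
      Ok n k L (bT S P) (uT L S) ∧ M.Indep {v : Fin n | 0 < uT L S v} := by
  rw [lift_indep, pres_iff hP]
  constructor
  · rintro ⟨hpr, hinj, hk, hM⟩
    have hpo : ports (clT n L) (fs (4 * (L + 1) * n) S) = {v : Fin n | 0 < uT L S v} := by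
      ext v; exact ports_T hpr v
    rw [hpo] at hk hM
    have h1 := (inj_T hpr).1 hinj
    have h2 : ∀ v < n, uT L S v ≤ 1 := fun v _ => mm_le _ _
    refine ⟨⟨?_, h2, ?_⟩, hM⟩
    · intro v hv r hr
      unfold bT
      rw [prs_of_sl hP hv (hpr v hv) hr, Nat.zero_add]
      have := h1 v hv r hr
      omega
    · rw [sum_ports h2]; exact hk
  · rintro ⟨h, hM⟩
    have hpr : ∀ v < n, ∀ c ∈ sl L S v, pres (w v) L c := fun v hv => h.presT hP hv
    have hpo : ports (clT n L) (fs (4 * (L + 1) * n) S) = {v : Fin n | 0 < uT L S v} := by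
      ext v; exact ports_T hpr v
    rw [hpo]
    refine ⟨hpr, (inj_T hpr).2 ?_, ?_, hM⟩
    · intro v hv r hr
      have := h.slot v hv r hr
      unfold bT at this
      omega
    · rw [← sum_ports h.port]; exact h.tot

end Vale.Agent.P317.H964
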