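import Vale.Agent.P317.H964.W3

/-!
# P317 (helper964): the number of solutions for the gadgets
-/

set_option linter.unusedVariables false
set_option linter.unusedSimpArgs false

namespace Vale.Agent.P317.H964

open Finset Alg

variable {n k L : ℕ} {w : ℕ → ℕ} {P : Finset ℕ} {M₁ M₂ : Matroid (Fin n)}

/-- numbers of the elements -/
def toN {N : ℕ} (S : Finset (Fin N)) : Finset ℕ := S.map Fin.valEmbedding

theorem mem_toN {N : ℕ} {S : Finset (Fin N)} {x : Fin N} : (x : ℕ) ∈ toN S ↔ x ∈ S := by
  unfold toN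
  exact Finset.mem_map' Fin.valEmbedding

theorem toN_lt {N : ℕ} {S : Finset (Fin N)} {g : ℕ} (h : g ∈ toN S) : g < N := by
  unfold toN at h
  rw [Finset.mem_map] at h
  obtain ⟨x, -, rfl⟩ := h
  exact x.2

theorem toN_sub {N : ℕ} (S : Finset (Fin N)) : toN S ⊆ range N :=
  fun g hg => mem_range.2 (toN_lt hg)

theorem card_toN {N : ℕ} (S : Finset (Fin N)) : (toN S).card = S.card := card_map _

theorem toN_inj {N : ℕ} {S S' : Finset (Fin N)} (h : toN S = toN S') : S = S' :=
  Finset.map_injective _ h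

theorem fs_toN {N : ℕ} (S : Finset (Fin N)) : fs N (toN S) = (S : Set (Fin N)) := by
  ext x
  exact mem_toN

/-- the set with given slices -/
def bld (n L : ℕ) (f : ℕ → Finset ℕ) : Finset ℕ :=
  (range (4 * (L + 1) * n)).filter fun g => g % (4 * (L + 1)) ∈ f (g / (4 * (L + 1)))

theorem sl_bld {f : ℕ → Finset ℕ} {v : ℕ} (hv : v < n) (hf : f v ⊆ range (4 * (L + 1))) :
    sl L (bld n L f) v = f v := by
  ext c
  unfold sl bld
  rw [mem_filter, mem_filter, mem_range, mem_range]
  constructor
  · rintro ⟨hc, -, h⟩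
    rwa [mod_g hc, div_g hc] at h
  · intro hc
    have hc' := mem_range.1 (hf hc)
    refine ⟨hc', lt_g hv hc', ?_⟩
    rwa [mod_g hc', div_g hc']

theorem bld_sub (f : ℕ → Finset ℕ) : bld n L f ⊆ range (4 * (L + 1) * n) := filter_subset _ _

theorem eq_of_sl {S S' : Finset ℕ} (hS : S ⊆ range (4 * (L + 1) * n))
    (hS' : S' ⊆ range (4 * (L + 1) * n)) (h : ∀ v < n, sl L S v = sl L S' v) : S = S' := by
  have key : ∀ {S S' : Finset ℕ}, S ⊆ range (4 * (L + 1) * n) → (∀ v < n, sl L S v = sl L S' v) →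
      ∀ g ∈ S, g ∈ S' := by
    intro S S' hS h g hg
    obtain ⟨v, hv, r, hr, t, ht, e⟩ := dec_g (mem_range.1 (hS hg))
    rw [e, add_assoc] at hg ⊢
    have h1 : 4 * r + t ∈ sl L S v := by
      unfold sl
      rw [mem_filter, mem_range]
      exact ⟨by omega, hg⟩
    rw [h v hv] at h1
    unfold sl at h1
    rw [mem_filter] at h1
    exact h1.2
  ext g
  exact ⟨key hS h g, key hS' (fun v hv => (h v hv).symm) g⟩

/-- the slices of an independent set of full size -/
def f0 (A : Finset ℕ) (L v : ℕ) : Finset ℕ :=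
  (range (4 * (L + 1))).filter fun c => (c % 4 = 0 ∧ c ≠ 0) ∨ (c = 1 ∧ v ∈ A)

theorem rank_T (hL : 0 < L) (hP : IsPres n L w P) (hk : k ≤ rkM M₂ univ) :
    rkM (lift M₂ k P (clT n L)) univ = k + n * L := by
  classical
  apply le_antisymm
  · obtain ⟨I, -, hI, hc⟩ := exists_rkM (lift M₂ k P (clT n L)) univ
    rw [← hc, ← card_toN]
    rw [← fs_toN, liftT_indep hP] at hI
    rw [card_slices (toN_sub I)]
    have h1 : ∑ v ∈ range n, (sl L (toN I) v).card ≤ ∑ v ∈ range n, (L + uT L (toN I) v) :=
      Finset.sum_le_sum fun v hv => card_le_T hP hI.1 (mem_range.1 hv)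
    rw [sum_add_distrib, sum_const, card_range, smul_eq_mul] at h1
    have := hI.1.tot
    omega
  · obtain ⟨I, -, hI, hc⟩ := exists_rkM M₂ univ
    obtain ⟨A, hAI, hA⟩ := Finset.exists_subset_card_eq (s := I) (n := k) (by omega)
    have hAi : M₂.Indep (A : Set (Fin n)) := hI.subset (by exact_mod_cast hAI)
    set f : ℕ → Finset ℕ := f0 (toN A) L with hf
    set S : Finset (Fin (4 * (L + 1) * n)) :=
      univ.filter fun g => (g : ℕ) ∈ bld n L f with hS
    have hSN : toN S = bld n L f := by
      ext g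
      constructor
      · intro hg
        have hlt := toN_lt hg
        have h1 : (⟨g, hlt⟩ : Fin (4 * (L + 1) * n)) ∈ S := mem_toN.1 hg
        rw [hS, mem_filter] at h1
        exact h1.2
      · intro hg
        have hlt := mem_range.1 (bld_sub f hg)
        have h1 : (⟨g, hlt⟩ : Fin (4 * (L + 1) * n)) ∈ S := by
          rw [hS, mem_filter]
          exact ⟨mem_univ _, hg⟩
        exact mem_toN.2 h1
    have hsl : ∀ v < n, sl L (toN S) v = f v := fun v hv => by
      rw [hSN]; exact sl_bld hv (filter_subset _ _)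
    have hpr : ∀ v < n, ∀ c ∈ sl L (toN S) v, pres (w v) L c := by
      intro v hv c hc
      rw [hsl v hv, hf, f0, mem_filter, mem_range] at hc
      obtain ⟨hc, ⟨h1, h2⟩ | ⟨h1, h2⟩⟩ := hc
      · exact ⟨c / 4 - 1, by omega, Or.inr (Or.inr (Or.inl (by omega)))⟩
      · exact ⟨0, hL, Or.inl (by omega)⟩
    have hmm : ∀ v < n, ∀ c < 4 * (L + 1), mm (toN S) (4 * (L + 1) * v + c) =
        if (c % 4 = 0 ∧ c ≠ 0) ∨ (c = 1 ∧ v ∈ toN A) then 1 else 0 := by
      intro v hv c hc
      rw [← mm_sl hc, hsl v hv]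
      unfold mm
      refine if_congr ?_ rfl rfl
      rw [hf, f0, mem_filter, mem_range]
      exact and_iff_right hc
    have huT : ∀ v < n, uT L (toN S) v = if v ∈ toN A then 1 else 0 := by
      intro v hv
      unfold uT
      rw [hmm v hv 1 (by omega)]
      refine if_congr ?_ rfl rfl
      constructor
      · rintro (h | h)
        · omega
        · exact h.2
      · intro h; exact Or.inr ⟨rfl, h⟩
    have hsum : ∑ v ∈ range n, uT L (toN S) v = k := by
      rw [Finset.sum_congr rfl fun v hv => huT v (mem_range.1 hv), ← Finset.card_filter, ← hA,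
        ← card_toN]
      congr 1
      ext v
      rw [mem_filter]
      exact ⟨fun h => h.2, fun h => ⟨toN_sub A h, h⟩⟩
    have hok : Ok n k L (bT (toN S) P) (uT L (toN S)) := by
      refine ⟨?_, fun v _ => mm_le _ _, hsum.le⟩
      intro v hv r hr
      unfold bT
      rw [prs_of_sl hP hv (hpr v hv) hr, Nat.zero_add]
      have h0 := hmm v hv (4 * r) (by omega)
      have h1 := hmm v hv (4 * r + 1) (by omega)
      have h2 := hmm v hv (4 * r + 2) (by omega)
      have h3 := hmm v hv (4 * r + 3) (by omega)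
      rw [← add_assoc] at h1 h2 h3
      rw [h0, h1, h2, h3]
      rw [if_neg (by omega : ¬ (((4 * r + 2) % 4 = 0 ∧ 4 * r + 2 ≠ 0) ∨ (4 * r + 2 = 1 ∧ v ∈ toN A))),
        if_neg (by omega : ¬ (((4 * r + 3) % 4 = 0 ∧ 4 * r + 3 ≠ 0) ∨ (4 * r + 3 = 1 ∧ v ∈ toN A)))]
      by_cases hr0 : r = 0
      · rw [if_neg (by omega : ¬ (((4 * r) % 4 = 0 ∧ 4 * r ≠ 0) ∨ (4 * r = 1 ∧ v ∈ toN A)))]
        split_ifs <;> omega
      · rw [if_neg (by omega :
          ¬ (((4 * r + 1) % 4 = 0 ∧ 4 * r + 1 ≠ 0) ∨ (4 * r + 1 = 1 ∧ v ∈ toN A)))]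
        split_ifs <;> omega
    have hind : (lift M₂ k P (clT n L)).Indep (S : Set (Fin (4 * (L + 1) * n))) := by
      rw [← fs_toN, liftT_indep hP]
      refine ⟨hok, ?_⟩
      have : {v : Fin n | 0 < uT L (toN S) v} = (A : Set (Fin n)) := by
        ext v
        simp only [Set.mem_ofPred_eq]
        rw [huT v v.2]
        split_ifs with h
        · exact ⟨fun _ => mem_toN.1 h, fun _ => Nat.one_pos⟩
        · exact ⟨fun h' => absurd h' (by omega), fun h' => absurd (mem_toN.2 h') h⟩
      rw [this]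
      exact hAi
    have hcard : S.card = k + n * L := by
      rw [← card_toN, card_slices (toN_sub S)]
      have : ∀ v ∈ range n, (sl L (toN S) v).card = L + uT L (toN S) v := by
        intro v hv
        have hv := mem_range.1 hv
        rw [card_right (hpr v hv), ← uT_eq]
        congr 1
        have : ∀ j ∈ range L, (mm (sl L (toN S) v) (4 * j + 4) + mm (sl L (toN S) v) (4 * j + 5) +
            mm (sl L (toN S) v) (4 * j + 6) + mm (sl L (toN S) v) (4 * j + 7)) = 1 := by
          intro j hj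
          have hj := mem_range.1 hj
          rw [mm_sl (by omega), mm_sl (by omega), mm_sl (by omega), mm_sl (by omega),
            hmm v hv _ (by omega), hmm v hv _ (by omega), hmm v hv _ (by omega),
            hmm v hv _ (by omega)]
          rw [if_pos (Or.inl ⟨by omega, by omega⟩), if_neg (by omega), if_neg (by omega),
            if_neg (by omega)]
        rw [Finset.sum_congr rfl this, sum_const, card_range, smul_eq_mul, mul_one]
      rw [Finset.sum_congr rfl this, sum_add_distrib, sum_const, card_range, smul_eq_mul, hsum]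
      omega
    rw [← hcard]
    exact le_rkM hind (subset_univ _)

/-- solutions of the gadget matroids -/
theorem mem_sol (hL : 0 < L) (hP : IsPres n L w P) (hk : k ≤ rkM M₂ univ)
    (S : Finset (Fin (4 * (L + 1) * n))) :
    S ∈ indSpan (lift M₁ k P (clF n L)) (lift M₂ k P (clT n L)) ↔
      (Ok n k L (bF (toN S) P) (uF L (toN S)) ∧ M₁.Indep {v : Fin n | 0 < uF L (toN S) v}) ∧
      (Ok n k L (bT (toN S) P) (uT L (toN S)) ∧ M₂.Indep {v : Fin n | 0 < uT L (toN S) v}) ∧
      S.card = k + n * L := by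
  classical
  unfold indSpan
  rw [mem_filter, rank_T hL hP hk, ← indep_iff_rkM, ← liftF_indep (S := toN S) hP M₁,
    ← liftT_indep (S := toN S) hP M₂, fs_toN, indep_iff_rkM _ (M := lift M₂ k P (clT n L))]
  simp only [mem_univ, true_and]
  constructor
  · rintro ⟨h1, h2⟩
    have h3 : S.card ≤ k + n * L := by
      rw [← fs_toN, liftF_indep hP] at h1
      rw [← card_toN, card_slices (toN_sub S)]
      have h4 : ∑ v ∈ range n, (sl L (toN S) v).card ≤ ∑ v ∈ range n, (L + uF L (toN S) v) :=
        Finset.sum_le_sum fun v hv => card_le_F hP h1.1 (mem_range.1 hv)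
      rw [sum_add_distrib, sum_const, card_range, smul_eq_mul] at h4
      have := h1.1.tot
      omega
    have h4 := (isRk_rkM (lift M₂ k P (clT n L))).le_card (rkM_empty _) S
    exact ⟨h1, by omega, by omega⟩
  · rintro ⟨h1, h2, h3⟩
    exact ⟨h1, by omega⟩

end Vale.Agent.P317.H964
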