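import Vale.Agent.P317.H964.W4

/-!
# P317 (helper964): the number of solutions for the gadgets, second part
-/

set_option linter.unusedVariables false
set_option linter.unusedSimpArgs false

namespace Vale.Agent.P317.H964

open Finset Alg

variable {n k L : ℕ} {w : ℕ → ℕ} {P : Finset ℕ} {M₁ M₂ : Matroid (Fin n)}

/-- the set of the elements whose exit is used -/
def dcd (n L : ℕ) (S : Finset ℕ) : Finset (Fin n) :=
  univ.filter fun v : Fin n => 4 * (L + 1) * v + 1 ∈ S

theorem dcd_coe (S : Finset ℕ) : {v : Fin n | 0 < uT L S v} = (dcd n L S : Set (Fin n)) := by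
  ext v
  simp only [Set.mem_ofPred_eq, dcd, coe_filter, mem_univ, true_and]
  exact mm_pos

theorem sum_dcd (S : Finset ℕ) : ∑ v ∈ range n, uT L S v = (dcd n L S).card := by
  have h : ∀ v < n, uT L S v ≤ 1 := fun v _ => mm_le _ _
  rw [sum_ports h, dcd_coe, Set.ncard_coe_finset]

theorem toN_bld {f : ℕ → Finset ℕ} :
    toN (univ.filter fun g : Fin (4 * (L + 1) * n) => (g : ℕ) ∈ bld n L f) = bld n L f := by
  ext g
  constructor
  · intro hg
    have hlt := toN_lt hg
    have h1 : (⟨g, hlt⟩ : Fin (4 * (L + 1) * n)) ∈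
        univ.filter fun g : Fin (4 * (L + 1) * n) => (g : ℕ) ∈ bld n L f := mem_toN.1 hg
    rw [mem_filter] at h1
    exact h1.2
  · intro hg
    have hlt := mem_range.1 (bld_sub f hg)
    have h1 : (⟨g, hlt⟩ : Fin (4 * (L + 1) * n)) ∈
        univ.filter fun g : Fin (4 * (L + 1) * n) => (g : ℕ) ∈ bld n L f := by
      rw [mem_filter]
      exact ⟨mem_univ _, hg⟩
    exact mem_toN.2 h1

theorem fiber_card (hL : 0 < L) (hP : IsPres n L w P) (hw : ∀ v < n, w v < 2 ^ L)
    (hk : k ≤ rkM M₂ univ) {A : Finset (Fin n)} (h1 : M₁.Indep (A : Set (Fin n)))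
    (h2 : M₂.Indep (A : Set (Fin n))) (h3 : A.card = k) :
    ((indSpan (lift M₁ k P (clF n L)) (lift M₂ k P (clT n L))).filter
      fun S => dcd n L (toN S) = A).card = ∏ v ∈ A, w v := by
  classical
  have hpi : (Fintype.piFinset fun v : Fin n => Conf (w v) L (if v ∈ A then 1 else 0)).card =
      ∏ v ∈ A, w v := by
    rw [Fintype.card_piFinset]
    have : ∀ v ∈ (univ : Finset (Fin n)), (Conf (w v) L (if v ∈ A then 1 else 0)).card =
        if v ∈ A then w v else 1 := by
      intro v _
      split_ifs with hv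
      · exact card_Conf_one (hw v v.2)
      · exact card_Conf_zero _ _
    rw [Finset.prod_congr rfl this, Finset.prod_ite_mem, univ_inter]
  rw [← hpi]
  refine Finset.card_bij (fun S _ => fun v : Fin n => sl L (toN S) v) ?_ ?_ ?_
  · intro S hS
    rw [mem_filter, mem_sol hL hP hk] at hS
    obtain ⟨⟨⟨hF, -⟩, ⟨hT, -⟩, hc⟩, hA⟩ := hS
    obtain ⟨-, -, hcf⟩ := confs_of hP (toN_sub S) hF hT (by rw [card_toN]; exact hc)
    rw [Fintype.mem_piFinset]
    intro v
    rw [mem_Conf]
    have := hcf v v.2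
    have e : uT L (toN S) v = if v ∈ A then 1 else 0 := by
      rw [← hA]
      unfold uT mm dcd
      refine if_congr ?_ rfl rfl
      rw [mem_filter]
      simp
    rwa [e] at this
  · intro S _ S' _ h
    refine toN_inj (eq_of_sl (L := L) (n := n) (toN_sub S) (toN_sub S') fun v hv => ?_)
    exact congrFun h ⟨v, hv⟩
  · intro f hf
    rw [Fintype.mem_piFinset] at hf
    set f' : ℕ → Finset ℕ := fun v => if h : v < n then f ⟨v, h⟩ else ∅ with hf'
    have hfv : ∀ v (hv : v < n), f' v = f ⟨v, hv⟩ := fun v hv => by rw [hf']; simp [hv]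
    have hfs : ∀ v (hv : v < n), f' v ⊆ range (4 * (L + 1)) := by
      intro v hv c hc
      rw [hfv v hv] at hc
      exact mem_range.2 (pres_lt ((mem_Conf.1 (hf ⟨v, hv⟩)).pr c hc))
    set S : Finset (Fin (4 * (L + 1) * n)) := univ.filter fun g => (g : ℕ) ∈ bld n L f' with hS
    have hSN : toN S = bld n L f' := toN_bld
    have hsl : ∀ v < n, sl L (toN S) v = f' v := fun v hv => by
      rw [hSN]; exact sl_bld hv (hfs v hv)
    set a : ℕ → ℕ := fun v => if v ∈ toN A then 1 else 0 with ha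
    have haA : ∀ v : Fin n, a v = if v ∈ A then 1 else 0 := by
      intro v
      rw [ha]
      exact if_congr mem_toN rfl rfl
    have hasum : ∑ v ∈ range n, a v = k := by
      rw [ha, ← Finset.card_filter, ← h3, ← card_toN]
      congr 1
      ext v
      rw [mem_filter]
      exact ⟨fun h => h.2, fun h => ⟨toN_sub A h, h⟩⟩
    obtain ⟨g1, g2, g3, g4, g5⟩ := of_confs (S := toN S) hP (toN_sub S) (a := a)
      (fun v _ => by rw [ha]; simp only; split_ifs <;> omega) hasum (by
        intro v hv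
        rw [hsl v hv, hfv v hv]
        have := mem_Conf.1 (hf ⟨v, hv⟩)
        rwa [← haA ⟨v, hv⟩] at this)
    have hAF : {v : Fin n | 0 < uF L (toN S) v} = (A : Set (Fin n)) := by
      ext v
      simp only [Set.mem_ofPred_eq]
      rw [g4 v v.2, haA]
      split_ifs with h
      · exact ⟨fun _ => h, fun _ => Nat.one_pos⟩
      · exact ⟨fun h' => absurd h' (by omega), fun h' => absurd h' h⟩
    have hAT : {v : Fin n | 0 < uT L (toN S) v} = (A : Set (Fin n)) := by
      ext v
      simp only [Set.mem_ofPred_eq]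
      rw [g5 v v.2, haA]
      split_ifs with h
      · exact ⟨fun _ => h, fun _ => Nat.one_pos⟩
      · exact ⟨fun h' => absurd h' (by omega), fun h' => absurd h' h⟩
    have hAd : dcd n L (toN S) = A := by
      have := hAT
      rw [dcd_coe] at this
      exact_mod_cast this
    refine ⟨S, ?_, ?_⟩
    · rw [mem_filter, mem_sol hL hP hk]
      refine ⟨⟨⟨g1, by rw [hAF]; exact h1⟩, ⟨g2, by rw [hAT]; exact h2⟩, ?_⟩, hAd⟩
      rw [← card_toN]; exact g3
    · funext v
      rw [hsl v v.2, hfv v v.2]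

/-- the sets counted -/
noncomputable def famK {n : ℕ} (M₁ M₂ : Matroid (Fin n)) (k : ℕ) : Finset (Finset (Fin n)) := by
  classical
  exact univ.filter fun A => M₁.Indep (A : Set (Fin n)) ∧ M₂.Indep (A : Set (Fin n)) ∧ A.card = k

theorem mem_famK {A : Finset (Fin n)} : A ∈ famK M₁ M₂ k ↔
    M₁.Indep (A : Set (Fin n)) ∧ M₂.Indep (A : Set (Fin n)) ∧ A.card = k := by
  classical
  unfold famK
  rw [mem_filter]
  simp

open Classical in
/-- **The number of solutions of the gadget matroids is the weighted number.** -/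
theorem card_sol (hL : 0 < L) (hP : IsPres n L w P) (hw : ∀ v < n, w v < 2 ^ L)
    (hk : k ≤ rkM M₂ univ) (G : Finset (Fin n) → Prop) :
    ((indSpan (lift M₁ k P (clF n L)) (lift M₂ k P (clT n L))).filter
      fun S => G (dcd n L (toN S))).card =
      ∑ A ∈ (famK M₁ M₂ k).filter G, ∏ v ∈ A, w v := by
  rw [Finset.card_eq_sum_card_fiberwise (f := fun S => dcd n L (toN S))
    (t := (famK M₁ M₂ k).filter G)]
  · refine Finset.sum_congr rfl fun A hA => ?_
    rw [mem_filter, mem_famK] at hA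
    rw [filter_filter, ← fiber_card (M₁ := M₁) (M₂ := M₂) hL hP hw hk hA.1.1 hA.1.2.1 hA.1.2.2]
    congr 1
    refine filter_congr fun S _ => ?_
    constructor
    · exact fun h => h.2
    · exact fun h => ⟨by rw [h]; exact hA.2, h⟩
  · intro S hS
    rw [mem_coe, mem_filter, mem_sol hL hP hk] at hS
    obtain ⟨⟨⟨hF, hF1⟩, ⟨hT, hT1⟩, hc⟩, hG⟩ := hS
    obtain ⟨hu, hs, -⟩ := confs_of hP (toN_sub S) hF hT (by rw [card_toN]; exact hc)
    rw [mem_coe, mem_filter, mem_famK]
    rw [dcd_coe] at hT1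
    have hF2 : {v : Fin n | 0 < uF L (toN S) v} = {v : Fin n | 0 < uT L (toN S) v} := by
      ext v
      simp only [Set.mem_ofPred_eq]
      rw [hu v v.2]
    rw [hF2, dcd_coe] at hF1
    refine ⟨⟨hF1, hT1, ?_⟩, hG⟩
    rw [← sum_dcd, hs]

end Vale.Agent.P317.H964
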