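import Vale.Agent.P317.H964.Tr
import Vale.Agent.P317.H964.W2

/-!
# P317 (helper964): program transformation simulating the oracles of the gadget matroids
-/

set_option linter.unusedSimpArgs false
set_option linter.unusedVariables false

namespace Vale.Agent.P317.H964

open Rnd Alg

/-- register 66 := element (register 64) in set register `X`; register 65 is increased if the
element is in `X`, but not present (set register 60) -/
def chkC (X : ℕ) : Cmd :=
  .seq (.mem 66 64 X) (.seq (.mem 67 64 60) (.seq (.sub 67 66 67) (.add 65 65 67)))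

/-- one slot, first matroid -/
def slotF (X : ℕ) : Cmd :=
  .seq (chkC X) (.seq (.add 64 64 61)
  (.seq (chkC X) (.seq (.add 71 66 72) (.seq (.add 64 64 61)
  (.seq (chkC X) (.seq (.add 71 71 66) (.seq (.add 64 64 61)
  (.seq (chkC X) (.seq (.add 69 69 66) (.seq (.add 64 64 61)
  (.seq (.mem 66 64 X) (.seq (.add 71 71 66) (.seq (.sub 71 71 61) (.add 65 65 71))))))))))))))

/-- one slot, second matroid -/
def slotT (X : ℕ) : Cmd :=
  .seq (chkC X) (.seq (.add 71 66 72) (.seq (.add 64 64 61)
  (.seq (chkC X) (.seq (.add 71 71 66) (.seq (.add 64 64 61)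
  (.seq (chkC X) (.seq (.add 71 71 66) (.seq (.add 64 64 61)
  (.seq (chkC X) (.seq (.add 71 71 66) (.seq (.add 64 64 61)
  (.seq (.sub 71 71 61) (.add 65 65 71)))))))))))))

variable {o : Bool → Finset ℕ → Bool} {P : Finset ℕ}

theorem run_chk (X : ℕ) (s : State) (hP : s.set 60 = P) :
    Ex (run o (chkC X) s) (fun t =>
      (∀ r, r ≠ 65 → r ≠ 66 → r ≠ 67 → t.num r = s.num r) ∧ t.set = s.set ∧
      t.time ≤ s.time + 4 ∧ t.num 66 = mm (s.set X) (s.num 64) ∧
      t.num 65 = s.num 65 + (mm (s.set X) (s.num 64) - mm P (s.num 64))) := by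
  refine ⟨_, rfl, ?_, rfl, ?_, ?_, ?_⟩
  · intro r h1 h2 h3
    simp [State.putNum, h1, h2, h3]
  · simp only [State.putNum]; omega
  · simp [State.putNum, mm]
  · simp [State.putNum, mm, hP]

/-- what a slot does -/
structure SlotQ (s t : State) (c g b u : ℕ) : Prop where
  num : ∀ r, r < 64 ∨ r = 68 ∨ r = 70 ∨ 72 ≤ r → t.num r = s.num r
  set : t.set = s.set
  time : t.time ≤ s.time + c
  g : t.num 64 = s.num 64 + g
  b : t.num 65 = s.num 65 + b
  u : t.num 69 = s.num 69 + u

/-- intermediate states of a slot: `g` elements treated, values of registers 65, 66, 69, 71 -/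
structure Mi (s t : State) (c g b x u a : ℕ) : Prop where
  num : ∀ r, r < 64 ∨ r = 68 ∨ r = 70 ∨ 72 ≤ r → t.num r = s.num r
  set : t.set = s.set
  time : t.time ≤ s.time + c
  g : t.num 64 = s.num 64 + g
  b : t.num 65 = s.num 65 + b
  x : t.num 66 = x
  u : t.num 69 = u
  a : t.num 71 = a

theorem Mi.chk {s t : State} {c g b x u a : ℕ} (h : Mi s t c g b x u a) (X : ℕ)
    (hP : s.set 60 = P) :
    Ex (run o (chkC X) t) (fun t' => Mi s t' (c + 4) g
      (b + (mm (s.set X) (s.num 64 + g) - mm P (s.num 64 + g))) (mm (s.set X) (s.num 64 + g)) u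
      a) := by
  refine (run_chk (P := P) X t (by rw [h.set]; exact hP)).mono ?_
  rintro t' ⟨h1, h2, h3, h4, h5⟩
  refine ⟨?_, by rw [h2, h.set], ?_, ?_, ?_, ?_, ?_, ?_⟩
  · intro r hr
    rw [h1 r (by omega) (by omega) (by omega)]; exact h.num r hr
  · have := h.time; omega
  · rw [h1 64 (by norm_num) (by norm_num) (by norm_num)]; exact h.g
  · rw [h5, h.b, h.set, h.g]; omega
  · rw [h4, h.set, h.g]
  · rw [h1 69 (by norm_num) (by norm_num) (by norm_num)]; exact h.u
  · rw [h1 71 (by norm_num) (by norm_num) (by norm_num)]; exact h.a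

theorem Mi.step {s t : State} {c g b x u a : ℕ} (h : Mi s t c g b x u a) (h61 : s.num 61 = 1) :
    Ex (run o (.add 64 64 61) t) (fun t' => Mi s t' (c + 1) (g + 1) b x u a) := by
  have e61 : t.num 61 = 1 := by rw [h.num 61 (by norm_num)]; exact h61
  refine ⟨_, rfl, ⟨?_, h.set, ?_, ?_, ?_, ?_, ?_, ?_⟩⟩
  · intro r hr
    simp (disch := omega) [State.putNum, Function.update_of_ne, h.num r hr]
  · have := h.time; simp only [State.putNum]; omega
  · simp [State.putNum, e61, h.g]; omega
  · simp [State.putNum, h.b]
  · simp [State.putNum, h.x]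
  · simp [State.putNum, h.u]
  · simp [State.putNum, h.a]

theorem Mi.seta {s t : State} {c g b x u a : ℕ} (h : Mi s t c g b x u a) (h72 : s.num 72 = 0) :
    Ex (run o (.add 71 66 72) t) (fun t' => Mi s t' (c + 1) g b x u x) := by
  have e72 : t.num 72 = 0 := by rw [h.num 72 (by norm_num)]; exact h72
  refine ⟨_, rfl, ⟨?_, h.set, ?_, ?_, ?_, ?_, ?_, ?_⟩⟩
  · intro r hr
    simp (disch := omega) [State.putNum, Function.update_of_ne, h.num r hr]
  · have := h.time; simp only [State.putNum]; omega
  · simp [State.putNum, h.g]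
  · simp [State.putNum, h.b]
  · simp [State.putNum, h.x]
  · simp [State.putNum, h.u]
  · simp [State.putNum, h.x, e72]

theorem Mi.adda {s t : State} {c g b x u a : ℕ} (h : Mi s t c g b x u a) :
    Ex (run o (.add 71 71 66) t) (fun t' => Mi s t' (c + 1) g b x u (a + x)) := by
  refine ⟨_, rfl, ⟨?_, h.set, ?_, ?_, ?_, ?_, ?_, ?_⟩⟩
  · intro r hr
    simp (disch := omega) [State.putNum, Function.update_of_ne, h.num r hr]
  · have := h.time; simp only [State.putNum]; omega
  · simp [State.putNum, h.g]
  · simp [State.putNum, h.b]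
  · simp [State.putNum, h.x]
  · simp [State.putNum, h.u]
  · simp [State.putNum, h.x, h.a]

theorem Mi.addu {s t : State} {c g b x u a : ℕ} (h : Mi s t c g b x u a) :
    Ex (run o (.add 69 69 66) t) (fun t' => Mi s t' (c + 1) g b x (u + x) a) := by
  refine ⟨_, rfl, ⟨?_, h.set, ?_, ?_, ?_, ?_, ?_, ?_⟩⟩
  · intro r hr
    simp (disch := omega) [State.putNum, Function.update_of_ne, h.num r hr]
  · have := h.time; simp only [State.putNum]; omega
  · simp [State.putNum, h.g]
  · simp [State.putNum, h.b]
  · simp [State.putNum, h.x]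
  · simp [State.putNum, h.u, h.x]
  · simp [State.putNum, h.a]

theorem Mi.memx {s t : State} {c g b x u a : ℕ} (h : Mi s t c g b x u a) (X : ℕ) :
    Ex (run o (.mem 66 64 X) t) (fun t' => Mi s t' (c + 1) g b (mm (s.set X) (s.num 64 + g)) u
      a) := by
  refine ⟨_, rfl, ⟨?_, h.set, ?_, ?_, ?_, ?_, ?_, ?_⟩⟩
  · intro r hr
    simp (disch := omega) [State.putNum, Function.update_of_ne, h.num r hr]
  · have := h.time; simp only [State.putNum]; omega
  · simp [State.putNum, h.g]
  · simp [State.putNum, h.b]
  · simp [State.putNum, h.g, h.set, mm]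
  · simp [State.putNum, h.u]
  · simp [State.putNum, h.a]

theorem Mi.fin {s t : State} {c b x u a : ℕ} (h : Mi s t c 4 b x (s.num 69 + u) a)
    (h61 : s.num 61 = 1) :
    Ex (run o (.seq (.sub 71 71 61) (.add 65 65 71)) t)
      (fun t' => SlotQ s t' (c + 2) 4 (b + (a - 1)) u) := by
  have e61 : t.num 61 = 1 := by rw [h.num 61 (by norm_num)]; exact h61
  refine ⟨_, rfl, ⟨?_, h.set, ?_, ?_, ?_, ?_⟩⟩
  · intro r hr
    simp (disch := omega) [State.putNum, Function.update_of_ne, h.num r hr]
  · have := h.time; simp only [State.putNum]; omega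
  · simp [State.putNum, h.g]
  · simp [State.putNum, h.b, h.a, e61]; omega
  · simp [State.putNum, h.u]

theorem Mi.init (s : State) : Mi s s 0 0 0 (s.num 66) (s.num 69) (s.num 71) :=
  ⟨fun _ _ => rfl, rfl, le_rfl, rfl, rfl, rfl, rfl, rfl⟩

theorem run_slotF (X : ℕ) (s : State) (hP : s.set 60 = P) (h61 : s.num 61 = 1)
    (h72 : s.num 72 = 0) :
    Ex (run o (slotF X) s) (fun t => SlotQ s t 28 4 (bF (s.set X) P (s.num 64))
      (mm (s.set X) (s.num 64 + 3))) := by
  unfold slotF
  refine ((Mi.init s).chk X hP).seq fun t h => ?_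
  refine (h.step h61).seq fun t h => ?_
  refine (h.chk X hP).seq fun t h => ?_
  refine (h.seta h72).seq fun t h => ?_
  refine (h.step h61).seq fun t h => ?_
  refine (h.chk X hP).seq fun t h => ?_
  refine h.adda.seq fun t h => ?_
  refine (h.step h61).seq fun t h => ?_
  refine (h.chk X hP).seq fun t h => ?_
  refine h.addu.seq fun t h => ?_
  refine (h.step h61).seq fun t h => ?_
  refine (h.memx X).seq fun t h => ?_
  refine h.adda.seq fun t h => ?_
  refine (h.fin h61).mono fun t h => ?_
  refine ⟨h.num, h.set, ?_, h.g, ?_, h.u⟩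
  · have := h.time; omega
  · rw [h.b]
    unfold bF prs
    simp only [Nat.zero_add, Nat.add_zero]

theorem run_slotT (X : ℕ) (s : State) (hP : s.set 60 = P) (h61 : s.num 61 = 1)
    (h72 : s.num 72 = 0) :
    Ex (run o (slotT X) s) (fun t => SlotQ s t 28 4 (bT (s.set X) P (s.num 64)) 0) := by
  unfold slotT
  refine ((Mi.init s).chk X hP).seq fun t h => ?_
  refine (h.seta h72).seq fun t h => ?_
  refine (h.step h61).seq fun t h => ?_
  refine (h.chk X hP).seq fun t h => ?_
  refine h.adda.seq fun t h => ?_
  refine (h.step h61).seq fun t h => ?_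
  refine (h.chk X hP).seq fun t h => ?_
  refine h.adda.seq fun t h => ?_
  refine (h.step h61).seq fun t h => ?_
  refine (h.chk X hP).seq fun t h => ?_
  refine h.adda.seq fun t h => ?_
  refine (h.step h61).seq fun t h => ?_
  refine (Mi.fin (u := 0) h h61).mono fun t h => ?_
  refine ⟨h.num, h.set, ?_, h.g, ?_, h.u⟩
  · have := h.time; omega
  · rw [h.b]
    unfold bT prs
    simp only [Nat.zero_add, Nat.add_zero]

theorem run_slots {L : ℕ} {body : Cmd} {X : ℕ} (s : State) (b u : ℕ → ℕ)
    (h63 : s.num 63 = L + 1)
    (hb : ∀ t : State, t.set X = s.set X → t.set 60 = s.set 60 → t.num 61 = s.num 61 →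
      t.num 72 = s.num 72 → Ex (run o body t) (fun t' => SlotQ t t' 28 4 (b (t.num 64))
        (u (t.num 64)))) :
    Ex (run o (.loop 63 body) s) (fun t => SlotQ s t (29 * (L + 1) + 1) (4 * (L + 1))
      (∑ r ∈ Finset.range (L + 1), b (s.num 64 + 4 * r))
      (∑ r ∈ Finset.range (L + 1), u (s.num 64 + 4 * r))) := by
  set Inv : ℕ → State → Prop := fun m t => SlotQ s t (29 * m + 1) (4 * m)
    (∑ r ∈ Finset.range m, b (s.num 64 + 4 * r)) (∑ r ∈ Finset.range m, u (s.num 64 + 4 * r))
    with hInv
  have hstep : ∀ i t, Inv i t → Ex (run o body t.tick) (Inv (i + 1)) := by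
    rintro m t h
    refine (hb t.tick (by simp [State.tick, h.set]) (by simp [State.tick, h.set])
      (by simp only [State.tick]; exact h.num 61 (by norm_num))
      (by simp only [State.tick]; exact h.num 72 (by norm_num))).mono ?_
    intro t' h'
    have eg : t.tick.num 64 = s.num 64 + 4 * m := h.g
    rw [eg] at h'
    refine ⟨?_, ?_, ?_, ?_, ?_, ?_⟩
    · intro r hr
      rw [h'.num r hr]; exact h.num r hr
    · rw [h'.set]; exact h.set
    · have h1 := h'.time
      have h2 := h.time
      simp only [State.tick] at h1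
      omega
    · rw [h'.g, eg]; ring
    · rw [h'.b, Finset.sum_range_succ]
      simp only [State.tick]
      rw [h.b]; ring
    · rw [h'.u, Finset.sum_range_succ]
      simp only [State.tick]
      rw [h.u]; ring
  have h0 : Inv 0 s.tick := by
    refine ⟨fun _ _ => rfl, rfl, ?_, ?_, ?_, ?_⟩
    · simp only [State.tick]; omega
    all_goals simp [State.tick]
  have hloop := ex_loop hstep (L + 1) 0 _ h0
  rw [Nat.zero_add] at hloop
  have e : run o (.loop 63 body) s = iter (run o body) (L + 1) s.tick := by
    rw [← h63]; rfl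
  rw [e]
  exact hloop

/-! ### one gadget -/

/-- treatment of the port -/
def tailC : Cmd :=
  .seq (.cond 72 69 (.insert 61 68) (.const 67 0))
    (.seq (.sub 67 69 61) (.seq (.add 65 65 67) (.seq (.add 70 70 69) (.add 68 68 61))))

/-- one gadget, first matroid -/
def bodyF (X : ℕ) : Cmd := .seq (.const 69 0) (.seq (.loop 63 (slotF X)) tailC)

/-- one gadget, second matroid -/
def bodyT (X : ℕ) : Cmd :=
  .seq (.add 67 64 61) (.seq (.mem 69 67 X) (.seq (.loop 63 (slotT X)) tailC))

/-- what the treatment of a gadget does -/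
structure BodyQ (s t : State) (c g b u : ℕ) : Prop where
  num : ∀ r, r < 64 ∨ 72 ≤ r → t.num r = s.num r
  set : ∀ X, X ≠ 61 → t.set X = s.set X
  set61 : t.set 61 = if 0 < u then insert (s.num 68) (s.set 61) else s.set 61
  time : t.time ≤ s.time + c
  g : t.num 64 = s.num 64 + g
  b : t.num 65 = s.num 65 + (b + (u - 1))
  v : t.num 68 = s.num 68 + 1
  c : t.num 70 = s.num 70 + u

theorem run_tail {s t : State} {c g b u u' : ℕ} (h : SlotQ s t c g b u') (e69 : t.num 69 = u)
    (h61 : s.num 61 = 1) (h72 : s.num 72 = 0) :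
    Ex (run o tailC t) (fun t' => BodyQ s t' (c + 6) g b u) := by
  have e61 : t.num 61 = 1 := by rw [h.num 61 (by norm_num)]; exact h61
  have e72 : t.num 72 = 0 := by rw [h.num 72 (by norm_num)]; exact h72
  have e68 : t.num 68 = s.num 68 := h.num 68 (by norm_num)
  have e70 : t.num 70 = s.num 70 := h.num 70 (by norm_num)
  by_cases hu : 0 < u
  · have hc : t.num 72 < t.num 69 := by rw [e72, e69]; exact hu
    unfold Ex
    simp only [tailC, run, if_pos hc, bind_leaf]
    refine ⟨_, rfl, ?_, ?_, ?_, ?_, ?_, ?_, ?_, ?_⟩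
    · intro r hr
      simp (disch := omega) [State.putNum, State.putSet, State.tick, Function.update_of_ne]
      exact h.num r (by omega)
    · intro X hX
      simp [State.putNum, State.putSet, State.tick, hX, h.set]
    · simp [State.putNum, State.putSet, State.tick, hu, e68, h.set]
    · have := h.time
      simp only [State.putNum, State.putSet, State.tick]; omega
    · simp [State.putNum, State.putSet, State.tick, h.g]
    · simp [State.putNum, State.putSet, State.tick, h.b, e69, e61]; omega
    · simp [State.putNum, State.putSet, State.tick, e68, e61]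
    · simp [State.putNum, State.putSet, State.tick, e70, e69]
  · have hc : ¬ t.num 72 < t.num 69 := by rw [e72, e69]; exact hu
    unfold Ex
    simp only [tailC, run, if_neg hc, bind_leaf]
    refine ⟨_, rfl, ?_, ?_, ?_, ?_, ?_, ?_, ?_, ?_⟩
    · intro r hr
      simp (disch := omega) [State.putNum, State.putSet, State.tick, Function.update_of_ne]
      exact h.num r (by omega)
    · intro X hX
      simp [State.putNum, State.putSet, State.tick, hX, h.set]
    · simp [State.putNum, State.putSet, State.tick, hu, h.set]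
    · have := h.time
      simp only [State.putNum, State.putSet, State.tick]; omega
    · simp [State.putNum, State.putSet, State.tick, h.g]
    · simp [State.putNum, State.putSet, State.tick, h.b, e69, e61]; omega
    · simp [State.putNum, State.putSet, State.tick, e68, e61]
    · simp [State.putNum, State.putSet, State.tick, e70, e69]

theorem run_bodyF {L : ℕ} (X : ℕ) (s : State) (hP : s.set 60 = P) (h61 : s.num 61 = 1)
    (h63 : s.num 63 = L + 1) (h72 : s.num 72 = 0) :
    Ex (run o (bodyF X) s) (fun t => BodyQ s t (29 * (L + 1) + 9) (4 * (L + 1))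
      (∑ r ∈ Finset.range (L + 1), bF (s.set X) P (s.num 64 + 4 * r))
      (∑ r ∈ Finset.range (L + 1), mm (s.set X) (s.num 64 + 4 * r + 3))) := by
  unfold bodyF
  have h0 : Ex (run o (.const 69 0) s) (fun t => t = s.putNum 69 0) := ⟨_, rfl, rfl⟩
  refine h0.seq ?_
  rintro t rfl
  refine (run_slots (L := L) (X := X) (s.putNum 69 0) (fun g => bF (s.set X) P g)
    (fun g => mm (s.set X) (g + 3)) (by simp [State.putNum, h63]) ?_).seq ?_
  · intro t h1 h2 h3 h4
    have h1 : t.set X = s.set X := h1
    have h2 : t.set 60 = s.set 60 := h2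
    have := run_slotF (o := o) (P := P) X t (by rw [h2, hP])
      (by rw [h3]; simp [State.putNum, h61]) (by rw [h4]; simp [State.putNum, h72])
    rwa [h1] at this
  · intro t h
    refine (run_tail h (u := ∑ r ∈ Finset.range (L + 1), mm (s.set X) (s.num 64 + 4 * r + 3))
      (by rw [h.u]; simp [State.putNum]) (by simp [State.putNum, h61])
      (by simp [State.putNum, h72])).mono ?_
    intro t' h'
    refine ⟨?_, ?_, ?_, ?_, ?_, ?_, ?_, ?_⟩
    · intro r hr
      rw [h'.num r hr]
      simp (disch := omega) [State.putNum, Function.update_of_ne]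
    · intro Y hY
      rw [h'.set Y hY]
      rfl
    · rw [h'.set61]
      simp [State.putNum]
    · have := h'.time
      simp only [State.putNum] at this
      omega
    · rw [h'.g]; simp [State.putNum]
    · rw [h'.b]; simp [State.putNum]
    · rw [h'.v]; simp [State.putNum]
    · rw [h'.c]; simp [State.putNum]

theorem run_bodyT {L : ℕ} (X : ℕ) (s : State) (hP : s.set 60 = P) (h61 : s.num 61 = 1)
    (h63 : s.num 63 = L + 1) (h72 : s.num 72 = 0) :
    Ex (run o (bodyT X) s) (fun t => BodyQ s t (29 * (L + 1) + 9) (4 * (L + 1))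
      (∑ r ∈ Finset.range (L + 1), bT (s.set X) P (s.num 64 + 4 * r))
      (mm (s.set X) (s.num 64 + 1))) := by
  unfold bodyT
  have h0 : Ex (run o (.add 67 64 61) s) (fun t => t = s.putNum 67 (s.num 64 + 1)) :=
    ⟨_, rfl, by rw [h61]⟩
  refine h0.seq ?_
  rintro t rfl
  set s₂ := (s.putNum 67 (s.num 64 + 1)).putNum 69 (mm (s.set X) (s.num 64 + 1)) with hs2
  have h1 : Ex (run o (.mem 69 67 X) (s.putNum 67 (s.num 64 + 1))) (fun t => t = s₂) := by
    refine ⟨_, rfl, ?_⟩
    rw [hs2]
    simp [State.putNum, mm]
  refine h1.seq ?_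
  rintro t rfl
  refine (run_slots (L := L) (X := X) s₂ (fun g => bT (s.set X) P g)
    (fun g => 0) (by simp [hs2, State.putNum, h63]) ?_).seq ?_
  · intro t h1 h2 h3 h4
    have h1 : t.set X = s.set X := h1
    have h2 : t.set 60 = s.set 60 := h2
    have := run_slotT (o := o) (P := P) X t (by rw [h2, hP])
      (by rw [h3]; simp [hs2, State.putNum, h61]) (by rw [h4]; simp [hs2, State.putNum, h72])
    rwa [h1] at this
  · intro t h
    refine (run_tail h (u := mm (s.set X) (s.num 64 + 1))
      (by rw [h.u]; simp [hs2, State.putNum]) (by simp [hs2, State.putNum, h61])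
      (by simp [hs2, State.putNum, h72])).mono ?_
    intro t' h'
    refine ⟨?_, ?_, ?_, ?_, ?_, ?_, ?_, ?_⟩
    · intro r hr
      rw [h'.num r hr]
      simp (disch := omega) [hs2, State.putNum, Function.update_of_ne]
    · intro Y hY
      rw [h'.set Y hY]
      rfl
    · rw [h'.set61]
      simp [hs2, State.putNum]
    · have := h'.time
      simp only [hs2, State.putNum] at this
      omega
    · rw [h'.g]; simp [hs2, State.putNum]
    · rw [h'.b]; simp [hs2, State.putNum]
    · rw [h'.v]; simp [hs2, State.putNum]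
    · rw [h'.c]; simp [hs2, State.putNum]

/-! ### all gadgets -/

/-- question to the oracle of a gadget matroid -/
def askW (i : Bool) (x X : ℕ) : Cmd :=
  .seq (.clear 61) (.seq (.const 64 0) (.seq (.const 65 0) (.seq (.const 68 0) (.seq (.const 70 0)
    (.seq (.loop 60 (if i then bodyT X else bodyF X))
      (.seq (.sub 67 70 62) (.seq (.add 65 65 67)
        (.cond 72 65 (.const x 0) (.ask i x 61)))))))))

/-- defects -/
def bI (i : Bool) (S P : Finset ℕ) : ℕ → ℕ := if i then bT S P else bF S P

/-- ports -/
def uI (i : Bool) (L : ℕ) (S : Finset ℕ) : ℕ → ℕ := if i then uT L S else uF L S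

theorem run_bodyI {L v : ℕ} (i : Bool) (X : ℕ) (s : State) (hP : s.set 60 = P)
    (h61 : s.num 61 = 1) (h63 : s.num 63 = L + 1) (h72 : s.num 72 = 0)
    (h64 : s.num 64 = 4 * (L + 1) * v) :
    Ex (run o (if i then bodyT X else bodyF X) s) (fun t => BodyQ s t (29 * (L + 1) + 9)
      (4 * (L + 1)) (∑ r ∈ Finset.range (L + 1), bI i (s.set X) P (4 * (L + 1) * v + 4 * r))
      (uI i L (s.set X) v)) := by
  cases i
  · have := run_bodyF (o := o) (L := L) X s hP h61 h63 h72
    rw [h64] at this
    simpa [bI, uI, uF] using this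
  · have := run_bodyT (o := o) (L := L) X s hP h61 h63 h72
    rw [h64] at this
    simpa [bI, uI, uT] using this

/-- the oracles of the gadget matroids -/
def oW (n k L : ℕ) (P : Finset ℕ) (o : Bool → Finset ℕ → Bool) (i : Bool) (S : Finset ℕ) : Bool :=
  decide (bad n k L (bI i S P) (uI i L S) = 0) &&
    o i ((Finset.range n).filter fun v => 0 < uI i L S v)

/-- cost of a question -/
def cW (n L : ℕ) : ℕ := n * (29 * (L + 1) + 10) + 12

/-- states of the transformed and of the original program -/
structure Wq (n k L : ℕ) (P : Finset ℕ) (C : ℕ) (s' s : State) : Prop where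
  num : ∀ r < 60, s'.num r = s.num r
  set : ∀ X < 60, s'.set X = s.set X
  n60 : s'.num 60 = n
  one : s'.num 61 = 1
  k62 : s'.num 62 = k
  l63 : s'.num 63 = L + 1
  z72 : s'.num 72 = 0
  k73 : s'.num 73 = 4 * (L + 1)
  s60 : s'.set 60 = P
  time : s'.time ≤ C + cW n L * s.time

theorem run_askW {n k L C : ℕ} {s' s : State} {i : Bool} {x X : ℕ} (hx : x < 60) (hX : X < 60)
    (h : Wq n k L P C s' s) :
    Sim (Wq n k L P C) (run o (askW i x X) s') (run (oW n k L P o) (.ask i x X) s) := by
  set S := s.set X with hS
  set b := bI i S P with hb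
  set u := uI i L S with hu
  set Inv : ℕ → State → Prop := fun m t =>
    (∀ r, r < 64 ∨ 72 ≤ r → t.num r = s'.num r) ∧ (∀ Y, Y ≠ 61 → t.set Y = s'.set Y) ∧
    t.set 61 = (Finset.range m).filter (fun v => 0 < u v) ∧
    t.num 64 = 4 * (L + 1) * m ∧ t.num 68 = m ∧ t.num 70 = ∑ v ∈ Finset.range m, u v ∧
    t.num 65 = ∑ v ∈ Finset.range m,
      (∑ r ∈ Finset.range (L + 1), b (4 * (L + 1) * v + 4 * r) + (u v - 1)) ∧
    t.time ≤ s'.time + (29 * (L + 1) + 10) * m + 6 with hInv
  have hstep : ∀ m t, Inv m t → Ex (run o (if i then bodyT X else bodyF X) t.tick)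
      (Inv (m + 1)) := by
    rintro m t ⟨h1, h2, h3, h4, h5, h6, h7, h8⟩
    have hSt : t.tick.set X = S := by
      show t.set X = S
      rw [h2 X (by omega), h.set X hX]
    refine (run_bodyI (o := o) (P := P) (L := L) (v := m) i X t.tick ?_ ?_ ?_ ?_ ?_).mono ?_
    · show t.set 60 = P
      rw [h2 60 (by norm_num)]; exact h.s60
    · show t.num 61 = 1
      rw [h1 61 (by norm_num)]; exact h.one
    · show t.num 63 = L + 1
      rw [h1 63 (by norm_num)]; exact h.l63
    · show t.num 72 = 0
      rw [h1 72 (by norm_num)]; exact h.z72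
    · exact h4
    · intro t' q
      rw [hSt, ← hb, ← hu] at q
      refine ⟨?_, ?_, ?_, ?_, ?_, ?_, ?_, ?_⟩
      · intro r hr
        rw [q.num r hr]; exact h1 r hr
      · intro Y hY
        rw [q.set Y hY]; exact h2 Y hY
      · rw [q.set61]
        have e1 : t.tick.set 61 = (Finset.range m).filter (fun v => 0 < u v) := h3
        have e2 : t.tick.num 68 = m := h5
        rw [e1, e2, Finset.range_add_one, Finset.filter_insert]
      · rw [q.g]
        have e1 : t.tick.num 64 = 4 * (L + 1) * m := h4
        rw [e1]; ring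
      · rw [q.v]
        have e1 : t.tick.num 68 = m := h5
        rw [e1]
      · rw [q.c, Finset.sum_range_succ]
        have e1 : t.tick.num 70 = ∑ v ∈ Finset.range m, u v := h6
        rw [e1]
      · have e1 : t.tick.num 65 = _ := h7
        rw [q.b, e1]
        exact (Finset.sum_range_succ (fun v => ∑ r ∈ Finset.range (L + 1),
          b (4 * (L + 1) * v + 4 * r) + (u v - 1)) m).symm
      · have e1 := q.time
        have e2 : t.tick.time = t.time + 1 := rfl
        rw [e2] at e1
        have e3 : (29 * (L + 1) + 10) * (m + 1) = (29 * (L + 1) + 10) * m + (29 * (L + 1) + 10) := by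
          ring
        rw [e3]
        omega
  set s₁ := ((((s'.putSet 61 ∅).putNum 64 0).putNum 65 0).putNum 68 0).putNum 70 0 with hs1
  have h0 : Inv 0 s₁.tick := by
    refine ⟨?_, ?_, ?_, ?_, ?_, ?_, ?_, ?_⟩
    · intro r hr
      simp (disch := omega) [hs1, State.putNum, State.putSet, State.tick, Function.update_of_ne]
    · intro Y hY
      simp [hs1, State.putNum, State.putSet, State.tick, hY]
    · simp [hs1, State.putNum, State.putSet, State.tick]
    · simp [hs1, State.putNum, State.putSet, State.tick]
    · simp [hs1, State.putNum, State.putSet, State.tick]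
    · simp [hs1, State.putNum, State.putSet, State.tick]
    · simp [hs1, State.putNum, State.putSet, State.tick]
    · simp only [hs1, State.putNum, State.putSet, State.tick]; omega
  have hloop := ex_loop hstep n 0 _ h0
  rw [Nat.zero_add] at hloop
  have hn : s₁.num 60 = n := by simp [hs1, State.putNum, State.putSet, h.n60]
  obtain ⟨t, ht, h1, h2, h3, h4, h5, h6, h7, h8⟩ := hloop
  have e : run o (askW i x X) s' = run o (.seq (.sub 67 70 62) (.seq (.add 65 65 67)
        (.cond 72 65 (.const x 0) (.ask i x 61)))) t := by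
    have : run o (askW i x X) s' = (iter (run o (if i then bodyT X else bodyF X)) (s₁.num 60)
        s₁.tick).bind (run o (.seq (.sub 67 70 62) (.seq (.add 65 65 67)
        (.cond 72 65 (.const x 0) (.ask i x 61))))) := rfl
    rw [this, hn, ht]
    rfl
  rw [e]
  set t₂ := (t.putNum 67 (t.num 70 - t.num 62)).putNum 65 (bad n k L b u) with ht2
  have e2 : run o (.seq (.sub 67 70 62) (.seq (.add 65 65 67)
        (.cond 72 65 (.const x 0) (.ask i x 61)))) t =
      run o (.cond 72 65 (.const x 0) (.ask i x 61)) t₂ := by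
    have hb' : bad n k L b u = t.num 65 + (t.num 70 - t.num 62) := by
      rw [h7, h6, h1 62 (by norm_num), h.k62]; rfl
    have : run o (.seq (.sub 67 70 62) (.seq (.add 65 65 67)
        (.cond 72 65 (.const x 0) (.ask i x 61)))) t =
        run o (.cond 72 65 (.const x 0) (.ask i x 61))
          ((t.putNum 67 (t.num 70 - t.num 62)).putNum 65
            ((t.putNum 67 (t.num 70 - t.num 62)).num 65 +
              (t.putNum 67 (t.num 70 - t.num 62)).num 67)) := rfl
    rw [this, ht2, hb']
    simp [State.putNum]
  rw [e2]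
  have et72 : t₂.num 72 = 0 := by
    simp [ht2, State.putNum]
    rw [h1 72 (by norm_num)]; exact h.z72
  have et65 : t₂.num 65 = bad n k L b u := by simp [ht2, State.putNum]
  have et61 : t₂.set 61 = (Finset.range n).filter (fun v => 0 < u v) := by
    simp only [ht2, State.putNum]; exact h3
  have ett : t₂.time ≤ s'.time + (29 * (L + 1) + 10) * n + 8 := by
    simp only [ht2, State.putNum]; omega
  have hgo : ∀ v : ℕ, ∀ t' : State, t' = (t₂.tick).putNum x v →
      Wq n k L P C t' (s.putNum x v) := by
    rintro v t' rfl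
    refine ⟨?_, ?_, ?_, ?_, ?_, ?_, ?_, ?_, ?_, ?_⟩
    · intro r hr
      simp only [State.putNum, State.tick, Function.update_apply, ht2]
      split_ifs
      · rfl
      · omega
      · omega
      · rw [h1 r (by omega)]; exact h.num r hr
    · intro Y hY
      simp only [State.putNum, State.tick, ht2]
      rw [h2 Y (by omega)]; exact h.set Y hY
    · simp only [State.putNum, State.tick, ht2]
      rw [Function.update_of_ne (by omega), Function.update_of_ne (by omega),
        Function.update_of_ne (by omega), h1 _ (by norm_num)]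
      exact h.n60
    · simp only [State.putNum, State.tick, ht2]
      rw [Function.update_of_ne (by omega), Function.update_of_ne (by omega),
        Function.update_of_ne (by omega), h1 _ (by norm_num)]
      exact h.one
    · simp only [State.putNum, State.tick, ht2]
      rw [Function.update_of_ne (by omega), Function.update_of_ne (by omega),
        Function.update_of_ne (by omega), h1 _ (by norm_num)]
      exact h.k62
    · simp only [State.putNum, State.tick, ht2]
      rw [Function.update_of_ne (by omega), Function.update_of_ne (by omega),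
        Function.update_of_ne (by omega), h1 _ (by norm_num)]
      exact h.l63
    · simp only [State.putNum, State.tick, ht2]
      rw [Function.update_of_ne (by omega), Function.update_of_ne (by omega),
        Function.update_of_ne (by omega), h1 _ (by norm_num)]
      exact h.z72
    · simp only [State.putNum, State.tick, ht2]
      rw [Function.update_of_ne (by omega), Function.update_of_ne (by omega),
        Function.update_of_ne (by omega), h1 _ (by norm_num)]
      exact h.k73
    · simp only [State.putNum, State.tick, ht2]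
      rw [h2 60 (by norm_num)]; exact h.s60
    · have := h.time
      have e1 : ((t₂.tick).putNum x v).time = t₂.time + 2 := rfl
      have e3 : (s.putNum x v).time = s.time + 1 := rfl
      rw [e1, e3]
      have e4 : C + cW n L * (s.time + 1) = C + cW n L * s.time + cW n L := by ring
      rw [e4]
      unfold cW at *
      have e5 : (29 * (L + 1) + 10) * n = n * (29 * (L + 1) + 10) := by ring
      rw [e5] at ett
      generalize (n * (29 * (L + 1) + 10) + 12) * s.time = w at *
      generalize n * (29 * (L + 1) + 10) = z at *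
      omega
  by_cases hc : 0 < bad n k L b u
  · have hc' : t₂.num 72 < t₂.num 65 := by rw [et72, et65]; exact hc
    have e4 : run o (.cond 72 65 (.const x 0) (.ask i x 61)) t₂ = .leaf ((t₂.tick).putNum x 0) := by
      simp only [run, if_pos hc']
    have e3 : oW n k L P o i (s.set X) = false := by
      unfold oW
      rw [← hS, ← hb, ← hu, decide_eq_false (by omega), Bool.false_and]
    rw [e4]
    simp only [run, e3]
    exact hgo 0 _ rfl
  · have hc' : ¬ t₂.num 72 < t₂.num 65 := by rw [et72, et65]; exact hc
    have e4 : run o (.cond 72 65 (.const x 0) (.ask i x 61)) t₂ =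
        .leaf ((t₂.tick).putNum x
          (if o i ((Finset.range n).filter (fun v => 0 < u v)) then 1 else 0)) := by
      have : run o (.cond 72 65 (.const x 0) (.ask i x 61)) t₂ =
        run o (.ask i x 61) t₂.tick := by
        simp only [run, if_neg hc']
      rw [this]
      have e5 : t₂.tick.set 61 = (Finset.range n).filter (fun v => 0 < u v) := et61
      simp only [run, e5]
    have e3 : oW n k L P o i (s.set X) = o i ((Finset.range n).filter (fun v => 0 < u v)) := by
      unfold oW
      rw [← hS, ← hb, ← hu, decide_eq_true (by omega), Bool.true_and]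
    rw [e4]
    simp only [run, e3]
    exact hgo _ _ rfl

end Vale.Agent.P317.H964
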