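import Vale.Agent.P317.H964.W5
import Vale.Agent.P317.H964.W6
import Vale.Agent.P317.H964.SampMain

/-!
# P317 (helper964): the simulation of a whole program; preparation
-/

set_option linter.unusedSimpArgs false
set_option linter.unusedVariables false

namespace Vale.Agent.P317.H964

open Rnd Alg

/-- all set registers of the program are below `R` -/
def lowS (R : ℕ) : Cmd → Bool
  | .const _ _ => true
  | .add _ _ _ => true
  | .sub _ _ _ => true
  | .coin _ => true
  | .clear S => decide (S < R)
  | .copy S T => decide (S < R) && decide (T < R)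
  | .insert S _ => decide (S < R)
  | .erase S _ => decide (S < R)
  | .mem _ _ S => decide (S < R)
  | .ask _ _ S => decide (S < R)
  | .seq c d => lowS R c && lowS R d
  | .cond _ _ c d => lowS R c && lowS R d
  | .loop _ c => lowS R c

/-- the transformed program -/
def trW : Cmd → Cmd
  | .const x c => .const x c
  | .add x y z => .add x y z
  | .sub x y z => .sub x y z
  | .coin x => .coin x
  | .clear S => .clear S
  | .copy S T => .copy S T
  | .insert S x => .insert S x
  | .erase S x => .erase S x
  | .mem x y S => .mem x y S
  | .ask i x S => askW i x S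
  | .seq c d => .seq (trW c) (trW d)
  | .cond x y c d => .cond x y (trW c) (trW d)
  | .loop x c => .loop x (trW c)

variable {n k L C : ℕ} {P : Finset ℕ} {s s' : State} {o : Bool → Finset ℕ → Bool}

theorem cW_pos : 1 ≤ cW n L := by unfold cW; omega

theorem Wq.time1 (h : Wq n k L P C s' s) : s'.time + 1 ≤ C + cW n L * (s.time + 1) := by
  have := h.time
  have e : C + cW n L * (s.time + 1) = C + cW n L * s.time + cW n L := by ring
  have := cW_pos (n := n) (L := L)
  rw [e]
  omega

theorem Wq.put (h : Wq n k L P C s' s) {x : ℕ} (hx : x < 60) (v : ℕ) :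
    Wq n k L P C (s'.putNum x v) (s.putNum x v) := by
  refine ⟨?_, h.set, ?_, ?_, ?_, ?_, ?_, ?_, h.s60, h.time1⟩
  · intro r hr
    simp only [State.putNum, Function.update_apply]
    split_ifs
    · rfl
    · exact h.num r hr
  · rw [State.putNum]; simp only; rw [Function.update_of_ne (by omega)]; exact h.n60
  · rw [State.putNum]; simp only; rw [Function.update_of_ne (by omega)]; exact h.one
  · rw [State.putNum]; simp only; rw [Function.update_of_ne (by omega)]; exact h.k62
  · rw [State.putNum]; simp only; rw [Function.update_of_ne (by omega)]; exact h.l63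
  · rw [State.putNum]; simp only; rw [Function.update_of_ne (by omega)]; exact h.z72
  · rw [State.putNum]; simp only; rw [Function.update_of_ne (by omega)]; exact h.k73

theorem Wq.putS (h : Wq n k L P C s' s) {X : ℕ} (hX : X < 60) (v : Finset ℕ) :
    Wq n k L P C (s'.putSet X v) (s.putSet X v) := by
  refine ⟨h.num, ?_, h.n60, h.one, h.k62, h.l63, h.z72, h.k73, ?_, h.time1⟩
  · intro Y hY
    simp only [State.putSet, Function.update_apply]
    split_ifs
    · rfl
    · exact h.set Y hY
  · rw [State.putSet]; simp only; rw [Function.update_of_ne (by omega)]; exact h.s60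

theorem Wq.tick (h : Wq n k L P C s' s) : Wq n k L P C s'.tick s.tick :=
  ⟨h.num, h.set, h.n60, h.one, h.k62, h.l63, h.z72, h.k73, h.s60, h.time1⟩

theorem sim_trW (c : Cmd) (hc : lowN 60 c = true) (hs : lowS 60 c = true) :
    ∀ s' s, Wq n k L P C s' s →
    Sim (Wq n k L P C) (run o (trW c) s') (run (oW n k L P o) c s) := by
  induction c with
  | const x c =>
    intro s' s h
    simp only [lowN, decide_eq_true_eq] at hc
    exact h.put hc c
  | add x y z =>
    intro s' s h
    simp only [lowN, Bool.and_eq_true, decide_eq_true_eq] at hc
    have := h.put hc.1.1 (s.num y + s.num z)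
    simp only [trW, run, h.num y hc.1.2, h.num z hc.2]
    exact this
  | sub x y z =>
    intro s' s h
    simp only [lowN, Bool.and_eq_true, decide_eq_true_eq] at hc
    have := h.put hc.1.1 (s.num y - s.num z)
    simp only [trW, run, h.num y hc.1.2, h.num z hc.2]
    exact this
  | coin x =>
    intro s' s h
    simp only [lowN, decide_eq_true_eq] at hc
    exact ⟨h.put hc 0, h.put hc 1⟩
  | clear S =>
    intro s' s h
    simp only [lowS, decide_eq_true_eq] at hs
    exact h.putS hs ∅
  | copy S T =>
    intro s' s h
    simp only [lowS, Bool.and_eq_true, decide_eq_true_eq] at hs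
    have := h.putS hs.1 (s.set T)
    simp only [trW, run, h.set T hs.2]
    exact this
  | insert S x =>
    intro s' s h
    simp only [lowN, decide_eq_true_eq] at hc
    simp only [lowS, decide_eq_true_eq] at hs
    have := h.putS hs (insert (s.num x) (s.set S))
    simp only [trW, run, h.set S hs, h.num x hc]
    exact this
  | erase S x =>
    intro s' s h
    simp only [lowN, decide_eq_true_eq] at hc
    simp only [lowS, decide_eq_true_eq] at hs
    have := h.putS hs ((s.set S).erase (s.num x))
    simp only [trW, run, h.set S hs, h.num x hc]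
    exact this
  | mem x y S =>
    intro s' s h
    simp only [lowN, Bool.and_eq_true, decide_eq_true_eq] at hc
    simp only [lowS, decide_eq_true_eq] at hs
    have := h.put hc.1 (if s.num y ∈ s.set S then 1 else 0)
    simp only [trW, run, h.set S hs, h.num y hc.2]
    exact this
  | ask i x S =>
    intro s' s h
    simp only [lowN, decide_eq_true_eq] at hc
    simp only [lowS, decide_eq_true_eq] at hs
    exact run_askW hc hs h
  | seq c d ihc ihd =>
    intro s' s h
    simp only [lowN, Bool.and_eq_true] at hc
    simp only [lowS, Bool.and_eq_true] at hs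
    simp only [trW, run]
    exact (ihc hc.1 hs.1 s' s h).bind (ihd hc.2 hs.2)
  | cond x y c d ihc ihd =>
    intro s' s h
    simp only [lowN, Bool.and_eq_true, decide_eq_true_eq] at hc
    simp only [lowS, Bool.and_eq_true] at hs
    simp only [trW, run, h.num x hc.1.1.1, h.num y hc.1.1.2]
    split_ifs
    · exact ihc hc.1.2 hs.1 _ _ h.tick
    · exact ihd hc.2 hs.2 _ _ h.tick
  | loop x c ih =>
    intro s' s h
    simp only [lowN, Bool.and_eq_true, decide_eq_true_eq] at hc
    simp only [lowS] at hs
    simp only [trW, run, h.num x hc.1]
    exact sim_iter2 (fun s' s hh => ih hc.2 hs _ _ hh.tick) _ _ _ h.tick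

/-- the simulated oracles are those of the gadget matroids -/
theorem oW_oracles {w : ℕ → ℕ} (hP : IsPres n L w P) (M₁ M₂ : Matroid (Fin n)) :
    oW n k L P (oracles M₁ M₂) =
      oracles (lift M₁ k P (clF n L)) (lift M₂ k P (clT n L)) := by
  classical
  funext i S
  unfold oW oracles
  have hset : ∀ u : ℕ → ℕ, {x : Fin n | (x : ℕ) ∈ (Finset.range n).filter fun v => 0 < u v} =
      {v : Fin n | 0 < u v} := by
    intro u
    ext x
    simp only [Set.mem_ofPred_eq, Finset.mem_filter, Finset.mem_range]
    exact and_iff_right x.2
  rw [hset]
  cases i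
  · simp only [Bool.false_eq_true, if_false]
    rw [← Bool.decide_and]
    apply decide_eq_decide.2
    have := liftF_indep (k := k) (S := S) hP M₁
    unfold fs at this
    rw [this, ← bad_eq_zero]
    simp [bI, uI]
  · simp only [if_true]
    rw [← Bool.decide_and]
    apply decide_eq_decide.2
    have := liftT_indep (k := k) (S := S) hP M₂
    unfold fs at this
    rw [this, ← bad_eq_zero]
    simp [bI, uI]

end Vale.Agent.P317.H964
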