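import Vale.Agent.P317.H964.W7

/-!
# P317 (helper964): preparation for the weighted problem
-/

set_option linter.unusedSimpArgs false
set_option linter.unusedVariables false

namespace Vale.Agent.P317.H964

open Rnd Alg

/-- the input with weights -/
def inputW (n e l k L : ℕ) (W : Finset ℕ) : State where
  num := fun x => if x = 0 then n else if x = 1 then e else if x = 2 then l else if x = 3 then k
    else if x = 4 then L else 0
  set := fun X => if X = 0 then W else ∅
  time := 0

/-- one node of a gadget -/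
def nodeC : Cmd :=
  .seq (.add 64 64 61) (.seq (.insert 60 64) (.seq (.add 64 64 61)
    (.seq (.cond 72 66 (.insert 60 64) (.const 67 0)) (.seq (.const 66 1)
      (.seq (.add 64 64 61) (.seq (.add 64 64 61) (.seq (.insert 60 64)
        (.seq (.add 67 64 61) (.seq (.add 67 67 61) (.seq (.add 67 67 61)
          (.seq (.mem 68 65 0) (.seq (.cond 72 68 (.insert 60 67) (.const 67 0))
            (.add 65 65 61)))))))))))))

/-- elements of one node -/
def nodeE (W : Finset ℕ) (b q j g : ℕ) : Prop :=
  g = b + 1 ∨ (g = b + 2 ∧ 1 ≤ j) ∨ g = b + 4 ∨ (g = b + 7 ∧ q ∈ W)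

/-- states of the preparation -/
structure Pq (n e l k L : ℕ) (W : Finset ℕ) (E : ℕ → Prop) (g q c : ℕ) (s : State) : Prop where
  num : ∀ r < 60, s.num r = (inputW n e l k L W).num r
  set : ∀ X < 60, s.set X = (inputW n e l k L W).set X
  n60 : s.num 60 = n
  one : s.num 61 = 1
  k62 : s.num 62 = k
  l63 : s.num 63 = L + 1
  z72 : s.num 72 = 0
  g : s.num 64 = g
  q : s.num 65 = q
  p : ∀ x, x ∈ s.set 60 ↔ E x
  time : s.time ≤ c

variable {n e l k L : ℕ} {W : Finset ℕ} {E : ℕ → Prop} {g q c : ℕ} {s : State}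
  {o : Bool → Finset ℕ → Bool}

theorem run_node {j : ℕ} (h : Pq n e l k L W E g q c s) (h66 : s.num 66 = if j = 0 then 0 else 1) :
    Ex (run o nodeC s) (fun t => Pq n e l k L W (fun x => E x ∨ nodeE W g q j x) (g + 4) (q + 1)
      (c + 16) t ∧ t.num 66 = 1) := by
  have hW : s.set 0 = W := by rw [h.set 0 (by norm_num)]; rfl
  have h60 : ∀ x, x ∈ s.set 60 ↔ E x := h.p
  set b := s.num 64 with hb
  have hg := h.g
  rw [← hb] at hg
  subst hg
  have h61 := h.one
  have h72 := h.z72
  have h65 := h.q
  have hj : (0 < s.num 66) ↔ 1 ≤ j := by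
    rw [h66]; split_ifs <;> omega
  by_cases c1 : 1 ≤ j
  all_goals by_cases c2 : q ∈ W
  · have h66' : (0 < s.num 66) := hj.2 c1
    unfold Ex
    simp [nodeC, run, State.putNum, State.putSet, State.tick, h61, h72, h65, ← hb, h66', hW, c2]
    refine ⟨?_, ?_, ?_, ?_, ?_, ?_, ?_, ?_, ?_, ?_, ?_⟩
    · intro r hr
      simp (disch := omega) [Function.update_of_ne, h.num r hr]
    · intro X hX
      simp (disch := omega) [Function.update_of_ne, h.set X hX]
    · simp [h.n60]
    · simp [h61]
    · simp [h.k62]
    · simp [h.l63]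
    · simp [h72]
    · simp
    · simp
    · intro x
      simp only [Function.update_self, Finset.mem_insert, h60, nodeE]
      simp only [c1, c2, and_true]
      tauto
    · have := h.time; simp only; omega
  · have h66' : (0 < s.num 66) := hj.2 c1
    unfold Ex
    simp [nodeC, run, State.putNum, State.putSet, State.tick, h61, h72, h65, ← hb, h66', hW, c2]
    refine ⟨?_, ?_, ?_, ?_, ?_, ?_, ?_, ?_, ?_, ?_, ?_⟩
    · intro r hr
      simp (disch := omega) [Function.update_of_ne, h.num r hr]
    · intro X hX
      simp (disch := omega) [Function.update_of_ne, h.set X hX]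
    · simp [h.n60]
    · simp [h61]
    · simp [h.k62]
    · simp [h.l63]
    · simp [h72]
    · simp
    · simp
    · intro x
      simp only [Function.update_self, Finset.mem_insert, h60, nodeE]
      simp only [c1, c2, and_true, and_false]
      tauto
    · have := h.time; simp only; omega
  · have h66' : ¬ (0 < s.num 66) := fun hh => c1 (hj.1 hh)
    have h66'' : s.num 66 = 0 := by omega
    unfold Ex
    simp [nodeC, run, State.putNum, State.putSet, State.tick, h61, h72, h65, ← hb, h66'', hW, c2]
    refine ⟨?_, ?_, ?_, ?_, ?_, ?_, ?_, ?_, ?_, ?_, ?_⟩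
    · intro r hr
      simp (disch := omega) [Function.update_of_ne, h.num r hr]
    · intro X hX
      simp (disch := omega) [Function.update_of_ne, h.set X hX]
    · simp [h.n60]
    · simp [h61]
    · simp [h.k62]
    · simp [h.l63]
    · simp [h72]
    · simp
    · simp
    · intro x
      simp only [Function.update_self, Finset.mem_insert, h60, nodeE]
      simp only [c1, c2, and_true, and_false]
      tauto
    · have := h.time; simp only; omega
  · have h66' : ¬ (0 < s.num 66) := fun hh => c1 (hj.1 hh)
    have h66'' : s.num 66 = 0 := by omega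
    unfold Ex
    simp [nodeC, run, State.putNum, State.putSet, State.tick, h61, h72, h65, ← hb, h66'', hW, c2]
    refine ⟨?_, ?_, ?_, ?_, ?_, ?_, ?_, ?_, ?_, ?_, ?_⟩
    · intro r hr
      simp (disch := omega) [Function.update_of_ne, h.num r hr]
    · intro X hX
      simp (disch := omega) [Function.update_of_ne, h.set X hX]
    · simp [h.n60]
    · simp [h61]
    · simp [h.k62]
    · simp [h.l63]
    · simp [h72]
    · simp
    · simp
    · intro x
      simp only [Function.update_self, Finset.mem_insert, h60, nodeE]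
      simp only [c1, c2, and_true, and_false]
      tauto
    · have := h.time; simp only; omega

/-- the nodes of one gadget -/
theorem run_nodes {v : ℕ} (h : Pq n e l k L W E (4 * (L + 1) * v) (L * v) c s) :
    Ex (run o (.seq (.const 66 0) (.loop 4 nodeC)) s) (fun t => Pq n e l k L W
      (fun x => E x ∨ ∃ j < L, nodeE W (4 * (L + 1) * v + 4 * j) (L * v + j) j x)
      (4 * (L + 1) * v + 4 * L) (L * v + L) (c + 17 * L + 2) t) := by
  have hL : s.num 4 = L := by rw [h.num 4 (by norm_num)]; rfl
  set s₁ := s.putNum 66 0 with hs1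
  set Inv : ℕ → State → Prop := fun m t => Pq n e l k L W
      (fun x => E x ∨ ∃ j < m, nodeE W (4 * (L + 1) * v + 4 * j) (L * v + j) j x)
      (4 * (L + 1) * v + 4 * m) (L * v + m) (c + 17 * m + 2) t ∧
      t.num 66 = if m = 0 then 0 else 1 with hInv
  have hstep : ∀ m t, Inv m t → Ex (run o nodeC t.tick) (Inv (m + 1)) := by
    rintro m t ⟨h1, h2⟩
    have h3 : Pq n e l k L W
      (fun x => E x ∨ ∃ j < m, nodeE W (4 * (L + 1) * v + 4 * j) (L * v + j) j x)
      (4 * (L + 1) * v + 4 * m) (L * v + m) (c + 17 * m + 2 + 1) t.tick :=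
      ⟨h1.num, h1.set, h1.n60, h1.one, h1.k62, h1.l63, h1.z72, h1.g, h1.q, h1.p, by
        have := h1.time; simp only [State.tick]; omega⟩
    refine (run_node h3 h2).mono ?_
    rintro t' ⟨h4, h5⟩
    refine ⟨⟨h4.num, h4.set, h4.n60, h4.one, h4.k62, h4.l63, h4.z72, ?_, ?_, ?_, ?_⟩, ?_⟩
    · rw [h4.g]; ring
    · rw [h4.q]; ring
    · intro x
      rw [h4.p x]
      constructor
      · rintro ((h | ⟨j, hj, h⟩) | h)
        · exact Or.inl h
        · exact Or.inr ⟨j, by omega, h⟩
        · exact Or.inr ⟨m, by omega, h⟩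
      · rintro (h | ⟨j, hj, h⟩)
        · exact Or.inl (Or.inl h)
        · rcases Nat.lt_succ_iff_lt_or_eq.1 hj with hj | rfl
          · exact Or.inl (Or.inr ⟨j, hj, h⟩)
          · exact Or.inr h
    · have := h4.time; omega
    · rw [h5, if_neg (by omega)]
  have h0 : Inv 0 s₁.tick := by
    refine ⟨⟨?_, ?_, ?_, ?_, ?_, ?_, ?_, ?_, ?_, ?_, ?_⟩, ?_⟩
    · intro r hr
      simp (disch := omega) [hs1, State.putNum, State.tick, Function.update_of_ne, h.num r hr]
    · intro X hX
      simp [hs1, State.putNum, State.tick, h.set X hX]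
    · simp [hs1, State.putNum, State.tick, h.n60]
    · simp [hs1, State.putNum, State.tick, h.one]
    · simp [hs1, State.putNum, State.tick, h.k62]
    · simp [hs1, State.putNum, State.tick, h.l63]
    · simp [hs1, State.putNum, State.tick, h.z72]
    · simp [hs1, State.putNum, State.tick, h.g]
    · simp [hs1, State.putNum, State.tick, h.q]
    · intro x
      simp [hs1, State.putNum, State.tick, h.p x]
    · have := h.time; simp only [hs1, State.putNum, State.tick]; omega
    · simp [hs1, State.putNum, State.tick]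
  have hloop := ex_loop hstep L 0 _ h0
  rw [Nat.zero_add] at hloop
  have e1 : run o (.seq (.const 66 0) (.loop 4 nodeC)) s = iter (run o nodeC) L s₁.tick := by
    have e4 : s₁.num 4 = L := by simp [hs1, State.putNum, hL]
    rw [← e4]
    rfl
  rw [e1]
  exact hloop.mono fun t ht => ht.1

/-- one gadget -/
def gadC : Cmd := .seq (.seq (.const 66 0) (.loop 4 nodeC))
  (.seq (.add 64 64 61) (.seq (.add 64 64 61) (.seq (.add 64 64 61) (.add 64 64 61))))

theorem run_gad {v : ℕ} (h : Pq n e l k L W E (4 * (L + 1) * v) (L * v) c s) :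
    Ex (run o gadC s) (fun t => Pq n e l k L W
      (fun x => E x ∨ ∃ j < L, nodeE W (4 * (L + 1) * v + 4 * j) (L * v + j) j x)
      (4 * (L + 1) * (v + 1)) (L * (v + 1)) (c + 17 * L + 6) t) := by
  unfold gadC
  refine (run_nodes h).seq fun t h => ?_
  refine ⟨_, rfl, ⟨?_, ?_, ?_, ?_, ?_, ?_, ?_, ?_, ?_, ?_, ?_⟩⟩
  · intro r hr
    simp (disch := omega) [State.putNum, Function.update_of_ne, h.num r hr]
  · intro X hX
    simp [State.putNum, h.set X hX]
  · simp [State.putNum, h.n60]
  · simp [State.putNum, h.one]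
  · simp [State.putNum, h.k62]
  · simp [State.putNum, h.l63]
  · simp [State.putNum, h.z72]
  · simp [State.putNum, h.one, h.g]; ring
  · simp [State.putNum, h.q]; ring
  · intro x
    simp only [State.putNum]; exact h.p x
  · have := h.time; simp only [State.putNum]; omega

/-- preparation -/
def preW : Cmd :=
  .seq (.add 60 0 72) (.seq (.const 61 1) (.seq (.add 62 3 72) (.seq (.add 63 4 61)
    (.seq (.loop 60 gadC) (.seq (.add 0 64 72) (.seq (.const 3 0) (.seq (.const 4 0)
      (.seq (.clear 0) (.seq (.add 73 63 63) (.add 73 73 73))))))))))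

/-- the set of present elements -/
def presP (n L : ℕ) (W : Finset ℕ) (x : ℕ) : Prop :=
  ∃ v < n, ∃ j < L, nodeE W (4 * (L + 1) * v + 4 * j) (L * v + j) j x

theorem run_preW (n e l k L : ℕ) (W : Finset ℕ) :
    Ex (run o preW (inputW n e l k L W)) (fun t => ∃ P : Finset ℕ, (∀ x, x ∈ P ↔ presP n L W x) ∧
      Wq n k L P (n * (17 * L + 7) + 11) t (input (4 * (L + 1) * n) e l)) := by
  set s := inputW n e l k L W with hs
  set s₁ := (((s.putNum 60 n).putNum 61 1).putNum 62 k).putNum 63 (L + 1) with hs1
  set Inv : ℕ → State → Prop := fun m t => Pq n e l k L W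
      (fun x => ∃ v < m, ∃ j < L, nodeE W (4 * (L + 1) * v + 4 * j) (L * v + j) j x)
      (4 * (L + 1) * m) (L * m) (m * (17 * L + 7) + 5) t with hInv
  have hstep : ∀ m t, Inv m t → Ex (run o gadC t.tick) (Inv (m + 1)) := by
    intro m t h1
    have h3 : Pq n e l k L W
      (fun x => ∃ v < m, ∃ j < L, nodeE W (4 * (L + 1) * v + 4 * j) (L * v + j) j x)
      (4 * (L + 1) * m) (L * m) (m * (17 * L + 7) + 5 + 1) t.tick :=
      ⟨h1.num, h1.set, h1.n60, h1.one, h1.k62, h1.l63, h1.z72, h1.g, h1.q, h1.p, by
        have := h1.time; simp only [State.tick]; omega⟩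
    refine (run_gad h3).mono ?_
    intro t' h4
    refine ⟨h4.num, h4.set, h4.n60, h4.one, h4.k62, h4.l63, h4.z72, h4.g, h4.q, ?_, ?_⟩
    · intro x
      rw [h4.p x]
      constructor
      · rintro (⟨v, hv, h⟩ | h)
        · exact ⟨v, by omega, h⟩
        · exact ⟨m, by omega, h⟩
      · rintro ⟨v, hv, h⟩
        rcases Nat.lt_succ_iff_lt_or_eq.1 hv with hv | rfl
        · exact Or.inl ⟨v, hv, h⟩
        · exact Or.inr h
    · have := h4.time
      have e5 : (m + 1) * (17 * L + 7) = m * (17 * L + 7) + (17 * L + 7) := by ring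
      rw [e5]
      omega
  have h0 : Inv 0 s₁.tick := by
    refine ⟨?_, ?_, ?_, ?_, ?_, ?_, ?_, ?_, ?_, ?_, ?_⟩
    · intro r hr
      simp (disch := omega) [hs1, State.putNum, State.tick, Function.update_of_ne, hs]
    · intro X hX
      simp [hs1, State.putNum, State.tick, hs]
    · simp [hs1, State.putNum, State.tick]
    · simp [hs1, State.putNum, State.tick]
    · simp [hs1, State.putNum, State.tick]
    · simp [hs1, State.putNum, State.tick]
    · simp [hs1, State.putNum, State.tick, hs, inputW]
    · simp [hs1, State.putNum, State.tick, hs, inputW]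
    · simp [hs1, State.putNum, State.tick, hs, inputW]
    · intro x
      simp [hs1, State.putNum, State.tick, hs, inputW]
    · simp [hs1, State.putNum, State.tick, hs, inputW]
  have hloop := ex_loop hstep n 0 _ h0
  rw [Nat.zero_add] at hloop
  obtain ⟨t, ht, h⟩ := hloop
  have e1 : run o preW s = run o (.seq (.add 0 64 72) (.seq (.const 3 0) (.seq (.const 4 0)
      (.seq (.clear 0) (.seq (.add 73 63 63) (.add 73 73 73)))))) t := by
    have ea : run o preW s = (iter (run o gadC) (s₁.num 60) s₁.tick).bind
        (run o (.seq (.add 0 64 72) (.seq (.const 3 0) (.seq (.const 4 0)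
      (.seq (.clear 0) (.seq (.add 73 63 63) (.add 73 73 73))))))) := by
      rw [hs1, hs]
      rfl
    have eb : s₁.num 60 = n := by simp [hs1, State.putNum]
    rw [ea, eb, ht]
    rfl
  rw [e1]
  refine ⟨_, rfl, t.set 60, h.p, ⟨?_, ?_, ?_, ?_, ?_, ?_, ?_, ?_, ?_, ?_⟩⟩
  · intro r hr
    by_cases h0 : r = 0
    · subst h0
      simp [State.putNum, State.putSet, h.g, h.z72, input]
    · by_cases h3 : r = 3
      · subst h3; simp [State.putNum, State.putSet, input]
      · by_cases h4 : r = 4
        · subst h4; simp [State.putNum, State.putSet, input]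
        · simp (disch := omega) [State.putNum, State.putSet, Function.update_of_ne, h.num r hr,
            input, inputW, h0, h3, h4]
  · intro X hX
    by_cases h0 : X = 0
    · subst h0; simp [State.putNum, State.putSet, input]
    · simp [State.putNum, State.putSet, h0, h.set X hX, input, inputW]
  · simp [State.putNum, State.putSet, h.n60]
  · simp [State.putNum, State.putSet, h.one]
  · simp [State.putNum, State.putSet, h.k62]
  · simp [State.putNum, State.putSet, h.l63]
  · simp [State.putNum, State.putSet, h.z72]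
  · simp [State.putNum, State.putSet, h.l63]; ring
  · simp [State.putNum, State.putSet]
  · have := h.time
    simp only [State.putNum, State.putSet, input]
    omega

/-- the set of bits -/
theorem isPres_of {w : ℕ → ℕ} {P : Finset ℕ}
    (hW : ∀ v < n, ∀ j < L, L * v + j ∈ W ↔ (w v).testBit j = true)
    (hP : ∀ x, x ∈ P ↔ presP n L W x) : IsPres n L w P := by
  intro v hv c hc
  rw [hP]
  unfold presP pres nodeE
  constructor
  · rintro ⟨v', hv', j, hj, h⟩
    have key : ∀ {c' : ℕ}, c' < 4 * (L + 1) → 4 * (L + 1) * v + c = 4 * (L + 1) * v' + c' →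
        v = v' ∧ c = c' := by
      intro c' hc' he
      have h1 := div_g (L := L) (v := v) hc
      have h2 := div_g (L := L) (v := v') hc'
      have h3 : v = v' := by rw [← h1, ← h2, he]
      subst h3
      exact ⟨rfl, by omega⟩
    refine ⟨j, hj, ?_⟩
    rcases h with h | ⟨h, h'⟩ | h | ⟨h, h'⟩
    · rw [add_assoc] at h
      obtain ⟨rfl, rfl⟩ := key (by omega) h
      exact Or.inl rfl
    · rw [add_assoc] at h
      obtain ⟨rfl, rfl⟩ := key (by omega) h
      exact Or.inr (Or.inl ⟨rfl, h'⟩)
    · rw [add_assoc] at h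
      obtain ⟨rfl, rfl⟩ := key (by omega) h
      exact Or.inr (Or.inr (Or.inl rfl))
    · rw [add_assoc] at h
      obtain ⟨rfl, rfl⟩ := key (by omega) h
      exact Or.inr (Or.inr (Or.inr ⟨rfl, (hW v hv j hj).1 h'⟩))
  · rintro ⟨j, hj, h⟩
    refine ⟨v, hv, j, hj, ?_⟩
    rcases h with h | ⟨h, h'⟩ | h | ⟨h, h'⟩
    · exact Or.inl (by omega)
    · exact Or.inr (Or.inl ⟨by omega, h'⟩)
    · exact Or.inr (Or.inr (Or.inl (by omega)))
    · exact Or.inr (Or.inr (Or.inr ⟨by omega, (hW v hv j hj).2 h'⟩))

end Vale.Agent.P317.H964
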