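import Vale.Agent.P317.H964.W8

/-!
# P317 (helper964): the counting and the sampling program for binary weights
-/

set_option linter.unusedSimpArgs false
set_option linter.unusedVariables false

namespace Vale.Agent.P317.H964

open Rnd Alg

variable {n k L : ℕ} {w : ℕ → ℕ} {P W : Finset ℕ} {o : Bool → Finset ℕ → Bool}

/-- the output is `0 / 1` if the rank of the second matroid is smaller than `k` -/
def finW : Cmd :=
  .seq (.const 18 0) (.seq (.const 5 1) (.seq (.add 0 60 18) (.seq rankCodeT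
    (.cond 9 62 (.seq (.const 3 0) (.const 4 1)) skp))))

theorem run_finW {C : ℕ} {s' s : State} (h : Wq n k L P C s' s) :
    Ex (run o finW s') (fun t =>
      ((greedy (o true) (fun _ => true) n).2 < k → t.num 3 = 0 ∧ t.num 4 = 1) ∧
      (¬ (greedy (o true) (fun _ => true) n).2 < k → t.num 3 = s.num 3 ∧ t.num 4 = s.num 4) ∧
      t.time ≤ C + cW n L * s.time + (9 * n + 11)) := by
  set s₁ := ((s'.putNum 18 0).putNum 5 1).putNum 0 n with hs1
  have e0 : run o (.seq (.const 18 0) (.seq (.const 5 1) (.seq (.add 0 60 18) (.seq rankCodeT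
    (.cond 9 62 (.seq (.const 3 0) (.const 4 1)) skp))))) s' =
      run o (.seq rankCodeT (.cond 9 62 (.seq (.const 3 0) (.const 4 1)) skp)) s₁ := by
    have k : ((s'.putNum 18 0).putNum 5 1).num 60 + ((s'.putNum 18 0).putNum 5 1).num 18 = n := by
      simp [State.putNum, h.n60]
    rw [hs1]
    simp only [run, bind_leaf, k]
  unfold finW
  rw [e0]
  refine (run_rankT (o := o) (n := n) (s := s₁) (by simp [hs1, State.putNum])
    (by simp [hs1, State.putNum]) (by simp [hs1, State.putNum])).seq ?_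
  rintro s₂ ⟨g1, g2, g3, g4⟩
  have e3 : s₂.num 3 = s.num 3 := by
    rw [g1 3 (by norm_num) (by norm_num)]
    simp [hs1, State.putNum, h.num 3 (by norm_num)]
  have e4 : s₂.num 4 = s.num 4 := by
    rw [g1 4 (by norm_num) (by norm_num)]
    simp [hs1, State.putNum, h.num 4 (by norm_num)]
  have e63 : s₂.num 62 = k := by
    rw [g1 62 (by norm_num) (by norm_num)]
    simp [hs1, State.putNum, h.k62]
  have et : s₁.time = s'.time + 3 := by simp only [hs1, State.putNum]
  have ht := h.time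
  by_cases hc : (greedy (o true) (fun _ => true) n).2 < k
  · have hc' : s₂.num 9 < s₂.num 62 := by rw [g4, e63]; exact hc
    unfold Ex
    simp only [run, if_pos hc', bind_leaf]
    refine ⟨_, rfl, fun _ => ⟨?_, ?_⟩, fun hn => absurd hc hn, ?_⟩
    · simp [State.putNum]
    · simp [State.putNum]
    · simp only [State.putNum, State.tick]
      omega
  · have hc' : ¬ s₂.num 9 < s₂.num 62 := by rw [g4, e63]; exact hc
    unfold Ex
    simp only [run, if_neg hc', skp]
    refine ⟨_, rfl, fun hn => absurd hn hc, fun _ => ⟨?_, ?_⟩, ?_⟩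
    · simp [State.putNum, State.tick, e3]
    · simp [State.putNum, State.tick, e4]
    · simp only [State.putNum, State.tick]
      omega

/-- the counting program for weights -/
def cntW : Cmd := .seq (.seq preW (trW progT)) finW

/-- time of the preparation -/
def tP (n L : ℕ) : ℕ := n * (17 * L + 7) + 11

theorem lowS_progT : lowS 60 progT = true := by decide +kernel

theorem sim_wrapW (o : Bool → Finset ℕ → Bool) (c : Cmd) (hc : lowN 60 c = true)
    (hs : lowS 60 c = true) (n e l k L : ℕ) (W : Finset ℕ) :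
    ∃ P : Finset ℕ, (∀ x, x ∈ P ↔ presP n L W x) ∧
      Sim (Wq n k L P (tP n L)) (run o (.seq preW (trW c)) (inputW n e l k L W))
        (run (oW n k L P o) c (input (4 * (L + 1) * n) e l)) := by
  obtain ⟨s', h1, P, hP, h2⟩ := run_preW (o := o) n e l k L W
  have e1 : run o (.seq preW (trW c)) (inputW n e l k L W) = run o (trW c) s' := by
    have : run o (.seq preW (trW c)) (inputW n e l k L W) =
      (run o preW (inputW n e l k L W)).bind (run o (trW c)) := rfl
    rw [this, h1]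
    rfl
  exact ⟨P, hP, by rw [e1]; exact sim_trW c hc hs s' _ h2⟩

theorem bind_leaf' (t : Rnd State) : t = t.bind .leaf := by
  induction t with
  | leaf a => rfl
  | flip t u iht ihu => rw [bind_flip, ← iht, ← ihu]

theorem timeW1 {x n L r : ℕ} (hx3 : 3 ≤ x) (hn : n ≤ x) (hL : L + 1 ≤ x) (hr : r ≤ x) :
    4 * (L + 1) * n + r ≤ x ^ 5 := by
  have a1 : 4 * (L + 1) * n ≤ 4 * x * x := Nat.mul_le_mul (Nat.mul_le_mul_left 4 hL) hn
  have a2 : x * 1 ≤ x * x := Nat.mul_le_mul_left x (by omega)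
  have a3 : 27 ≤ x ^ 3 := by
    calc 27 = 3 ^ 3 := by norm_num
      _ ≤ x ^ 3 := Nat.pow_le_pow_left hx3 3
  have a4 : 5 * (x * x) ≤ x ^ 3 * (x * x) := Nat.mul_le_mul_right _ (by omega)
  have a5 : x ^ 3 * (x * x) = x ^ 5 := by rw [← sq, ← pow_add]
  have a6 : 4 * x * x = 4 * (x * x) := Nat.mul_assoc _ _ _
  rw [a5] at a4
  rw [a6] at a1
  generalize x * x = y at *
  generalize x ^ 5 = z at *
  generalize 4 * (L + 1) * n = u at *
  omega

theorem timeW2 {x n L : ℕ} (hx3 : 3 ≤ x) (hn : n ≤ x) (hL : L + 1 ≤ x) :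
    cW n L ≤ 51 * (x * x) ∧ tP n L + (20 * n + 20) ≤ 75 * (x * x) := by
  have a2 : x * 1 ≤ x * x := Nat.mul_le_mul_left x (by omega)
  constructor
  · unfold cW
    have a1 : n * (29 * (L + 1) + 10) ≤ x * (39 * x) := Nat.mul_le_mul hn (by omega)
    have a3 : x * (39 * x) = 39 * (x * x) := by ring
    rw [a3] at a1
    generalize x * x = y at *
    generalize n * (29 * (L + 1) + 10) = z at *
    omega
  · unfold tP
    have a1 : n * (17 * L + 7) ≤ x * (24 * x) := Nat.mul_le_mul hn (by omega)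
    have a3 : x * (24 * x) = 24 * (x * x) := by ring
    rw [a3] at a1
    generalize x * x = y at *
    generalize n * (17 * L + 7) = z at *
    omega

theorem timeW3 {x a p t : ℕ} (hx3 : 3 ≤ x) (ha : a ≤ 51 * (x * x)) (hp : p ≤ 75 * (x * x))
    (ht : t ≤ x ^ 1205) : p + a * t ≤ x ^ 1220 := by
  have h1 : a * t ≤ 51 * (x * x) * x ^ 1205 := Nat.mul_le_mul ha ht
  have h2 : 75 * (x * x) * 1 ≤ 75 * (x * x) * x ^ 1205 :=
    Nat.mul_le_mul_left _ (Nat.one_le_pow _ _ (by omega))
  have h3 : 126 * (x * x * x ^ 1205) ≤ x ^ 13 * (x * x * x ^ 1205) := by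
    apply Nat.mul_le_mul_right
    calc 126 ≤ 3 ^ 13 := by norm_num
      _ ≤ x ^ 13 := Nat.pow_le_pow_left hx3 13
  have h4 : x ^ 13 * (x * x * x ^ 1205) = x ^ 1220 := by
    rw [← sq, ← pow_add, ← pow_add]
  rw [h4] at h3
  rw [Nat.mul_assoc] at h1 h2
  rw [Nat.mul_assoc 75 (x * x) (x ^ 1205)] at h2
  generalize x * x * x ^ 1205 = z at *
  generalize x ^ 1220 = y at *
  generalize x * x = u at *
  generalize a * t = q at *
  omega

theorem timeW {n L e l t : ℕ} (he : 0 < e) (ht : t ≤ (4 * (L + 1) * n + e + l + 2) ^ 241) :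
    tP n L + cW n L * t + (20 * n + 20) ≤ (n + L + e + l + 2) ^ 1220 := by
  have key : ∀ x : ℕ, 3 ≤ x → n ≤ x → L + 1 ≤ x → e + l + 2 ≤ x →
      tP n L + cW n L * t + (20 * n + 20) ≤ x ^ 1220 := by
    intro x h1 h2 h3 h4
    have a1 : t ≤ x ^ 1205 := by
      refine ht.trans ?_
      have a2 : 4 * (L + 1) * n + e + l + 2 ≤ x ^ 5 := by
        have := timeW1 h1 h2 h3 h4
        omega
      calc (4 * (L + 1) * n + e + l + 2) ^ 241 ≤ (x ^ 5) ^ 241 := Nat.pow_le_pow_left a2 241
        _ = x ^ 1205 := by rw [← pow_mul]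
    obtain ⟨a3, a4⟩ := timeW2 h1 h2 h3
    have := timeW3 h1 a3 a4 a1
    generalize x ^ 1220 = y at *
    generalize cW n L * t = q at *
    omega
  exact key _ (by omega) (by omega) (by omega) (by omega)

/-- the weighted number -/
noncomputable def wsum {n : ℕ} (M₁ M₂ : Matroid (Fin n)) (k : ℕ) (w : ℕ → ℕ) : ℕ :=
  ∑ A ∈ famK M₁ M₂ k, ∏ v ∈ A, w v

theorem famK_empty {M₁ M₂ : Matroid (Fin n)} (h : rkM M₂ Finset.univ < k) : famK M₁ M₂ k = ∅ := by
  rw [Finset.eq_empty_iff_forall_notMem]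
  intro A hA
  rw [mem_famK] at hA
  have := le_rkM hA.2.1 (Finset.subset_univ _)
  omega

theorem card_sol_all {M₁ M₂ : Matroid (Fin n)} (hL : 0 < L) (hP : IsPres n L w P)
    (hw : ∀ v < n, w v < 2 ^ L) (hk : k ≤ rkM M₂ Finset.univ) :
    (indSpan (lift M₁ k P (clF n L)) (lift M₂ k P (clT n L))).card = wsum M₁ M₂ k w := by
  classical
  have := card_sol (M₁ := M₁) (M₂ := M₂) hL hP hw hk (fun _ => True)
  rw [Finset.filter_true, Finset.filter_true] at this
  exact this

theorem cntW_spec (n : ℕ) (M₁ M₂ : Matroid (Fin n)) (e l k L : ℕ) (he : 0 < e) (hL : 0 < L)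
    (w : ℕ → ℕ) (W : Finset ℕ) (hw : ∀ v < n, w v < 2 ^ L)
    (hW : ∀ v < n, ∀ j < L, L * v + j ∈ W ↔ (w v).testBit j = true) :
    (run (oracles M₁ M₂) cntW (inputW n e l k L W)).All
      (fun s => s.time ≤ (n + L + e + l + 2) ^ 1220) ∧
    1 - (1 / 2) ^ l ≤ (run (oracles M₁ M₂) cntW (inputW n e l k L W)).prob (fun s =>
      0 < s.num 4 ∧ |(s.num 3 : ℝ) / s.num 4 - wsum M₁ M₂ k w| ≤ wsum M₁ M₂ k w / e) := by
  obtain ⟨P, hP, hsim⟩ := sim_wrapW (oracles M₁ M₂) progT low_progT lowS_progT n e l k L W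
  have hPr := isPres_of hW hP
  have hsim2 : Sim (fun t s =>
      ((greedy (oracles M₁ M₂ true) (fun _ => true) n).2 < k → t.num 3 = 0 ∧ t.num 4 = 1) ∧
      (¬ (greedy (oracles M₁ M₂ true) (fun _ => true) n).2 < k →
        t.num 3 = s.num 3 ∧ t.num 4 = s.num 4) ∧
      t.time ≤ tP n L + cW n L * s.time + (9 * n + 11))
      (run (oracles M₁ M₂) cntW (inputW n e l k L W))
      (run (oW n k L P (oracles M₁ M₂)) progT (input (4 * (L + 1) * n) e l)) := by
    have e1 : run (oracles M₁ M₂) cntW (inputW n e l k L W) =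
      (run (oracles M₁ M₂) (.seq preW (trW progT)) (inputW n e l k L W)).bind
        (run (oracles M₁ M₂) finW) := rfl
    rw [e1, bind_leaf' (run (oW n k L P (oracles M₁ M₂)) progT (input (4 * (L + 1) * n) e l))]
    refine hsim.bind ?_
    intro s' s hs
    exact (run_finW hs).leaf fun t ht => ht
  rw [oW_oracles hPr] at hsim2
  rw [greedy_rank_univT] at hsim2
  obtain ⟨h1, h2⟩ := progT_spec (4 * (L + 1) * n) (lift M₁ k P (clF n L)) (lift M₂ k P (clT n L))
    e l he
  constructor
  · refine hsim2.all h1 ?_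
    rintro t s ⟨-, -, ht⟩ hs
    have := timeW (n := n) (L := L) (e := e) (l := l) he hs
    omega
  · by_cases hb : rkM M₂ Finset.univ < k
    · have hz : wsum M₁ M₂ k w = 0 := by
        unfold wsum; rw [famK_empty hb, Finset.sum_empty]
      rw [hz]
      have hp : (run (oracles M₁ M₂) cntW (inputW n e l k L W)).prob (fun s =>
          0 < s.num 4 ∧ |(s.num 3 : ℝ) / s.num 4 - ((0 : ℕ) : ℝ)| ≤ ((0 : ℕ) : ℝ) / e) =
          (run (oracles (lift M₁ k P (clF n L)) (lift M₂ k P (clT n L))) progT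
            (input (4 * (L + 1) * n) e l)).prob (fun _ => True) := by
        refine prob_eq_of_sim hsim2 ?_
        rintro t s ⟨k1, -, -⟩
        obtain ⟨k3, k4⟩ := k1 hb
        rw [k3, k4]
        simp
      rw [hp]
      have : (run (oracles (lift M₁ k P (clF n L)) (lift M₂ k P (clT n L))) progT
            (input (4 * (L + 1) * n) e l)).prob (fun _ => True) = 1 := by
        rw [prob_eq_ex]
        simp only [if_true]
        exact ex_const _ _
      rw [this]
      have : (0 : ℝ) ≤ (1 / 2) ^ l := by positivity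
      linarith
    · rw [card_sol_all hL hPr hw (not_lt.1 hb)] at h2
      refine h2.trans (le_of_eq ?_)
      refine (prob_eq_of_sim hsim2 ?_).symm
      rintro t s ⟨-, k2, -⟩
      obtain ⟨k3, k4⟩ := k2 hb
      rw [k3, k4]

end Vale.Agent.P317.H964
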