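import Vale.Agent.P317.MathlibUsed
import Vale.Agent.P317.Prog

/-!
# P317 (helper964): definitions for the hand-in on binary weights
-/

namespace Vale.Agent.P317.Wt

open Vale.Agent.P317.Small

/-- The common independent sets with `k` elements. -/
def sized {n : ℕ} (M₁ M₂ : Matroid (Fin n)) (k : ℕ) : Set (Set (Fin n)) :=
  {A | M₁.Indep A ∧ M₂.Indep A ∧ A.encard = k}

open Classical in
/-- The sum, over the members of `F`, of the products of the weights of their elements. -/
noncomputable def weight {n : ℕ} (w : Fin n → ℕ) (F : Set (Set (Fin n))) : ℝ :=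
  ∑ A : Finset (Fin n), if (A : Set (Fin n)) ∈ F then ∏ v ∈ A, (w v : ℝ) else 0

/-- The input: `n`, `e`, `l`, `k`, `L` in the number registers `0, 1, 2, 3, 4`; set register `0`
holds the bits of the weights: `L * v + j` for all `v < n`, `j < L` such that bit `j` of the weight
of `v` is one; all else is empty. -/
def inputW (n e l k L : ℕ) (w : Fin n → ℕ) : State :=
  ⟨fun x => if x = 0 then n else if x = 1 then e else if x = 2 then l else if x = 3 then k
    else if x = 4 then L else 0,
   fun X => if X = 0 then
      (Finset.univ.filter fun p : Fin n × Fin L => (w p.1).testBit p.2 = true).image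
        fun p => L * p.1 + p.2
    else ∅, 0⟩

/-- Program `c`, started in `s₀` with oracles `o`, makes at most `T` steps for all outcomes of its
coins, and with probability at least `1 - δ` the quotient of its final number registers `3` and `4`
is `Z` up to a factor between `1 - ε` and `1 + ε`. -/
structure Estimates (o : Bool → Finset ℕ → Bool) (c : Prog) (s₀ : State) (Z ε δ : ℝ) (T : ℕ) :
    Prop where
  time : (run o c s₀).prob (fun s => s.time ≤ T) = 1
  accurate : 1 - δ ≤ (run o c s₀).prob (fun s => 0 < s.num 4 ∧
    (1 - ε) * Z ≤ (s.num 3 : ℝ) / s.num 4 ∧ (s.num 3 : ℝ) / s.num 4 ≤ (1 + ε) * Z)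

/-- Program `c`, started in `s₀` with oracles `o`, makes at most `T` steps for all outcomes of its
coins, and if the total weight of `F` is positive, then the law of its final set register `0` is
within `η`, in total variation distance, of the law on `F` proportional to the weight. -/
structure SamplesW {n : ℕ} (o : Bool → Finset ℕ → Bool) (c : Prog) (s₀ : State)
    (w : Fin n → ℕ) (F : Set (Set (Fin n))) (η : ℝ) (T : ℕ) : Prop where
  time : (run o c s₀).prob (fun s => s.time ≤ T) = 1
  law : 0 < weight w F → ∀ G : Set (Set (Fin n)),
    |(run o c s₀).prob (fun s => {x : Fin n | (x : ℕ) ∈ s.set 0} ∈ G) -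
      weight w (F ∩ G) / weight w F| ≤ η

end Vale.Agent.P317.Wt
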