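import Vale.Agent.P317.H964.Conv
import Vale.Agent.P317.H964.W10
import Vale.Agent.P317.H964.WDefs

/-!
# P317 (helper964): from the first form of the language to the one of the statement, weights
-/

namespace Vale.Agent.P317.H964

open Vale.Agent.P317 Vale.Agent.P317.Small Vale.Agent.P317.Wt

variable {n : ℕ} {M₁ M₂ : Matroid (Fin n)} {c : Cmd} {s₀ : P317.State}
  {e l T T' : ℕ} {ε δ : ℝ}

theorem estimates_of {Z : ℕ} {Z' : ℝ} (hZ : Z' = Z)
    (h2 : 1 - (1 / 2) ^ l ≤ (P317.run (P317.oracles M₁ M₂) c s₀).prob (fun s => 0 < s.num 4 ∧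
      |(s.num 3 : ℝ) / s.num 4 - (Z : ℕ)| ≤ (Z : ℕ) / e))
    (h1 : (P317.run (P317.oracles M₁ M₂) c s₀).All (fun s => s.time ≤ T'))
    (hT : T = T')
    (he : (1 : ℝ) / e ≤ ε) (hδ : ((1 : ℝ) / 2) ^ l ≤ δ) :
    Estimates (Small.oracles M₁ M₂) (cvC c) (cvS s₀) Z' ε δ T := by
  subst hT
  subst hZ
  have h0 : Small.run (Small.oracles M₁ M₂) (cvC c) (cvS s₀) =
      cvR cvS (P317.run (P317.oracles M₁ M₂) c s₀) := by
    have e1 : Small.oracles M₁ M₂ = P317.oracles M₁ M₂ := rfl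
    rw [e1, cv_run]
  refine ⟨?_, ?_⟩
  · rw [h0]
    exact prob_cv_one (f := cvS) (fun s hs => hs) h1
  · rw [h0]
    have h3 : 1 - δ ≤ 1 - (1 / 2) ^ l := by linarith
    refine h3.trans (h2.trans ?_)
    exact prob_cv (f := cvS) (fun s h4 => ⟨h4.1, Alg.good_interval he h4.2⟩) _

/-- weights on all numbers -/
def exw {n : ℕ} (w : Fin n → ℕ) (v : ℕ) : ℕ := if h : v < n then w ⟨v, h⟩ else 0

theorem exw_coe (w : Fin n → ℕ) (v : Fin n) : exw w v = w v := by
  unfold exw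
  rw [dif_pos v.2]

theorem weight_eq (w : Fin n → ℕ) (k : ℕ) :
    weight w (sized M₁ M₂ k) = (wsum M₁ M₂ k (exw w) : ℕ) := by
  classical
  unfold weight wsum famK
  rw [Finset.sum_filter]
  push_cast
  refine Finset.sum_congr rfl fun A _ => ?_
  have hA : (A : Set (Fin n)) ∈ sized M₁ M₂ k ↔
      M₁.Indep (A : Set (Fin n)) ∧ M₂.Indep (A : Set (Fin n)) ∧ A.card = k := by
    unfold sized
    rw [Set.mem_ofPred_eq, Set.encard_coe_eq_coe_finsetCard]
    norm_cast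
  by_cases h : (A : Set (Fin n)) ∈ sized M₁ M₂ k
  · rw [if_pos h, if_pos (hA.1 h)]
    exact Finset.prod_congr rfl fun v _ => by rw [exw_coe]
  · rw [if_neg h, if_neg (fun h' => h (hA.2 h'))]

theorem weight_inter_eq (w : Fin n → ℕ) (k : ℕ) (G : Set (Set (Fin n))) :
    weight w (sized M₁ M₂ k ∩ G) = (wsumG M₁ M₂ k (exw w) G : ℕ) := by
  classical
  unfold weight wsumG famK
  rw [Finset.filter_filter, Finset.sum_filter]
  push_cast
  refine Finset.sum_congr rfl fun A _ => ?_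
  have hA : (A : Set (Fin n)) ∈ sized M₁ M₂ k ∩ G ↔
      (M₁.Indep (A : Set (Fin n)) ∧ M₂.Indep (A : Set (Fin n)) ∧ A.card = k) ∧
        (A : Set (Fin n)) ∈ G := by
    unfold sized
    rw [Set.mem_inter_iff, Set.mem_ofPred_eq, Set.encard_coe_eq_coe_finsetCard]
    norm_cast
  by_cases h : (A : Set (Fin n)) ∈ sized M₁ M₂ k ∩ G
  · rw [if_pos h, if_pos (hA.1 h)]
    exact Finset.prod_congr rfl fun v _ => by rw [exw_coe]
  · rw [if_neg h, if_neg (fun h' => h (hA.2 h'))]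

theorem cvS_input (n e l k L : ℕ) (w : Fin n → ℕ) :
    cvS (H964.inputW n e l k L ((Finset.univ.filter fun p : Fin n × Fin L =>
      (w p.1).testBit p.2 = true).image fun p => L * p.1 + p.2)) = Wt.inputW n e l k L w := rfl

theorem bits_spec {L : ℕ} (w : Fin n → ℕ) : ∀ v < n, ∀ j < L, L * v + j ∈
    ((Finset.univ.filter fun p : Fin n × Fin L => (w p.1).testBit p.2 = true).image
      fun p => L * (p.1 : ℕ) + p.2) ↔ (exw w v).testBit j = true := by
  intro v hv j hj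
  rw [Finset.mem_image]
  constructor
  · rintro ⟨⟨v', j'⟩, h1, h2⟩
    rw [Finset.mem_filter] at h1
    simp only at h1 h2
    have h3 : (v' : ℕ) = v := by
      have a1 : (L * (v' : ℕ) + j') / L = v' := by
        rw [Nat.mul_add_div (by omega), Nat.div_eq_of_lt j'.2, Nat.add_zero]
      have a2 : (L * v + j) / L = v := by
        rw [Nat.mul_add_div (by omega), Nat.div_eq_of_lt hj, Nat.add_zero]
      rw [← a1, ← a2, h2]
    have h4 : (j' : ℕ) = j := by rw [h3] at h2; omega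
    rw [← h3, ← h4, exw_coe]
    exact h1.2
  · intro h
    refine ⟨(⟨v, hv⟩, ⟨j, hj⟩), ?_, rfl⟩
    rw [Finset.mem_filter]
    refine ⟨Finset.mem_univ _, ?_⟩
    have := exw_coe w ⟨v, hv⟩
    simp only at this ⊢
    rw [← this]
    exact h

theorem exw_lt {L : ℕ} {w : Fin n → ℕ} (hw : ∀ v, w v < 2 ^ L) : ∀ v < n, exw w v < 2 ^ L := by
  intro v hv
  have := exw_coe w ⟨v, hv⟩
  simp only at this
  rw [this]
  exact hw _

theorem samplesW_of {w : Fin n → ℕ} {k : ℕ}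
    (h1 : (P317.run (P317.oracles M₁ M₂) c s₀).All (fun s => s.time ≤ T'))
    (hT : T = T')
    (h2 : 0 < wsum M₁ M₂ k (exw w) → ∀ 𝓖 : Set (Set (Fin n)),
      |(P317.run (P317.oracles M₁ M₂) c s₀).prob
          (fun s => {x : Fin n | (x : ℕ) ∈ s.set 0} ∈ 𝓖) -
        (wsumG M₁ M₂ k (exw w) 𝓖 : ℝ) / wsum M₁ M₂ k (exw w)| ≤ (1 / 2) ^ l + 1 / e)
    (he : (1 : ℝ) / e ≤ ε) (hδ : ((1 : ℝ) / 2) ^ l ≤ δ) :
    SamplesW (Small.oracles M₁ M₂) (cvC c) (cvS s₀) w (sized M₁ M₂ k) (ε + δ) T := by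
  subst hT
  have h0 : Small.run (Small.oracles M₁ M₂) (cvC c) (cvS s₀) =
      cvR cvS (P317.run (P317.oracles M₁ M₂) c s₀) := by
    have e1 : Small.oracles M₁ M₂ = P317.oracles M₁ M₂ := rfl
    rw [e1, cv_run]
  refine ⟨?_, ?_⟩
  · rw [h0]
    exact prob_cv_one (f := cvS) (fun s hs => hs) h1
  · intro hne G
    rw [weight_eq] at hne
    rw [h0, ← prob_cv_eq (f := cvS) (p := fun s => {x : Fin n | (x : ℕ) ∈ s.set 0} ∈ G)
      (fun s => Iff.rfl), weight_eq, weight_inter_eq]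
    exact (h2 (by exact_mod_cast hne) G).trans (by linarith)

end Vale.Agent.P317.H964
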